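import Vale.Agent.P168.Resp

/-!
# P168: auxiliary signs along a chain
-/

namespace Vale.Agent.P168

open Finset PW
open scoped BigOperators

variable {α : Type} [Fintype α] {Ω : Type} [Fintype Ω]

/-- The weights are carried by the set `S`. -/
def Supp (μ : PW α) (S : α → Prop) : Prop :=
  ∀ F F' : α → ℝ, (∀ x, S x → F x = F' x) → μ.E F = μ.E F'

theorem Supp.tilt {μ : PW α} {S : α → Prop} (h : Supp μ S) (G : α → ℝ) : Supp (μ.tilt G) S :=
  fun F F' hF => by
    rw [E_tilt, E_tilt, h _ (fun x => Real.exp (G x) * F' x) fun x hx => by rw [hF x hx]]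

theorem Supp.and {μ : PW α} {S S' : α → Prop} (h : Supp μ S) (h' : Supp μ S') :
    Supp μ fun x => S x ∧ S' x := fun F F' hF => by
  classical
  rw [h F (fun x => if S x then F x else F' x) fun x hx => by simp [hx]]
  exact h' _ _ fun x hx => by
    by_cases h1 : S x
    · simp [h1, hF x ⟨h1, hx⟩]
    · simp [h1]

variable {a : ℕ → ℝ} {P P' : Ch Ω} {j m : ℕ} {S : Ω → Prop}

theorem A_local (hS : ∀ i < m, ∀ x, S x → Supp (P i x) S) {F F' : Ω → ℝ}
    (hF : ∀ x, S x → F x = F' x) (p : ℕ) (hp : p ≤ m) :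
    ∀ x, S x → A P j p F x = A P j p F' x := by
  induction p using ht_induction (j := j) with
  | h0 p h => simpa only [A_of_le h] using hF
  | hs p h ih =>
    intro x hx
    rw [A_succ h, A_succ h]
    exact hS p (by omega) x hx _ _ (ih (by omega))

theorem X_local (hS : ∀ i < m, ∀ x, S x → Supp (P i x) S) {G G' : Ω → ℝ}
    (hG : ∀ x, S x → G x = G' x) (p : ℕ) (hp : p ≤ m) :
    ∀ x, S x → X a P j G p x = X a P j G' p x := by
  induction p using ht_induction (j := j) with
  | h0 p h => simpa only [X_of_le h] using hG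
  | hs p h ih =>
    intro x hx
    rw [X_succ h, X_succ h, lam, lam,
      hS p (by omega) x hx _ (fun y => Real.exp (a p * X a P j G' p y)) fun y hy => by
        rw [ih (by omega) y hy]]

theorem A_T_local (hS : ∀ i < m, ∀ x, S x → Supp (P i x) S) {G G' F F' : Ω → ℝ}
    (hG : ∀ x, S x → G x = G' x) (hF : ∀ x, S x → F x = F' x) (p : ℕ) (hp : p ≤ m) :
    ∀ x, S x → A (T a P j G) j p F x = A (T a P j G') j p F' x := by
  induction p using ht_induction (j := j) with
  | h0 p h => simpa only [A_of_le h] using hF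
  | hs p h ih =>
    intro x hx
    have hX := X_local (a := a) (j := j) hS hG p (by omega)
    rw [A_succ h, A_succ h, T_of_le h, T_of_le h, E_tilt, E_tilt,
      hS p (by omega) x hx (fun y => Real.exp (a p * X a P j G p y))
        (fun y => Real.exp (a p * X a P j G' p y)) fun y hy => by
        rw [hX y hy],
      hS p (by omega) x hx (fun y => Real.exp (a p * X a P j G p y) * A (T a P j G) j p F y)
        (fun y => Real.exp (a p * X a P j G' p y) * A (T a P j G') j p F' y) fun y hy => by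
        rw [hX y hy, ih (by omega) y hy]]

/-- Above a step that resamples the symmetry, symmetric data give the same free energy. -/
theorem X_resample {π : Ω → Ω} (hm : Mor 0 π P P) {h : ℕ}
    (hr : ∀ ω (F : Ω → ℝ), (P h ω).E (fun x => F (π x)) = (P h ω).E F) (hj : j ≤ h) (ψ : Ω → ℝ)
    (p : ℕ) (hp : h + 1 ≤ p) : X a P j (fun x => ψ (π x)) p = X a P j ψ p := by
  induction p, hp using Nat.le_induction with
  | base =>
    funext ω
    rw [X_succ hj, X_succ hj, (hm.mono (Nat.zero_le j)).X, lam, lam,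
      hr ω fun x => Real.exp (a h * X a P j ψ h x)]
  | succ p hp ih => funext ω; rw [X_succ (by omega), X_succ (by omega), ih]

theorem A_T_resample {π : Ω → Ω} (hm : Mor 0 π P P) {h : ℕ}
    (hr : ∀ ω (F : Ω → ℝ), (P h ω).E (fun x => F (π x)) = (P h ω).E F) {i : ℕ} (hj : j ≤ i)
    (hi : i ≤ h) (ψ F : Ω → ℝ) (p : ℕ) (hp : h + 1 ≤ p) :
    A (T a P j fun x => ψ (π x)) i p (fun x => F (π x)) = A (T a P j ψ) i p F := by
  have hjh := hj.trans hi
  induction p, hp using Nat.le_induction with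
  | base =>
    funext ω
    rw [A_succ hi, A_succ hi, ((hm.T (Nat.zero_le j) ψ).mono (Nat.zero_le i)).A, T_of_le hjh,
      T_of_le hjh, E_tilt, E_tilt, (hm.mono (Nat.zero_le j)).X,
      hr ω fun x => Real.exp (a h * X a P j ψ h x),
      hr ω fun x => Real.exp (a h * X a P j ψ h x) * A (T a P j ψ) i h F x]
  | succ p hp ih =>
    funext ω
    rw [A_succ (by omega), A_succ (by omega), ih, T_of_le (by omega), T_of_le (by omega),
      X_resample hm hr hjh ψ p hp]

/-- A system of signs with their flips. -/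
structure Sgn (Ω : Type) where
  τ : ℕ → Ω → Bool
  π : ℕ → Ω → Ω

/-- The chain treats the signs as fresh fair coins: sign `l` is drawn at step `l`. -/
structure Sym (n : ℕ) (s : Sgn Ω) (P : Ch Ω) : Prop where
  self : ∀ l < n, ∀ ω, s.τ l (s.π l ω) = !s.τ l ω
  ne : ∀ l l', l ≠ l' → ∀ ω, s.τ l' (s.π l ω) = s.τ l' ω
  mor : ∀ l < n, Mor 0 (s.π l) P P
  res : ∀ l i, l ≤ i → i < n → ∀ ω (F : Ω → ℝ), (P i ω).E (fun x => F (s.π l x)) = (P i ω).E F
  frz : ∀ l < n, ∀ i < l, ∀ ω, Supp (P i ω) fun x => s.τ l x = s.τ l ω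

variable {n : ℕ} {s : Sgn Ω}

theorem Sym.T (h : Sym n s P) {G : Ω → ℝ} (hG : ∀ l < n, ∀ ω, G (s.π l ω) = G ω) :
    Sym n s (T a P j G) where
  self := h.self
  ne := h.ne
  mor := fun l hl => by
    have := (h.mor l hl).T (a := a) (Nat.zero_le j) G
    simpa only [hG l hl] using this
  res := fun l i hli hi ω F => by
    by_cases hij : i < j
    · simp only [T_of_lt hij]; exact h.res l i hli hi ω F
    · have hX := ((h.mor l (by omega)).mono (Nat.zero_le j)).X (a := a) G i
      simp only [hG l (by omega)] at hX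
      simp only [T_of_le (show j ≤ i by omega), E_tilt]
      rw [← h.res l i hli hi ω fun x => Real.exp (a i * X a P j G i x) * F x]
      congr 2
      funext x
      rw [congrFun hX x]
  frz := fun l hl i hi ω => by
    by_cases hij : i < j
    · simp only [T_of_lt hij]; exact h.frz l hl i hi ω
    · simp only [T_of_le (show j ≤ i by omega)]; exact (h.frz l hl i hi ω).tilt _

theorem Sym.A_inv (h : Sym n s P) {l : ℕ} (hl : l < n) {F : Ω → ℝ} (hF : ∀ ω, F (s.π l ω) = F ω)
    (p : ℕ) (ω : Ω) : A P j p F (s.π l ω) = A P j p F ω := by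
  have := ((h.mor l hl).mono (Nat.zero_le j)).A F p
  simp only [hF] at this
  exact (congrFun this ω).symm

theorem Sym.X_inv (h : Sym n s P) {l : ℕ} (hl : l < n) {F : Ω → ℝ} (hF : ∀ ω, F (s.π l ω) = F ω)
    (p : ℕ) (ω : Ω) : X a P j F p (s.π l ω) = X a P j F p ω := by
  have := ((h.mor l hl).mono (Nat.zero_le j)).X (a := a) F p
  simp only [hF] at this
  exact (congrFun this ω).symm

theorem Sym.A_T_inv (h : Sym n s P) {l : ℕ} (hl : l < n) {G F : Ω → ℝ}
    (hG : ∀ ω, G (s.π l ω) = G ω) (hF : ∀ ω, F (s.π l ω) = F ω) (p : ℕ) (ω : Ω) :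
    A (Vale.Agent.P168.T a P j G) j p F (s.π l ω) = A (Vale.Agent.P168.T a P j G) j p F ω := by
  have := (((h.mor l hl).T (a := a) (Nat.zero_le j) G).mono (Nat.zero_le j)).A F p
  simp only [hF, hG] at this
  exact (congrFun this ω).symm

theorem Sym.A_frozen (h : Sym n s P) {l : ℕ} (hl : l < n) {p : ℕ} (hp : p ≤ l) (F : Ω → ℝ)
    (ω : Ω) : A P j p (fun x => sp (s.τ l x) * F x) ω = sp (s.τ l ω) * A P j p F ω := by
  rw [← A_const_mul]
  refine A_local (S := fun x => s.τ l x = s.τ l ω) (m := l) (fun i hi x hx => ?_)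
    (fun x hx => by rw [hx]) p hp ω rfl
  have := h.frz l hl i hi x
  rwa [hx] at this

theorem Sym.A_kill (h : Sym n s P) {l : ℕ} (hl : l < n) (hj : j ≤ l) {p : ℕ} (hp : l + 1 ≤ p)
    {F : Ω → ℝ} (hF : ∀ ω, F (s.π l ω) = F ω) (ω : Ω) :
    A P j p (fun x => sp (s.τ l x) * F x) ω = 0 := by
  rw [← A_A' (i := l + 1) (by omega) hp]
  have : ∀ x, A P j (l + 1) (fun x => sp (s.τ l x) * F x) x = 0 := fun x => by
    rw [A_succ hj]
    have h1 := h.res l l le_rfl hl x (A P j l fun x => sp (s.τ l x) * F x)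
    have h2 : ∀ y, A P j l (fun x => sp (s.τ l x) * F x) (s.π l y) =
        -A P j l (fun x => sp (s.τ l x) * F x) y := fun y => by
      rw [h.A_frozen hl le_rfl, h.A_frozen hl le_rfl, h.A_inv hl hF, h.self l hl, sp_not]; ring
    simp only [h2, E_neg] at h1
    linarith
  simp only [this, A_const']

/-- The two half-sums of a pair of signs. -/
noncomputable def ep (s : Sgn Ω) (lo hi : ℕ) (ω : Ω) : ℝ := (sp (s.τ hi ω) + sp (s.τ lo ω)) / 2
noncomputable def em (s : Sgn Ω) (lo hi : ℕ) (ω : Ω) : ℝ := (sp (s.τ hi ω) - sp (s.τ lo ω)) / 2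

omit [Fintype Ω] in
theorem ep_mul_em (lo hi : ℕ) (ω : Ω) : ep s lo hi ω * em s lo hi ω = 0 := by
  unfold ep em; cases s.τ hi ω <;> cases s.τ lo ω <;> simp [sp]

omit [Fintype Ω] in
theorem abs_ep_le (lo hi : ℕ) (ω : Ω) : |ep s lo hi ω| ≤ 1 := by
  unfold ep; cases s.τ hi ω <;> cases s.τ lo ω <;> norm_num [sp]

omit [Fintype Ω] in
theorem abs_em_le (lo hi : ℕ) (ω : Ω) : |em s lo hi ω| ≤ 1 := by
  unfold em; cases s.τ hi ω <;> cases s.τ lo ω <;> norm_num [sp]

section pair
variable {lo hi : ℕ}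

theorem A_pm (s : Sgn Ω) (lo hi : ℕ) (c : ℝ) {F : Ω → ℝ} (p : ℕ) (ω : Ω) :
    A P j p (fun x => (sp (s.τ hi x) + c * sp (s.τ lo x)) / 2 * F x) ω =
      (A P j p (fun x => sp (s.τ hi x) * F x) ω + c * A P j p (fun x => sp (s.τ lo x) * F x) ω) / 2 := by
  rw [← A_const_mul, ← A_add, div_eq_mul_inv, ← A_mul_const]
  exact A_fun_congr (fun x => by ring) ω

variable (h : Sym n s P) (hlt : lo < hi) (hn : hi < n)
include h hlt hn

theorem Sym.A_ep_low {p : ℕ} (hp : p ≤ lo) (F : Ω → ℝ) (ω : Ω) :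
    A P j p (fun x => ep s lo hi x * F x) ω = ep s lo hi ω * A P j p F ω := by
  have := A_pm (P := P) (j := j) s lo hi 1 (F := F) p ω
  simp only [one_mul] at this
  simp only [ep]
  rw [this, h.A_frozen hn (by omega), h.A_frozen (by omega) hp]; ring

theorem Sym.A_em_low {p : ℕ} (hp : p ≤ lo) (F : Ω → ℝ) (ω : Ω) :
    A P j p (fun x => em s lo hi x * F x) ω = em s lo hi ω * A P j p F ω := by
  have := A_pm (P := P) (j := j) s lo hi (-1) (F := F) p ω
  simp only [neg_mul, one_mul, ← sub_eq_add_neg] at this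
  simp only [em]
  rw [this, h.A_frozen hn (by omega), h.A_frozen (by omega) hp]; ring

theorem Sym.A_ep_mid (hj : j ≤ lo) {p : ℕ} (hp : lo + 1 ≤ p) (hp' : p ≤ hi) {F : Ω → ℝ}
    (hF : ∀ ω, F (s.π lo ω) = F ω) (ω : Ω) :
    A P j p (fun x => ep s lo hi x * F x) ω = sp (s.τ hi ω) / 2 * A P j p F ω := by
  have := A_pm (P := P) (j := j) s lo hi 1 (F := F) p ω
  simp only [one_mul] at this
  simp only [ep]
  rw [this, h.A_frozen hn hp', h.A_kill (by omega) hj hp hF]; ring

theorem Sym.A_em_mid (hj : j ≤ lo) {p : ℕ} (hp : lo + 1 ≤ p) (hp' : p ≤ hi) {F : Ω → ℝ}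
    (hF : ∀ ω, F (s.π lo ω) = F ω) (ω : Ω) :
    A P j p (fun x => em s lo hi x * F x) ω = sp (s.τ hi ω) / 2 * A P j p F ω := by
  have := A_pm (P := P) (j := j) s lo hi (-1) (F := F) p ω
  simp only [neg_mul, one_mul, ← sub_eq_add_neg] at this
  simp only [em]
  rw [this, h.A_frozen hn hp', h.A_kill (by omega) hj hp hF]; ring

theorem Sym.A_ep_high (hj : j ≤ lo) {p : ℕ} (hp : hi + 1 ≤ p) {F : Ω → ℝ}
    (hF : ∀ ω, F (s.π lo ω) = F ω) (hF' : ∀ ω, F (s.π hi ω) = F ω) (ω : Ω) :
    A P j p (fun x => ep s lo hi x * F x) ω = 0 := by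
  have := A_pm (P := P) (j := j) s lo hi 1 (F := F) p ω
  simp only [one_mul] at this
  simp only [ep]
  rw [this, h.A_kill hn (by omega) hp hF', h.A_kill (by omega) hj (by omega) hF]; ring

end pair

end Vale.Agent.P168
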