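import Vale.Agent.P168.Defs

/-!
# P168: finite probability weights and the log-moment functional
-/

namespace Vale.Agent.P168

open Finset
open scoped BigOperators

theorem sp_sq (b : Bool) : sp b * sp b = 1 := by cases b <;> simp [sp]
theorem abs_sp (b : Bool) : |sp b| = 1 := by cases b <;> simp [sp]
theorem sp_not (b : Bool) : sp (!b) = -sp b := by cases b <;> simp [sp]

/-- Probability weights on a finite type. -/
structure PW (α : Type) [Fintype α] where
  w : α → ℝ
  nonneg : ∀ a, 0 ≤ w a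
  sum_one : ∑ a, w a = 1

namespace PW

variable {α β γ : Type} [Fintype α] [Fintype β] [Fintype γ]

/-- Expectation. -/
def E (μ : PW α) (F : α → ℝ) : ℝ := ∑ a, μ.w a * F a

theorem ext' {μ ν : PW α} (h : ∀ a, μ.w a = ν.w a) : μ = ν := by
  cases μ; cases ν; simp only [mk.injEq]; funext a; exact h a

theorem w_eq_E (μ : PW α) (a : α) : μ.w a = μ.E (fun x => by classical exact if x = a then 1 else 0) := by
  classical
  simp [E]

theorem ext_E {μ ν : PW α} (h : ∀ F, μ.E F = ν.E F) : μ = ν :=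
  ext' fun a => by rw [w_eq_E, w_eq_E, h]

theorem nonempty (μ : PW α) : Nonempty α := by
  by_contra h
  rw [not_nonempty_iff] at h
  have := μ.sum_one
  simp at this

variable (μ : PW α)

theorem E_congr {F G : α → ℝ} (h : ∀ a, F a = G a) : μ.E F = μ.E G := by
  rw [funext h]

@[simp] theorem E_const (c : ℝ) : μ.E (fun _ => c) = c := by
  simp [E, ← sum_mul, μ.sum_one]

theorem E_add (F G : α → ℝ) : μ.E (fun a => F a + G a) = μ.E F + μ.E G := by
  simp [E, mul_add, sum_add_distrib]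

theorem E_sub (F G : α → ℝ) : μ.E (fun a => F a - G a) = μ.E F - μ.E G := by
  simp [E, mul_sub, sum_sub_distrib]

theorem E_neg (F : α → ℝ) : μ.E (fun a => -F a) = -μ.E F := by
  simp [E, sum_neg_distrib]

theorem E_const_mul (c : ℝ) (F : α → ℝ) : μ.E (fun a => c * F a) = c * μ.E F := by
  simp only [E, mul_sum]; exact sum_congr rfl fun a _ => by ring

theorem E_mul_const (c : ℝ) (F : α → ℝ) : μ.E (fun a => F a * c) = μ.E F * c := by
  simp only [E, sum_mul]; exact sum_congr rfl fun a _ => by ring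

theorem E_div_const (c : ℝ) (F : α → ℝ) : μ.E (fun a => F a / c) = μ.E F / c := by
  simp only [div_eq_mul_inv]; exact μ.E_mul_const _ _

theorem E_add_const (c : ℝ) (F : α → ℝ) : μ.E (fun a => F a + c) = μ.E F + c := by
  rw [E_add, E_const]

theorem E_sub_const (c : ℝ) (F : α → ℝ) : μ.E (fun a => F a - c) = μ.E F - c := by
  rw [E_sub, E_const]

theorem E_sum {ι : Type*} (s : Finset ι) (F : ι → α → ℝ) :
    μ.E (fun a => ∑ i ∈ s, F i a) = ∑ i ∈ s, μ.E (F i) := by
  simp only [E, mul_sum]; exact sum_comm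

theorem E_comm (ν : PW β) (F : α → β → ℝ) :
    μ.E (fun a => ν.E (F a)) = ν.E (fun b => μ.E (fun a => F a b)) := by
  simp only [E, mul_sum]
  rw [sum_comm]
  exact sum_congr rfl fun b _ => sum_congr rfl fun a _ => by ring

theorem E_mono {F G : α → ℝ} (h : ∀ a, F a ≤ G a) : μ.E F ≤ μ.E G :=
  sum_le_sum fun a _ => mul_le_mul_of_nonneg_left (h a) (μ.nonneg a)

theorem E_nonneg {F : α → ℝ} (h : ∀ a, 0 ≤ F a) : 0 ≤ μ.E F :=
  sum_nonneg fun a _ => mul_nonneg (μ.nonneg a) (h a)

theorem E_le_const {F : α → ℝ} {c : ℝ} (h : ∀ a, F a ≤ c) : μ.E F ≤ c := by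
  simpa using μ.E_mono (G := fun _ => c) h

theorem const_le_E {F : α → ℝ} {c : ℝ} (h : ∀ a, c ≤ F a) : c ≤ μ.E F := by
  simpa using μ.E_mono (F := fun _ => c) h

theorem abs_E_le (F : α → ℝ) : |μ.E F| ≤ μ.E (fun a => |F a|) := by
  rw [abs_le]
  constructor
  · rw [← E_neg]; exact μ.E_mono fun a => neg_abs_le _
  · exact μ.E_mono fun a => le_abs_self _

theorem abs_E_le_const {F : α → ℝ} {c : ℝ} (h : ∀ a, |F a| ≤ c) : |μ.E F| ≤ c :=
  (μ.abs_E_le F).trans (μ.E_le_const h)

theorem abs_E_sub_le (F G : α → ℝ) : |μ.E F - μ.E G| ≤ μ.E (fun a => |F a - G a|) := by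
  rw [← E_sub]; exact μ.abs_E_le _

theorem abs_E_sub_le_const {F G : α → ℝ} {c : ℝ} (h : ∀ a, |F a - G a| ≤ c) :
    |μ.E F - μ.E G| ≤ c :=
  (μ.abs_E_sub_le F G).trans (μ.E_le_const h)

theorem E_pos {F : α → ℝ} (h : ∀ a, 0 < F a) : 0 < μ.E F := by
  have := μ.nonempty
  obtain ⟨a, -, ha⟩ := exists_min_image univ F univ_nonempty
  exact (h a).trans_le (μ.const_le_E fun b => ha b (mem_univ b))

theorem E_mul_sq_le (F G : α → ℝ) :
    μ.E (fun a => F a * G a) ^ 2 ≤ μ.E (fun a => F a ^ 2) * μ.E (fun a => G a ^ 2) := by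
  refine sum_sq_le_sum_mul_sum_of_sq_le_mul univ (fun a _ => ?_) (fun a _ => ?_) (fun a _ => ?_)
  · exact mul_nonneg (μ.nonneg a) (sq_nonneg _)
  · exact mul_nonneg (μ.nonneg a) (sq_nonneg _)
  · exact le_of_eq (by ring)

theorem E_sq_le (F : α → ℝ) : μ.E F ^ 2 ≤ μ.E (fun a => F a ^ 2) := by
  simpa using μ.E_mul_sq_le F (fun _ => 1)

theorem E_le_sqrt (F : α → ℝ) : μ.E F ≤ Real.sqrt (μ.E (fun a => F a ^ 2)) :=
  Real.le_sqrt_of_sq_le (μ.E_sq_le F)

theorem E_abs_le_sqrt (F : α → ℝ) : μ.E (fun a => |F a|) ≤ Real.sqrt (μ.E (fun a => F a ^ 2)) := by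
  simpa using μ.E_le_sqrt (fun a => |F a|)

theorem E_sqrt_le {F : α → ℝ} (h : ∀ a, 0 ≤ F a) :
    μ.E (fun a => Real.sqrt (F a)) ≤ Real.sqrt (μ.E F) := by
  have := μ.E_le_sqrt (fun a => Real.sqrt (F a))
  simpa [Real.sq_sqrt (h _)] using this

theorem exp_E_le (F : α → ℝ) : Real.exp (μ.E F) ≤ μ.E (fun a => Real.exp (F a)) := by
  have h : ∀ a, Real.exp (μ.E F) * (1 + (F a - μ.E F)) ≤ Real.exp (F a) := fun a => by
    have := Real.add_one_le_exp (F a - μ.E F)
    calc _ ≤ Real.exp (μ.E F) * Real.exp (F a - μ.E F) := by gcongr; linarith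
      _ = _ := by rw [← Real.exp_add]; ring_nf
  have := μ.E_mono h
  rw [E_const_mul, E_add, E_sub] at this
  simpa using this

/-- Uniform weights. -/
noncomputable def unif (α : Type) [Fintype α] [Nonempty α] : PW α where
  w := fun _ => (Fintype.card α : ℝ)⁻¹
  nonneg := fun _ => by positivity
  sum_one := by simp

theorem E_unif [Nonempty α] (F : α → ℝ) : (unif α).E F = 𝔼 a, F a := by
  simp [E, unif, expect_eq_sum_div_card, ← mul_sum, div_eq_inv_mul]

theorem E_unif_equiv [Nonempty α] [Nonempty β] (e : α ≃ β) (F : β → ℝ) :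
    (unif α).E (fun a => F (e a)) = (unif β).E F := by
  simp only [E, unif, Fintype.card_congr e]
  exact e.sum_comp (fun b => (Fintype.card β : ℝ)⁻¹ * F b)

/-- Composition with a kernel. -/
def bind (μ : PW α) (κ : α → PW β) : PW β where
  w := fun b => μ.E fun a => (κ a).w b
  nonneg := fun b => μ.E_nonneg fun a => (κ a).nonneg b
  sum_one := by rw [← E_sum]; simp [PW.sum_one]

theorem E_bind (κ : α → PW β) (F : β → ℝ) : (μ.bind κ).E F = μ.E fun a => (κ a).E F := by
  simp only [E, bind, sum_mul, mul_sum]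
  rw [sum_comm]
  exact sum_congr rfl fun a _ => sum_congr rfl fun b _ => by ring

open Classical in
/-- Point mass. -/
noncomputable def pure (a : α) : PW α where
  w := fun b => if b = a then 1 else 0
  nonneg := fun b => by split_ifs <;> norm_num
  sum_one := by simp

@[simp] theorem E_pure (a : α) (F : α → ℝ) : (pure a).E F = F a := by
  classical
  simp [E, pure]

/-- Image weights. -/
noncomputable def map (μ : PW α) (f : α → β) : PW β := μ.bind fun a => pure (f a)

theorem E_map (f : α → β) (F : β → ℝ) : (μ.map f).E F = μ.E fun a => F (f a) := by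
  simp [map, E_bind]

/-- Product of two weights. -/
def prod (μ : PW α) (ν : PW β) : PW (α × β) where
  w := fun x => μ.w x.1 * ν.w x.2
  nonneg := fun x => mul_nonneg (μ.nonneg _) (ν.nonneg _)
  sum_one := by rw [Fintype.sum_prod_type]; simp [← mul_sum, ν.sum_one, μ.sum_one]

theorem E_prod (ν : PW β) (F : α × β → ℝ) :
    (μ.prod ν).E F = μ.E fun a => ν.E fun b => F (a, b) := by
  simp only [E, prod, Fintype.sum_prod_type, mul_sum, mul_assoc]

theorem E_prod_mul (ν : PW β) (F : α → ℝ) (G : β → ℝ) :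
    (μ.prod ν).E (fun x => F x.1 * G x.2) = μ.E F * ν.E G := by
  rw [E_prod]; simp only [E_const_mul, E_mul_const]

section pi
variable {ι : Type} [Fintype ι] [DecidableEq ι] {δ δ' : ι → Type} [∀ i, Fintype (δ i)]
  [∀ i, Fintype (δ' i)]

/-- Product of a family of weights. -/
def pi (μ : ∀ i, PW (δ i)) : PW (∀ i, δ i) where
  w := fun x => ∏ i, (μ i).w (x i)
  nonneg := fun x => prod_nonneg fun i _ => (μ i).nonneg _
  sum_one := by
    rw [← Fintype.piFinset_univ, ← prod_univ_sum]; simp [PW.sum_one]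

theorem E_pi_prod (μ : ∀ i, PW (δ i)) (F : ∀ i, δ i → ℝ) :
    (pi μ).E (fun x => ∏ i, F i (x i)) = ∏ i, (μ i).E (F i) := by
  simp only [E, pi, ← prod_mul_distrib]
  rw [← Fintype.piFinset_univ, ← prod_univ_sum (fun _ => univ) (fun i a => (μ i).w a * F i a)]

theorem pi_bind (μ : ∀ i, PW (δ i)) (κ : ∀ i, δ i → PW (δ' i)) :
    (pi μ).bind (fun x => pi fun i => κ i (x i)) = pi fun i => (μ i).bind (κ i) :=
  ext' fun y => E_pi_prod μ (fun i a => (κ i a).w (y i))

theorem pi_pure (x : ∀ i, δ i) : (pi fun i => pure (x i)) = pure x :=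
  ext' fun y => by
    classical
    simp only [pi, pure]
    by_cases h : y = x
    · simp [h]
    · rw [if_neg h]
      obtain ⟨i, hi⟩ := Function.ne_iff.mp h
      exact prod_eq_zero (mem_univ i) (if_neg hi)

theorem pi_map (μ : ∀ i, PW (δ i)) (f : ∀ i, δ i → δ' i) :
    (pi μ).map (fun x i => f i (x i)) = pi fun i => (μ i).map (f i) := by
  simp only [map]
  rw [← pi_bind]
  congr 1
  funext x
  rw [pi_pure (fun i => f i (x i))]

theorem E_pi_map (μ : ∀ i, PW (δ i)) (f : ∀ i, δ i → δ' i) (F : (∀ i, δ' i) → ℝ) :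
    (pi fun i => (μ i).map (f i)).E F = (pi μ).E fun x => F fun i => f i (x i) := by
  rw [← pi_map, E_map]

theorem E_pi_eval (μ : ∀ i, PW (δ i)) (i : ι) (F : δ i → ℝ) :
    (pi μ).E (fun x => F (x i)) = (μ i).E F := by
  have := E_pi_prod μ (Function.update (fun j _ => (1 : ℝ)) i F)
  rw [← mul_prod_erase _ _ (mem_univ i), prod_eq_one, mul_one, Function.update_self] at this
  · rw [← this]
    refine E_congr _ fun x => ?_
    rw [← mul_prod_erase _ _ (mem_univ i), prod_eq_one, mul_one, Function.update_self]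
    intro j hj
    rw [Function.update_of_ne (ne_of_mem_erase hj)]
  · intro j hj
    rw [Function.update_of_ne (ne_of_mem_erase hj)]; simp

theorem E_pi_update (μ : ∀ i, PW (δ i)) (i : ι) (F : (∀ i, δ i) → ℝ) :
    (pi μ).E (fun x => (μ i).E fun a => F (Function.update x i a)) = (pi μ).E F := by
  classical
  have key : (pi μ).bind (fun x => (μ i).map fun a => Function.update x i a) = pi μ := by
    have h1 : ∀ x : ∀ i, δ i, ((μ i).map fun a => Function.update x i a) =
        pi (Function.update (fun j => pure (x j)) i (μ i)) := fun x => by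
      refine ext' fun y => ?_
      rw [w_eq_E, E_map]
      simp only [pi]
      rw [← mul_prod_erase _ _ (mem_univ i), Function.update_self, w_eq_E, ← E_mul_const]
      refine E_congr _ fun a => ?_
      by_cases h : Function.update x i a = y
      · subst h
        rw [if_pos rfl, Function.update_self, if_pos rfl, one_mul]
        refine (prod_eq_one fun j hj => ?_).symm
        rw [Function.update_of_ne (ne_of_mem_erase hj), Function.update_of_ne (ne_of_mem_erase hj)]
        simp [pure]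
      · rw [if_neg h]
        obtain ⟨j, hj⟩ := Function.ne_iff.mp h
        by_cases hji : j = i
        · subst hji
          rw [Function.update_self] at hj
          rw [if_neg hj, zero_mul]
        · rw [Function.update_of_ne hji] at hj
          refine (mul_eq_zero_of_right _ (prod_eq_zero (i := j) (by simp [hji]) ?_)).symm
          rw [Function.update_of_ne hji]
          simp [pure, Ne.symm hj]
    simp only [h1]
    have h2 : ∀ x : ∀ i, δ i, Function.update (fun j => pure (x j)) i (μ i) =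
        fun j => Function.update (fun j (a : δ j) => pure a) i (fun _ => μ i) j (x j) := fun x => by
      funext j
      by_cases hj : j = i
      · subst hj; simp
      · simp [Function.update_of_ne hj]
    simp only [h2]
    rw [pi_bind]
    congr 1
    funext j
    refine ext_E fun G => ?_
    by_cases hj : j = i
    · subst hj; simp [E_bind]
    · simp [Function.update_of_ne hj, E_bind]
  conv_rhs => rw [← key]
  simp only [E_bind, E_map]

theorem pi_unif [∀ i, Nonempty (δ i)] : (pi fun i => unif (δ i)) = unif (∀ i, δ i) :=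
  ext' fun y => by simp [pi, unif]

theorem E_pi_equiv {ι' : Type} [Fintype ι'] [DecidableEq ι'] (e : ι ≃ ι') (ν : PW α)
    (F : (ι → α) → ℝ) :
    (pi fun _ : ι' => ν).E (fun x => F fun i => x (e i)) = (pi fun _ : ι => ν).E F := by
  simp only [E, pi]
  refine Fintype.sum_equiv (Equiv.arrowCongr e.symm (Equiv.refl α)) _ _ fun x => ?_
  simp only [Equiv.arrowCongr_apply, Equiv.coe_refl, Equiv.symm_symm, Function.comp_def, id]
  rw [e.prod_comp (fun i => ν.w (x i))]
  rfl

theorem E_pi_cons {n : ℕ} (ν : PW α) (F : (Fin (n + 1) → α) → ℝ) :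
    (pi fun _ : Fin (n + 1) => ν).E F =
      ν.E fun a => (pi fun _ : Fin n => ν).E fun x => F (Fin.cons a x) := by
  rw [← E_prod ν (pi fun _ : Fin n => ν) (fun x => F (Fin.cons x.1 x.2))]
  simp only [E, pi, prod]
  refine (Fintype.sum_equiv (Fin.consEquiv fun _ => α) _ _ fun x => ?_).symm
  simp [Fin.consEquiv, Fin.prod_univ_succ]

theorem E_pi_option (ν : PW α) (F : (Option ι → α) → ℝ) :
    (pi fun _ : Option ι => ν).E F =
      ν.E fun a => (pi fun _ : ι => ν).E fun x => F fun o => o.elim a x := by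
  rw [← E_prod ν (pi fun _ : ι => ν) (fun x => F fun o => o.elim x.1 x.2)]
  simp only [E, pi, prod]
  refine (Fintype.sum_equiv (Equiv.piOptionEquivProd (β := fun _ => α)).symm _ _ fun x => ?_).symm
  rw [Fintype.prod_option]
  congr 2
  funext o; cases o <;> rfl

end pi

theorem prod_unif [Nonempty α] [Nonempty β] : (unif α).prod (unif β) = unif (α × β) :=
  ext' fun y => by simp [prod, unif, mul_comm]

/-- Exponential tilt. -/
noncomputable def tilt (μ : PW α) (F : α → ℝ) : PW α where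
  w := fun a => μ.w a * Real.exp (F a) / μ.E (fun x => Real.exp (F x))
  nonneg := fun a => div_nonneg (mul_nonneg (μ.nonneg a) (Real.exp_pos _).le)
    (μ.E_pos fun _ => Real.exp_pos _).le
  sum_one := by
    rw [← sum_div]; exact div_self (μ.E_pos fun _ => Real.exp_pos _).ne'

theorem E_tilt (F G : α → ℝ) :
    (μ.tilt F).E G = μ.E (fun a => Real.exp (F a) * G a) / μ.E (fun a => Real.exp (F a)) := by
  simp only [E, tilt, sum_div]
  exact sum_congr rfl fun a _ => by ring

theorem tilt_tilt (F G : α → ℝ) : (μ.tilt F).tilt G = μ.tilt fun a => F a + G a := by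
  refine ext_E fun H => ?_
  have h1 := (μ.E_pos fun a => Real.exp_pos (F a)).ne'
  simp only [E_tilt, Real.exp_add, mul_assoc]
  rw [div_div_div_cancel_right₀ h1]

theorem tilt_add_const (F : α → ℝ) (c : ℝ) : μ.tilt (fun a => F a + c) = μ.tilt F := by
  refine ext_E fun H => ?_
  simp only [E_tilt, Real.exp_add]
  rw [μ.E_congr (G := fun a => Real.exp (F a) * H a * Real.exp c) (fun a => by ring),
    E_mul_const, E_mul_const, mul_div_mul_right _ _ (Real.exp_pos c).ne']

theorem tilt_const (c : ℝ) : μ.tilt (fun _ => c) = μ := by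
  refine ext_E fun H => ?_
  rw [E_tilt, E_const_mul, E_const, mul_div_cancel_left₀ _ (Real.exp_pos c).ne']

end PW

open PW

variable {α β : Type} [Fintype α] [Fintype β]

/-- The log-moment functional `(1/a) log E exp (a Y)`. -/
noncomputable def lam (a : ℝ) (μ : PW α) (Y : α → ℝ) : ℝ :=
  Real.log (μ.E fun x => Real.exp (a * Y x)) / a

theorem exp_lam {a : ℝ} (ha : 0 < a) (μ : PW α) (Y : α → ℝ) :
    Real.exp (a * lam a μ Y) = μ.E fun x => Real.exp (a * Y x) := by
  rw [lam, mul_div_cancel₀ _ ha.ne', Real.exp_log (μ.E_pos fun _ => Real.exp_pos _)]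

theorem lam_le_iff {a : ℝ} (ha : 0 < a) (μ : PW α) (Y : α → ℝ) (c : ℝ) :
    lam a μ Y ≤ c ↔ μ.E (fun x => Real.exp (a * Y x)) ≤ Real.exp (a * c) := by
  rw [← exp_lam ha, Real.exp_le_exp, mul_le_mul_iff_right₀ ha]

theorem le_lam_iff {a : ℝ} (ha : 0 < a) (μ : PW α) (Y : α → ℝ) (c : ℝ) :
    c ≤ lam a μ Y ↔ Real.exp (a * c) ≤ μ.E (fun x => Real.exp (a * Y x)) := by
  rw [← exp_lam ha, Real.exp_le_exp, mul_le_mul_iff_right₀ ha]

theorem lam_mono {a : ℝ} (ha : 0 < a) (μ : PW α) {Y Y' : α → ℝ} (h : ∀ x, Y x ≤ Y' x) :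
    lam a μ Y ≤ lam a μ Y' := by
  rw [lam_le_iff ha, exp_lam ha]
  exact μ.E_mono fun x => Real.exp_le_exp.mpr (by gcongr; exact h x)

theorem lam_add_const {a : ℝ} (ha : 0 < a) (μ : PW α) (Y : α → ℝ) (c : ℝ) :
    lam a μ (fun x => Y x + c) = lam a μ Y + c := by
  simp only [lam, mul_add, Real.exp_add, E_mul_const]
  rw [Real.log_mul (μ.E_pos fun _ => Real.exp_pos _).ne' (Real.exp_pos _).ne', Real.log_exp]
  field_simp

theorem lam_const {a : ℝ} (ha : 0 < a) (μ : PW α) (c : ℝ) : lam a μ (fun _ => c) = c := by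
  simp [lam, ha.ne']

theorem lam_pure {a : ℝ} (ha : 0 < a) (x : α) (Y : α → ℝ) : lam a (PW.pure x) Y = Y x := by
  simp [lam, ha.ne']

theorem abs_lam_sub_le {a : ℝ} (ha : 0 < a) (μ : PW α) {Y Y' : α → ℝ} {c : ℝ}
    (h : ∀ x, |Y x - Y' x| ≤ c) : |lam a μ Y - lam a μ Y'| ≤ c := by
  have h1 := lam_mono ha μ (Y := Y) (Y' := fun x => Y' x + c) fun x => by
    linarith [(abs_le.mp (h x)).2]
  have h2 := lam_mono ha μ (Y := Y') (Y' := fun x => Y x + c) fun x => by
    linarith [(abs_le.mp (h x)).1]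
  rw [lam_add_const ha] at h1 h2
  rw [abs_le]; constructor <;> linarith

theorem abs_lam_le {a : ℝ} (ha : 0 < a) (μ : PW α) {Y : α → ℝ} {c : ℝ}
    (h : ∀ x, |Y x| ≤ c) : |lam a μ Y| ≤ c := by
  simpa [lam_const ha] using abs_lam_sub_le ha μ (Y := Y) (Y' := fun _ => 0) (by simpa using h)

theorem E_le_lam {a : ℝ} (ha : 0 < a) (μ : PW α) (Y : α → ℝ) : μ.E Y ≤ lam a μ Y := by
  rw [le_lam_iff ha, ← E_const_mul]; exact μ.exp_E_le _

theorem lam_mono_exp {a a' : ℝ} (ha : 0 < a) (h : a ≤ a') (μ : PW α) (Y : α → ℝ) :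
    lam a μ Y ≤ lam a' μ Y := by
  have ha' : 0 < a' := ha.trans_le h
  set m := lam a' μ Y
  rw [lam_le_iff ha]
  have ht : 0 ≤ a / a' := by positivity
  have ht1 : a / a' ≤ 1 := (div_le_one ha').mpr h
  have key : ∀ x, Real.exp (a * Y x) ≤ Real.exp (a * m) * (1 - a / a') +
      Real.exp (a * m) * (a / a') * Real.exp (-(a' * m)) * Real.exp (a' * Y x) := fun x => by
    have := convexOn_exp.2 (Set.mem_univ 0) (Set.mem_univ (a' * (Y x - m)))
      (by linarith : 0 ≤ 1 - a / a') ht (by ring)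
    simp only [smul_eq_mul, mul_zero, zero_add, Real.exp_zero, mul_one] at this
    have e1 : a / a' * (a' * (Y x - m)) = a * Y x - a * m := by field_simp
    rw [e1, Real.exp_sub, div_le_iff₀ (Real.exp_pos _)] at this
    have e2 : Real.exp (a' * (Y x - m)) = Real.exp (-(a' * m)) * Real.exp (a' * Y x) := by
      rw [← Real.exp_add]; ring_nf
    rw [e2] at this
    linarith
  refine (μ.E_mono key).trans (le_of_eq ?_)
  rw [E_add, E_const, E_const_mul, ← exp_lam ha', mul_assoc, ← Real.exp_add]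
  simp only [m, neg_add_cancel, Real.exp_zero]; ring

theorem lam_le_E_add {a : ℝ} (ha : 0 < a) (μ : PW α) {Y : α → ℝ} {c : ℝ} (h : ∀ x, |Y x| ≤ c)
    (hc : a * c ≤ 1) : lam a μ Y ≤ μ.E Y + a * c ^ 2 := by
  rw [lam_le_iff ha]
  have key : ∀ x, Real.exp (a * Y x) ≤ 1 + a * Y x + (a * c) ^ 2 := fun x => by
    have h1 : |a * Y x| ≤ a * c := by rw [abs_mul, abs_of_pos ha]; gcongr; exact h x
    have h2 := Real.abs_exp_sub_one_sub_id_le (h1.trans hc)
    have h3 : (a * Y x) ^ 2 ≤ (a * c) ^ 2 := sq_le_sq' (by linarith [(abs_le.mp h1).1]) (abs_le.mp h1).2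
    linarith [(abs_le.mp h2).2]
  refine (μ.E_mono key).trans ?_
  rw [E_add, E_add, E_const, E_const, E_const_mul]
  have := Real.add_one_le_exp (a * (μ.E Y + a * c ^ 2))
  nlinarith

theorem lam_smul {a θ : ℝ} (ha : 0 < a) (hθ : 0 < θ) (μ : PW α) (Y : α → ℝ) :
    lam a μ (fun x => θ * Y x) = θ * lam (θ * a) μ Y := by
  simp only [lam]
  rw [μ.E_congr (G := fun x => Real.exp (θ * a * Y x)) fun x => by ring_nf]
  field_simp

theorem lam_bind {a : ℝ} (ha : 0 < a) (μ : PW α) (κ : α → PW β) (Y : β → ℝ) :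
    lam a (μ.bind κ) Y = lam a μ fun x => lam a (κ x) Y := by
  simp only [lam.eq_1 a μ, lam.eq_1 a (μ.bind κ), exp_lam ha, E_bind]

theorem lam_add (a : ℝ) (μ : PW α) (Y Y' : α → ℝ) :
    lam a μ (fun x => Y x + Y' x) = lam a μ Y + lam a (μ.tilt fun x => a * Y x) Y' := by
  simp only [lam, E_tilt, mul_add, Real.exp_add]
  rw [Real.log_div (μ.E_pos fun _ => by positivity).ne' (μ.E_pos fun _ => Real.exp_pos _).ne']
  ring

theorem E_tilt_lam {a : ℝ} (ha : 0 < a) (μ : PW α) (Y G : α → ℝ) :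
    (μ.tilt fun x => a * Y x).E G =
      μ.E fun x => Real.exp (a * (Y x - lam a μ Y)) * G x := by
  rw [E_tilt, ← exp_lam ha, ← E_div_const]
  refine μ.E_congr fun x => ?_
  rw [mul_sub, Real.exp_sub]; ring

theorem lam_prod {a : ℝ} (μ : PW α) (ν : PW β) (Y : α → ℝ) (Y' : β → ℝ) :
    lam a (μ.prod ν) (fun x => Y x.1 + Y' x.2) = lam a μ Y + lam a ν Y' := by
  simp only [lam, mul_add, Real.exp_add]
  rw [E_prod_mul μ ν (fun x => Real.exp (a * Y x)) (fun x => Real.exp (a * Y' x)),
    Real.log_mul (μ.E_pos fun _ => Real.exp_pos _).ne' (ν.E_pos fun _ => Real.exp_pos _).ne']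
  ring

theorem lam_pi {ι : Type} [Fintype ι] [DecidableEq ι] {δ : ι → Type} [∀ i, Fintype (δ i)]
    {a : ℝ} (μ : ∀ i, PW (δ i)) (Y : ∀ i, δ i → ℝ) :
    lam a (PW.pi μ) (fun x => ∑ i, Y i (x i)) = ∑ i, lam a (μ i) (Y i) := by
  simp only [lam, mul_sum, Real.exp_sum]
  rw [E_pi_prod μ (fun i x => Real.exp (a * Y i x)), Real.log_prod, sum_div]
  exact fun i _ => ((μ i).E_pos fun _ => Real.exp_pos _).ne'

/-- Variance lower bound for the symmetric second difference. -/
theorem lam_add_lam_neg {a : ℝ} (ha : 0 < a) (μ : PW α) {Y : α → ℝ} (h : ∀ x, a * |Y x| ≤ 1 / 2) :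
    a / 4 * μ.E (fun x => (Y x - μ.E Y) ^ 2) ≤ lam a μ Y + lam a μ fun x => -Y x := by
  set m := μ.E Y with hm
  set v := μ.E (fun x => (Y x - m) ^ 2) with hv
  have hmb : a * |m| ≤ 1 / 2 := by
    rw [← abs_of_pos ha, ← abs_mul, hm, ← E_const_mul]
    exact μ.abs_E_le_const fun x => by rw [abs_mul, abs_of_pos ha]; exact h x
  have hb : ∀ x, |a * (Y x - m)| ≤ 1 := fun x => by
    rw [abs_mul, abs_of_pos ha]
    have := abs_sub (Y x) m
    nlinarith [h x]
  have e : ∀ u : ℝ, |u| ≤ 1 → 1 + u + u ^ 2 / 4 ≤ Real.exp u := fun u hu => by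
    have := Real.exp_bound hu (n := 3) (by norm_num)
    simp only [sum_range_succ, range_zero, sum_empty, Nat.factorial] at this
    norm_num at this
    have h3 : |u| ^ 3 ≤ u ^ 2 := by
      rw [← sq_abs]; exact pow_le_pow_of_le_one (abs_nonneg _) hu (by norm_num)
    nlinarith [(abs_le.mp this).1, sq_nonneg u]
  have hv0 : 0 ≤ v := μ.E_nonneg fun x => sq_nonneg _
  have hv1 : a ^ 2 * v ≤ 1 := by
    rw [hv, ← E_const_mul]
    refine μ.E_le_const fun x => ?_
    have := hb x
    rw [← mul_pow, ← sq_abs]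
    exact pow_le_one₀ (abs_nonneg _) this
  have key : ∀ s : ℝ, (s = 1 ∨ s = -1) → s * m + a / 8 * v ≤ lam a μ fun x => s * Y x := by
    intro s hs
    have hs2 : s ^ 2 = 1 := by rcases hs with rfl | rfl <;> norm_num
    have hs1 : |s| = 1 := by rcases hs with rfl | rfl <;> norm_num
    rw [le_lam_iff ha]
    have h1 : ∀ x, Real.exp (a * (s * m)) * (1 + s * a * (Y x - m) + a ^ 2 / 4 * (Y x - m) ^ 2) ≤
        Real.exp (a * (s * Y x)) := fun x => by
      have := e (s * (a * (Y x - m))) (by rw [abs_mul, hs1, one_mul]; exact hb x)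
      calc _ = Real.exp (a * (s * m)) *
            (1 + s * (a * (Y x - m)) + (s * (a * (Y x - m))) ^ 2 / 4) := by
            rw [mul_pow, hs2]; ring
        _ ≤ Real.exp (a * (s * m)) * Real.exp (s * (a * (Y x - m))) := by gcongr
        _ = _ := by rw [← Real.exp_add]; ring_nf
    refine le_trans ?_ (μ.E_mono h1)
    rw [E_const_mul, E_add, E_add, E_const, E_const_mul, E_const_mul, E_sub_const, ← hm, ← hv,
      mul_add, Real.exp_add]
    gcongr
    have h2 : |a * (a / 8 * v)| ≤ 1 := by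
      rw [abs_of_nonneg (by positivity)]; nlinarith
    have h3 := Real.abs_exp_sub_one_sub_id_le h2
    have h4 : (a * (a / 8 * v)) ^ 2 ≤ a ^ 2 / 8 * v := by
      have : 0 ≤ a ^ 2 * v := by positivity
      nlinarith
    nlinarith [(abs_le.mp h3).2]
  have h1 := key 1 (Or.inl rfl)
  have h2 := key (-1) (Or.inr rfl)
  simp only [one_mul, neg_mul] at h1 h2
  linarith

end Vale.Agent.P168
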