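import Vale.Agent.P168.Iface

/-!
# P168: uniform approximation of the free energy by nonnegative combinations of trees
-/

namespace Vale.Agent.P168

open Finset PW
open scoped BigOperators

/-- Functionals of a chain, an observable and a state. -/
abbrev FlK := ∀ (Ω : Type) [Fintype Ω], Ch Ω → (Ω → ℝ) → Ω → ℝ

/-- Value of a formal combination of trees. -/
noncomputable def valK {b : ℕ} (l : List (ℝ × Sh Unit b)) {Ω : Type} [Fintype Ω] (P : Ch Ω)
    (u : Ω → ℝ) (ω : Ω) : ℝ := (l.map fun x => x.1 * ev P (fun _ => u) x.2 ω).sum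

/-- Uniform closeness of two functionals. -/
def CloseK (t ε : ℝ) (F G : FlK) : Prop :=
  ∀ (Ω : Type) [Fintype Ω] (P : Ch Ω) (u : Ω → ℝ), (∀ ω, |u ω| ≤ t) → ∀ ω,
    |F Ω P u ω - G Ω P u ω| ≤ ε

/-- Uniform bound. -/
def BdK (t c : ℝ) (F : FlK) : Prop :=
  ∀ (Ω : Type) [Fintype Ω] (P : Ch Ω) (u : Ω → ℝ), (∀ ω, |u ω| ≤ t) → ∀ ω, |F Ω P u ω| ≤ c

/-- The cone of uniform limits of nonnegative combinations of trees. -/
def ConeK (t : ℝ) (b : ℕ) (F : FlK) : Prop :=
  ∀ ε : ℝ, 0 < ε → ∃ l : List (ℝ × Sh Unit b), (∀ x ∈ l, 0 ≤ x.1) ∧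
    CloseK t ε F fun _ _ P u ω => valK l P u ω

section cone
variable {t : ℝ} {b : ℕ} {F G : FlK}

theorem valK_append (l l' : List (ℝ × Sh Unit b)) {Ω : Type} [Fintype Ω] (P : Ch Ω)
    (u : Ω → ℝ) (ω : Ω) : valK (l ++ l') P u ω = valK l P u ω + valK l' P u ω := by
  simp [valK]

theorem valK_cons (x : ℝ × Sh Unit b) (l : List (ℝ × Sh Unit b)) {Ω : Type} [Fintype Ω] (P : Ch Ω)
    (u : Ω → ℝ) (ω : Ω) :
    valK (x :: l) P u ω = x.1 * ev P (fun _ => u) x.2 ω + valK l P u ω := by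
  simp [valK]

theorem ConeK.lim (h : ∀ ε : ℝ, 0 < ε → ∃ G, ConeK t b G ∧ CloseK t ε F G) : ConeK t b F := by
  intro ε hε
  obtain ⟨G, hG, h1⟩ := h (ε / 2) (by positivity)
  obtain ⟨l, hl, h2⟩ := hG (ε / 2) (by positivity)
  refine ⟨l, hl, fun Ω _ P u hu ω => ?_⟩
  have h3 := abs_le.mp (h1 Ω P u hu ω)
  have h4 := abs_le.mp (h2 Ω P u hu ω)
  rw [abs_le]; constructor <;> linarith

theorem ConeK.congr (h : ConeK t b G)
    (hFG : ∀ (Ω : Type) [Fintype Ω] (P : Ch Ω) (u : Ω → ℝ), (∀ ω, |u ω| ≤ t) → ∀ ω,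
      F Ω P u ω = G Ω P u ω) : ConeK t b F :=
  ConeK.lim fun ε hε => ⟨G, h, fun Ω _ P u hu ω => by rw [hFG Ω P u hu ω]; simpa using hε.le⟩

theorem coneK_zero : ConeK t b fun _ _ _ _ _ => 0 := fun ε hε =>
  ⟨[], by simp, fun Ω _ P u hu ω => by simpa [valK] using hε.le⟩

theorem coneK_leaf : ConeK t 0 fun _ _ _ u ω => u ω := fun ε hε =>
  ⟨[(1, .leaf ())], by simp, fun Ω _ P u hu ω => by simpa [valK, ev] using hε.le⟩

theorem ConeK.add (hF : ConeK t b F) (hG : ConeK t b G) :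
    ConeK t b fun Ω _ P u ω => F Ω P u ω + G Ω P u ω := by
  intro ε hε
  obtain ⟨l, hl, h1⟩ := hF (ε / 2) (by positivity)
  obtain ⟨l', hl', h2⟩ := hG (ε / 2) (by positivity)
  refine ⟨l ++ l', fun x hx => ?_, fun Ω _ P u hu ω => ?_⟩
  · rcases List.mem_append.mp hx with h | h
    exacts [hl x h, hl' x h]
  · have h3 := abs_le.mp (h1 Ω P u hu ω)
    have h4 := abs_le.mp (h2 Ω P u hu ω)
    simp only [valK_append]
    rw [abs_le]; constructor <;> linarith

theorem valK_smul (c : ℝ) (l : List (ℝ × Sh Unit b)) {Ω : Type} [Fintype Ω] (P : Ch Ω)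
    (u : Ω → ℝ) (ω : Ω) : valK (l.map fun x => (c * x.1, x.2)) P u ω = c * valK l P u ω := by
  induction l with
  | nil => simp [valK]
  | cons x l ih => rw [List.map_cons, valK_cons, valK_cons, ih]; ring

theorem ConeK.smul {c : ℝ} (hc : 0 ≤ c) (hF : ConeK t b F) :
    ConeK t b fun Ω _ P u ω => c * F Ω P u ω := by
  intro ε hε
  obtain ⟨l, hl, h1⟩ := hF (ε / (c + 1)) (by positivity)
  refine ⟨l.map fun x => (c * x.1, x.2), fun x hx => ?_, fun Ω _ P u hu ω => ?_⟩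
  · obtain ⟨y, hy, rfl⟩ := List.mem_map.mp hx
    exact mul_nonneg hc (hl y hy)
  · have h3 := h1 Ω P u hu ω
    simp only [valK_smul] at h3 ⊢
    rw [← mul_sub, abs_mul, abs_of_nonneg hc]
    calc _ ≤ (c + 1) * (ε / (c + 1)) := by gcongr; linarith
      _ = ε := by field_simp

theorem valK_up (l : List (ℝ × Sh Unit b)) {Ω : Type} [Fintype Ω] (P : Ch Ω)
    (u : Ω → ℝ) (ω : Ω) :
    valK (l.map fun x => (x.1, x.2.up)) P u ω = (P b ω).E (valK l P u) := by
  induction l with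
  | nil => simp [valK]; exact (E_const _ 0).symm
  | cons x l ih =>
    rw [List.map_cons, valK_cons, ih, (P b ω).E_congr (valK_cons x l P u), E_add, E_const_mul]
    rfl

theorem ConeK.up (hF : ConeK t b F) :
    ConeK t (b + 1) fun Ω _ P u ω => (P b ω).E (F Ω P u) := by
  intro ε hε
  obtain ⟨l, hl, h1⟩ := hF ε hε
  refine ⟨l.map fun x => (x.1, x.2.up), fun x hx => ?_, fun Ω _ P u hu ω => ?_⟩
  · obtain ⟨y, hy, rfl⟩ := List.mem_map.mp hx
    exact hl y hy
  · simp only [valK_up]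
    exact abs_E_sub_le_const _ (h1 Ω P u hu)

theorem valK_mul (l l' : List (ℝ × Sh Unit (b + 1))) {Ω : Type} [Fintype Ω] (P : Ch Ω)
    (u : Ω → ℝ) (ω : Ω) :
    valK (l.flatMap fun x => l'.map fun x' => (x.1 * x'.1, x.2.node x'.2)) P u ω =
      valK l P u ω * valK l' P u ω := by
  induction l with
  | nil => simp [valK]
  | cons x l ih =>
    rw [List.flatMap_cons, valK_append, ih, valK_cons, add_mul]
    congr 1
    clear ih
    induction l' with
    | nil => simp [valK]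
    | cons x' l' ih' =>
      rw [List.map_cons, valK_cons, ih', valK_cons]
      simp only [ev]; ring

theorem ConeK.mul {c : ℝ} (hc : 0 ≤ c) (hF : ConeK t (b + 1) F) (hG : ConeK t (b + 1) G)
    (bF : BdK t c F) (bG : BdK t c G) :
    ConeK t (b + 1) fun Ω _ P u ω => F Ω P u ω * G Ω P u ω := by
  intro ε hε
  set δ := min 1 (ε / (2 * c + 1)) with hδ
  have hδ0 : 0 < δ := lt_min one_pos (by positivity)
  have hδ1 : δ ≤ 1 := min_le_left _ _
  have hδ2 : (2 * c + 1) * δ ≤ ε := by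
    have : δ ≤ ε / (2 * c + 1) := min_le_right _ _
    rwa [le_div_iff₀' (by positivity)] at this
  obtain ⟨l, hl, h1⟩ := hF δ hδ0
  obtain ⟨l', hl', h2⟩ := hG δ hδ0
  refine ⟨l.flatMap fun x => l'.map fun x' => (x.1 * x'.1, x.2.node x'.2), fun x hx => ?_,
    fun Ω _ P u hu ω => ?_⟩
  · obtain ⟨y, hy, hx⟩ := List.mem_flatMap.mp hx
    obtain ⟨y', hy', rfl⟩ := List.mem_map.mp hx
    exact mul_nonneg (hl y hy) (hl' y' hy')
  · simp only [valK_mul]
    have h3 := h1 Ω P u hu ω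
    have h4 := h2 Ω P u hu ω
    have h5 := bF Ω P u hu ω
    have h6 := bG Ω P u hu ω
    simp only at h3 h4
    set x := F Ω P u ω
    set x' := G Ω P u ω
    set v := valK l P u ω
    set v' := valK l' P u ω
    have h7 : |v'| ≤ c + 1 := by
      have := abs_sub_abs_le_abs_sub v' x'
      rw [abs_sub_comm] at this
      linarith
    have e : x * x' - v * v' = x * (x' - v') + (x - v) * v' := by ring
    rw [e]
    calc _ ≤ |x * (x' - v')| + |(x - v) * v'| := abs_add_le _ _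
      _ = |x| * |x' - v'| + |x - v| * |v'| := by rw [abs_mul, abs_mul]
      _ ≤ c * δ + δ * (c + 1) := by gcongr
      _ ≤ ε := by linarith

theorem ConeK.pow (hF : ConeK t (b + 1) F) (bF : BdK t 1 F) (n : ℕ) :
    ConeK t (b + 1) fun Ω _ P u ω => F Ω P u ω ^ (n + 1) := by
  induction n with
  | zero => exact hF.congr fun Ω _ P u _ ω => by simp
  | succ n ih =>
    refine (ConeK.mul zero_le_one ih hF (fun Ω _ P u hu ω => ?_) bF).congr
      fun Ω _ P u _ ω => pow_succ _ _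
    rw [abs_pow]
    exact pow_le_one₀ (abs_nonneg _) (bF Ω P u hu ω)

theorem ConeK.poly (hF : ConeK t (b + 1) F) (bF : BdK t 1 F) {c : ℕ → ℝ} (hc : ∀ n, 0 ≤ c n)
    (N : ℕ) : ConeK t (b + 1) fun Ω _ P u ω => ∑ n ∈ range N, c n * F Ω P u ω ^ (n + 1) := by
  induction N with
  | zero => exact coneK_zero.congr fun Ω _ P u _ ω => by simp
  | succ N ih =>
    exact (ih.add ((hF.pow bF N).smul (hc N))).congr fun Ω _ P u _ ω => sum_range_succ _ _

theorem ConeK.series {s : ℝ} (hs0 : 0 ≤ s) (hs : s ≤ 1) (hF : ConeK t (b + 1) F) (bF : BdK t s F)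
    {c : ℕ → ℝ} (hc : ∀ n, 0 ≤ c n) {φ : ℝ → ℝ}
    (hφ : ∀ v, |v| ≤ s → HasSum (fun n => c n * v ^ (n + 1)) (φ v)) :
    ConeK t (b + 1) fun Ω _ P u ω => φ (F Ω P u ω) := by
  refine ConeK.lim fun ε hε => ?_
  have hs' := hφ s (abs_of_nonneg hs0).le
  obtain ⟨N, hN⟩ := (Metric.tendsto_atTop.mp hs'.tendsto_sum_nat) ε hε
  refine ⟨_, hF.poly (fun Ω _ P u hu ω => (bF Ω P u hu ω).trans hs) hc N,
    fun Ω _ P u hu ω => ?_⟩
  have hv := bF Ω P u hu ω
  set v := F Ω P u ω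
  have h1 := (hasSum_nat_add_iff' N).mpr (hφ v hv)
  have h2 := (hasSum_nat_add_iff' N).mpr hs'
  have h3 := hN N le_rfl
  rw [Real.dist_eq, abs_sub_comm] at h3
  have hb : ∀ n, |c (n + N) * v ^ (n + N + 1)| ≤ c (n + N) * s ^ (n + N + 1) := fun n => by
    rw [abs_mul, abs_of_nonneg (hc _), abs_pow]
    exact mul_le_mul_of_nonneg_left (pow_le_pow_left₀ (abs_nonneg _) hv _) (hc _)
  have h4 := hasSum_le (fun n => (abs_le.mp (hb n)).2) h1 h2
  have h5 := hasSum_le (fun n => (abs_le.mp (hb n)).1) h2.neg h1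
  have h6 := le_abs_self (φ s - ∑ i ∈ range N, c i * s ^ (i + 1))
  simp only
  rw [abs_le]; constructor <;> linarith

end cone

theorem choose_signK {q : ℝ} (hq0 : 0 ≤ q) (hq : q ≤ 1) (n : ℕ) :
    0 ≤ (-1) ^ n * Ring.choose q (n + 1) := by
  have key : ∀ n : ℕ, 0 ≤ (-1 : ℝ) ^ n * (descPochhammer ℤ (n + 1)).smeval q := by
    intro n
    induction n with
    | zero => simpa using hq0
    | succ n ih =>
      rw [descPochhammer_succ_right, Polynomial.smeval_mul]
      have h1 : (Polynomial.X - ((n + 1 : ℕ) : Polynomial ℤ)).smeval q = q - (n + 1) := by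
        simp [Polynomial.smeval_sub, Polynomial.smeval_add, Polynomial.smeval_natCast]
      rw [h1, pow_succ]
      have h2 : (0 : ℝ) ≤ n + 1 - q := by
        have : (0 : ℝ) ≤ n := Nat.cast_nonneg n
        linarith
      have := mul_nonneg ih h2
      linarith
  rw [Ring.choose_eq_smul, smul_eq_mul, mul_left_comm]
  exact mul_nonneg (by positivity) (key n)

theorem hasSum_rpowK (q : ℝ) {v : ℝ} (hv : |v| < 1) :
    HasSum (fun n : ℕ => (-1) ^ n * Ring.choose q (n + 1) * v ^ (n + 1)) (1 - (1 - v) ^ q) := by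
  have h := (Real.one_add_rpow_hasFPowerSeriesOnBall_zero (a := q)).hasSum (y := -v) (by
    simpa [enorm_eq_nnnorm] using! hv)
  simp only [binomialSeries_apply, List.ofFn_const, List.prod_replicate, smul_eq_mul,
    zero_add] at h
  have h2 := ((hasSum_nat_add_iff' 1).mpr h).neg
  simp only [range_one, sum_singleton, Ring.choose_zero_right, pow_zero, mul_one] at h2
  have e1 : (fun n : ℕ => (-1) ^ n * Ring.choose q (n + 1) * v ^ (n + 1)) =
      fun b => -(Ring.choose q (b + 1) * (-v) ^ (b + 1)) := by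
    funext n
    rw [neg_pow v, pow_succ (-1 : ℝ)]; ring
  have e2 : 1 - (1 - v) ^ q = -((1 + -v) ^ q - 1) := by rw [sub_eq_add_neg 1 v]; ring
  rw [e1, e2]; exact h2

section main
variable {m : ℕ → ℝ} {t : ℝ}

/-- The auxiliary variable. -/
noncomputable def VK (m : ℕ → ℝ) (b : ℕ) : FlK := fun _ _ P u ω =>
  1 - Real.exp (m b * X m P 0 (fun ω => Real.log (1 - u ω)) (b + 1) ω)

theorem VK_bd (hm0 : m 0 = 1) (hpos : ∀ j, 0 < m j) (hanti : Antitone m) (ht0 : 0 ≤ t)
    (ht : t < 1) (b : ℕ) : BdK t t (VK m b) := by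
  intro Ω _ P u hu ω
  have hm1 : m b ≤ 1 := hm0 ▸ hanti (Nat.zero_le b)
  have h1 := X_mono (P := P) (j := 0) hpos (G := fun _ => Real.log (1 - t))
    (G' := fun ω => Real.log (1 - u ω))
    (fun ω => Real.log_le_log (by linarith) (by linarith [(abs_le.mp (hu ω)).2])) (b + 1) ω
  have h2 := X_mono (P := P) (j := 0) hpos (G' := fun _ => Real.log (1 + t))
    (G := fun ω => Real.log (1 - u ω))
    (fun ω => Real.log_le_log (by linarith [(abs_le.mp (hu ω)).2])
      (by linarith [(abs_le.mp (hu ω)).1])) (b + 1) ω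
  rw [X_const hpos] at h1 h2
  simp only [VK] at h1 h2 ⊢
  set x := X m P 0 (fun ω => Real.log (1 - u ω)) (b + 1) ω
  have h3 : Real.log (1 - t) ≤ 0 := Real.log_nonpos (by linarith) (by linarith)
  have h4 : 0 ≤ Real.log (1 + t) := Real.log_nonneg (by linarith)
  have hb := hpos b
  have h5 : Real.log (1 - t) ≤ m b * x := by nlinarith
  have h6 : m b * x ≤ Real.log (1 + t) := by nlinarith
  have h7 := Real.exp_le_exp.mpr h5
  have h8 := Real.exp_le_exp.mpr h6
  rw [Real.exp_log (by linarith)] at h7 h8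
  rw [abs_le]; constructor <;> linarith

theorem VK_cone (hm0 : m 0 = 1) (hpos : ∀ j, 0 < m j) (hanti : Antitone m) (ht0 : 0 ≤ t)
    (ht : t < 1) (b : ℕ) : ConeK t (b + 1) (VK m b) := by
  induction b with
  | zero =>
    refine coneK_leaf.up.congr fun Ω _ P u hu ω => ?_
    simp only [VK]
    rw [X_succ le_rfl, exp_lam (hpos 0), X_of_le le_rfl, hm0,
      (P 0 ω).E_congr (G := fun x => 1 - u x) fun x => by
        rw [one_mul, Real.exp_log (by linarith [(abs_le.mp (hu x)).2])], E_sub, E_const]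
    ring
  | succ b ih =>
    have hq0 : 0 ≤ m (b + 1) / m b := div_nonneg (hpos _).le (hpos _).le
    have hq1 : m (b + 1) / m b ≤ 1 := (div_le_one (hpos b)).mpr (hanti (Nat.le_succ b))
    have h := ih.series ht0 ht.le (VK_bd hm0 hpos hanti ht0 ht b) (choose_signK hq0 hq1)
      (φ := fun v => 1 - (1 - v) ^ (m (b + 1) / m b)) fun v hv => hasSum_rpowK _ (hv.trans_lt ht)
    refine h.up.congr fun Ω _ P u hu ω => ?_
    simp only [VK]
    rw [X_succ (Nat.zero_le _), exp_lam (hpos _), E_sub, E_const]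
    congr 1
    refine E_congr _ fun x => ?_
    rw [sub_sub_cancel, ← Real.exp_mul]
    congr 1
    have := (hpos b).ne'
    field_simp

end main

theorem approx (m : ℕ → ℝ) (hm0 : m 0 = 1) (hpos : ∀ j, 0 < m j) (hanti : Antitone m) {t : ℝ}
    (ht0 : 0 ≤ t) (ht : t < 1) (r : ℕ) {ε : ℝ} (hε : 0 < ε) :
    ∃ l : List (ℝ × Sh Unit (r + 1)), (∀ x ∈ l, 0 ≤ x.1) ∧
      ∀ (Ω : Type) [Fintype Ω] (P : Ch Ω) (u : Ω → ℝ), (∀ ω, |u ω| ≤ t) → ∀ ω,
        |X m P 0 (fun ω => Real.log (1 - u ω)) (r + 1) ω +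
          (l.map fun x => x.1 * ev P (fun _ => u) x.2 ω).sum| ≤ ε := by
  have h := ((VK_cone hm0 hpos hanti ht0 ht r).series ht0 ht.le (VK_bd hm0 hpos hanti ht0 ht r)
    (c := fun n => 1 / ((n : ℝ) + 1)) (fun n => by positivity) (φ := fun v => -Real.log (1 - v))
    fun v hv => by
      convert Real.hasSum_pow_div_log_of_abs_lt_one (hv.trans_lt ht) using 2
      ring).smul (inv_nonneg.mpr (hpos r).le)
  obtain ⟨l, hl, h1⟩ := h ε hε
  refine ⟨l, hl, fun Ω _ P u hu ω => ?_⟩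
  have h2 := h1 Ω P u hu ω
  simp only [VK, sub_sub_cancel, Real.log_exp, valK] at h2
  rw [← abs_neg]
  convert h2 using 2
  have := (hpos r).ne'
  field_simp
  ring

end Vale.Agent.P168
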