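import Vale.Agent.P168.AssB

/-!
# P168: the cavity lower bound for finite models
-/

namespace Vale.Agent.P168

open Finset PW Filter
open scoped BigOperators Topology

variable {K : ℕ}

theorem fT_bound (M : FM K) {lam : ℝ} (hlam : 0 < lam) (hK : 1 ≤ K) :
    ∃ C : ℝ, ∀ y : FT, |fTU M lam fun _ Y => TF y Y| ≤ C ∧ |fTV M lam fun _ Y => TF y Y| ≤ C := by
  obtain ⟨b, hb0, hb1, hb2⟩ := M.exists_bound
  haveI : NeZero K := ⟨by omega⟩
  have hK1 : (1 : ℝ) ≤ K := by exact_mod_cast hK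
  refine ⟨(b + 1) * (K * lam + 1), fun y => ⟨?_, ?_⟩⟩
  · refine abs_pois_le (by positivity) fun k => abs_E_le_const _ fun c => abs_E_le_const _ fun h =>
      abs_expect_le_P fun ell => ?_
    rw [← YG_GA]
    exact abs_TF_YG_le y (abs_GA_le (fun l σ => hb1 _ _) ell (hb2 h))
  · refine (abs_pois_le (c := b + 1) (mul_nonneg (by linarith) hlam.le)
      fun k => abs_E_le_const _ fun c => ?_).trans ?_
    · rw [← YG_GB]
      exact abs_TF_YG_le y (abs_GB_le hb0 fun l σ => hb1 _ _)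
    · gcongr; linarith

section cav
variable (M : FM K) (Ξ : ∀ N : ℕ, ((Fin N → Bool) → ℝ) → ℝ)

/-- The field term. -/
def fld {N : ℕ} (h : Fin N → M.Hh) : (Fin N → Bool) → ℝ := fun σ => ∑ i, M.hv (h i) * sp (σ i)

/-- The functional averaged over the fields. -/
noncomputable def VV (N : ℕ) (H : (Fin N → Bool) → ℝ) : ℝ :=
  (PW.pi fun _ : Fin N => M.q).E fun h => Ξ N fun σ => H σ + fld M h σ

/-- Increment of the functional under a cavity function at random sites. -/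
noncomputable def incr (N : ℕ) (H : (Fin N → Bool) → ℝ) {k : ℕ} (G : (Fin k × Fin K → Bool) → ℝ) :
    ℝ := 𝔼 i : Fin k × Fin K → Fin N, (Ξ N (fun σ => H σ + G fun l => σ (i l)) - Ξ N H)

noncomputable def alk (N : ℕ) (H : (Fin N → Bool) → ℝ) (k : ℕ) : ℝ :=
  (PW.pi fun _ : Fin k => M.p).E fun c => M.q.E fun h =>
    𝔼 ell : Fin k → Fin K, incr Ξ N H (GA (fun l => M.th (c l)) ell (M.hv h))

noncomputable def bek (N : ℕ) (H : (Fin N → Bool) → ℝ) (k : ℕ) : ℝ :=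
  (PW.pi fun _ : Fin k => M.p).E fun c => incr Ξ N H (GB fun l => M.th (c l))

variable {M Ξ}

theorem VV_lip {N : ℕ} (h : LipP (Ξ N)) : LipP (VV M Ξ N) := fun H H' c hc =>
  abs_E_sub_le_const _ fun a => h _ _ _ fun σ => by simpa using hc σ

theorem abs_incr_le {N : ℕ} [NeZero N] (h : LipP (Ξ N)) (H : (Fin N → Bool) → ℝ) {k : ℕ}
    {G : (Fin k × Fin K → Bool) → ℝ} {c : ℝ} (hG : ∀ z, |G z| ≤ c) : |incr Ξ N H G| ≤ c :=
  abs_expect_le_P fun i => h _ _ _ fun σ => by simpa using hG _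

theorem incr_eq {N : ℕ} [NeZero N] (H : (Fin N → Bool) → ℝ) {k : ℕ}
    (G : (Fin k × Fin K → Bool) → ℝ) :
    incr Ξ N H G + Ξ N H = (PW.pi fun _ : Fin k => unif (Fin K → Fin N)).E fun i =>
      Ξ N fun σ => H σ + G fun l => σ (i l.1 l.2) := by
  rw [incr, ← E_unif, E_sub_const, sub_add_cancel, pi_unif,
    ← E_unif_equiv (Equiv.curry (Fin k) (Fin K) (Fin N))]
  rfl

theorem iter_bek (N : ℕ) [NeZero N] (H : (Fin N → Bool) → ℝ) (k : ℕ) :
    (Mop (mu0 M N) (ps0 M N))^[k] (VV M Ξ N) H = (PW.pi fun _ : Fin N => M.q).E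
      (fun h => bek M Ξ N (fun σ => H σ + fld M h σ) k) + VV M Ξ N H := by
  rw [Mop_iterate, mu0, E_pi_split]
  conv_rhs => rw [VV, ← E_add]
  simp only [bek, ← E_add_const, incr_eq, VV]
  rw [E_comm (PW.pi fun _ : Fin N => M.q)]
  refine E_congr _ fun c => ?_
  rw [E_comm (PW.pi fun _ : Fin N => M.q)]
  refine E_congr _ fun i => E_congr _ fun h => ?_
  congr 1
  funext σ
  simp only [Pi.add_apply, Finset.sum_apply, ps0, GB]
  ring

theorem iter_alk [NeZero K] (N : ℕ) [NeZero N] {η : ℝ}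
    (h3 : ∀ H' : (Fin (N + 1) → Bool) → ℝ,
      |Ξ (N + 1) H' - Ξ N fun σ => Real.log (∑ e : Bool, Real.exp (H' (Fin.cons e σ)))| ≤ η)
    (H : (Fin N → Bool) → ℝ) (k : ℕ) :
    (PW.pi fun _ : Fin N => M.q).E (fun h => alk M Ξ N (fun σ => H σ + fld M h σ) k) +
      VV M Ξ N H - η ≤ (Mop (mu1 M N) (ps1 M N))^[k] (VV M Ξ (N + 1)) (extH N H) := by
  rw [Mop_iterate, mu1, E_pi_split]
  conv_lhs => rw [VV, ← E_add]
  simp only [alk, ← E_unif, ← E_add_const, incr_eq, VV, E_pi_split, E_pi_cons]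
  rw [E_comm (PW.pi fun _ : Fin N => M.q), ← E_sub_const]
  refine E_mono _ fun c => ?_
  rw [pi_unif (δ := fun _ : Fin k => Fin K)]
  rw [E_comm (PW.pi fun _ : Fin N => M.q)]
  simp only [E_comm (PW.pi fun _ : Fin N => M.q) (unif (Fin k → Fin K))]
  rw [E_comm M.q, ← E_sub_const]
  refine E_mono _ fun ell => ?_
  simp only [E_comm (PW.pi fun _ : Fin N => M.q) (PW.pi fun _ : Fin k => unif (Fin K → Fin N))]
  rw [E_comm M.q, ← E_sub_const]
  refine E_mono _ fun i => ?_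
  rw [← E_sub_const]
  refine E_mono _ fun h0 => ?_
  rw [← E_sub_const]
  refine E_mono _ fun h => ?_
  have key := (abs_le.mp (h3 fun σ => (extH N H + ∑ l, ps1 M N (c l, ell l, i l)) σ +
    fld M (Fin.cons h0 h : Fin (N + 1) → M.Hh) σ)).1
  refine le_trans (le_of_eq ?_) (by linarith : _ - η ≤ _)
  congr 2
  funext σ
  have e : ∀ e : Bool, (extH N H + ∑ l, ps1 M N (c l, ell l, i l)) (Fin.cons e σ) +
      fld M (Fin.cons h0 h : Fin (N + 1) → M.Hh) (Fin.cons e σ) = (H σ + fld M h σ) +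
      (M.hv h0 * sp e + ∑ l, M.th (c l) (Function.update (fun j => σ (i l j)) (ell l) e)) := by
    intro e
    simp only [Pi.add_apply, Finset.sum_apply, ps1, extH, fld, Fin.sum_univ_succ, Fin.cons_zero,
      Fin.cons_succ, AddMonoidHom.coe_mk, ZeroHom.coe_mk, Fin.tail_cons]
    ring
  simp only [e, Real.exp_add (H σ + fld M h σ), ← mul_sum]
  rw [Real.log_mul (Real.exp_pos _).ne' (sum_pos (fun _ _ => Real.exp_pos _) univ_nonempty).ne',
    Real.log_exp]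
  rfl

theorem abs_alk_le [NeZero K] {N : ℕ} [NeZero N] (h : LipP (Ξ N)) {b : ℝ}
    (hb1 : ∀ c σ, |M.th c σ| ≤ b) (hb2 : ∀ h, |M.hv h| ≤ b) (H : (Fin N → Bool) → ℝ) (k : ℕ) :
    |alk M Ξ N H k| ≤ (b + 1) * (k + 1) :=
  abs_E_le_const _ fun _ => abs_E_le_const _ fun h0 => abs_expect_le_P fun ell =>
    abs_incr_le h H (abs_GA_le (fun _ _ => hb1 _ _) ell (hb2 h0))

theorem abs_bek_le {N : ℕ} [NeZero N] (h : LipP (Ξ N)) {b : ℝ} (hb0 : 0 ≤ b)
    (hb1 : ∀ c σ, |M.th c σ| ≤ b) (H : (Fin N → Bool) → ℝ) (k : ℕ) :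
    |bek M Ξ N H k| ≤ (b + 1) * (k + 1) :=
  abs_E_le_const _ fun _ => abs_incr_le h H (abs_GB_le hb0 fun _ _ => hb1 _ _)

theorem cavity_P [NeZero K] (N : ℕ) [NeZero N] {lam : ℝ} (hlam : 0 < lam) {b : ℝ} (hb0 : 0 ≤ b)
    (hb1 : ∀ c σ, |M.th c σ| ≤ b) (hb2 : ∀ h, |M.hv h| ≤ b) (h2 : LipP (Ξ N))
    (h2' : LipP (Ξ (N + 1))) {η : ℝ}
    (h3 : ∀ H' : (Fin (N + 1) → Bool) → ℝ,
      |Ξ (N + 1) H' - Ξ N fun σ => Real.log (∑ e : Bool, Real.exp (H' (Fin.cons e σ)))| ≤ η)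
    {D : ℝ} (hD : ∀ H, pois ((K - 1) * lam) (bek M Ξ N H) + D ≤ pois (K * lam) (alk M Ξ N H))
    (H : (Fin N → Bool) → ℝ) :
    Pop ((K - 1) * lam) (mu0 M N) (ps0 M N) (VV M Ξ N) H + (D - η) ≤
      Pop (K * lam) (mu1 M N) (ps1 M N) (VV M Ξ (N + 1)) (extH N H) := by
  have hK1 : (1 : ℝ) ≤ K := by exact_mod_cast Nat.pos_of_ne_zero (NeZero.ne K)
  have t1 : 0 ≤ (K - 1) * lam := mul_nonneg (by linarith) hlam.le
  have t2 : 0 ≤ K * lam := by positivity
  have hce : ∀ (e : ℝ) (k : ℕ), |e| ≤ |e| * (k + 1) := fun e k =>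
    le_mul_of_one_le_right (abs_nonneg _) (by linarith [(Nat.cast_nonneg k : (0 : ℝ) ≤ k)])
  have ha : ∀ k : ℕ, |(PW.pi fun _ : Fin N => M.q).E
      (fun h => alk M Ξ N (fun σ => H σ + fld M h σ) k)| ≤ (b + 1) * (k + 1) :=
    fun k => abs_E_le_const _ fun h => abs_alk_le h2 hb1 hb2 _ k
  have hI : Inc (ps1 M N) (VV M Ξ (N + 1)) b := (VV_lip h2').inc fun j σ => hb1 _ _
  have a1 := pois_mono' (c := b + 1 + |VV M Ξ N H - η|) t2 (fun k => by
      rw [add_sub_assoc]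
      linarith [abs_add_le ((PW.pi fun _ : Fin N => M.q).E
        (fun h => alk M Ξ N (fun σ => H σ + fld M h σ) k)) (VV M Ξ N H - η), ha k,
        hce (VV M Ξ N H - η) k])
    (fun k => abs_iter_le hI k (extH N H)) (iter_alk (M := M) N h3 H)
  simp only [add_sub_assoc] at a1
  rw [pois_add' t2 ha (hce _), pois_const,
    ← E_pois _ t2 fun h k => abs_alk_le h2 hb1 hb2 (fun σ => H σ + fld M h σ) k] at a1
  rw [Pop, Pop]
  simp only [iter_bek]
  rw [pois_add' t1 (fun k => abs_E_le_const _ fun h => abs_bek_le h2 hb0 hb1 _ k) (hce _),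
    pois_const, ← E_pois _ t1 fun h k => abs_bek_le h2 hb0 hb1 (fun σ => H σ + fld M h σ) k]
  have a2 := (PW.pi fun _ : Fin N => M.q).E_mono fun h => hD fun σ => H σ + fld M h σ
  rw [E_add_const] at a2
  linarith

end cav

/-- Index set of the finitely many cavity functions. -/
abbrev IdxP (M : FM K) (k0 : ℕ) : Type :=
  Σ k : Fin (k0 + 1), (Fin k → M.Θ) × Option (M.Hh × (Fin k → Fin K))

/-- The finitely many cavity functions. -/
noncomputable def GfamP (M : FM K) (k0 : ℕ) (m : IdxP M k0) : (Fin m.1 × Fin K → Bool) → ℝ :=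
  m.2.2.elim (GB fun l => M.th (m.2.1 l)) fun x => GA (fun l => M.th (m.2.1 l)) x.2 (M.hv x.1)

theorem compare_P [NeZero K] (M : FM K) {lam : ℝ} (hlam : 0 < lam) (L : ℝ)
    (hL : ∀ y : FT, L ≤ (fTU M lam fun _ Y => TF y Y) - fTV M lam fun _ Y => TF y Y)
    {δ : ℝ} (hδ : 0 < δ) : ∃ k0 : ℕ, ∀ Ξ, CoreProp (fun m : IdxP M k0 => Fin m.1 × Fin K)
      (GfamP M k0) δ Ξ → ∀ (N : ℕ) [NeZero N] (H : (Fin N → Bool) → ℝ),
      pois ((K - 1) * lam) (bek M Ξ N H) + (L - 4 * δ) ≤ pois (K * lam) (alk M Ξ N H) := by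
  obtain ⟨b, hb0, hb1, hb2⟩ := M.exists_bound
  have hK1 : (1 : ℝ) ≤ K := by exact_mod_cast Nat.pos_of_ne_zero (NeZero.ne K)
  have t1 : 0 ≤ (K - 1) * lam := mul_nonneg (by linarith) hlam.le
  have t2 : 0 ≤ K * lam := by positivity
  obtain ⟨k0, hk1, hk2⟩ := ((pois_trunc t1 (b + 1) hδ).and (pois_trunc t2 (b + 1) hδ)).exists
  refine ⟨k0, fun Ξ hΞ N _ H => ?_⟩
  obtain ⟨-, h2, -, h4⟩ := hΞ
  obtain ⟨Y, _, π, y, hy⟩ := h4 N (Nat.pos_of_ne_zero (NeZero.ne N)) H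
  have bU : ∀ (t : Y) (k : ℕ), |(PW.pi fun _ : Fin k => M.p).E fun c => M.q.E fun h =>
      𝔼 ell : Fin k → Fin K, TF (y t) (Uf (fun l => M.th (c l)) ell (M.hv h))| ≤
      (b + 1) * (k + 1) := fun t k => abs_E_le_const _ fun c => abs_E_le_const _ fun h =>
    abs_expect_le_P fun ell => by
      rw [← YG_GA]
      exact abs_TF_YG_le _ (abs_GA_le (fun l σ => hb1 _ _) ell (hb2 h))
  have bV : ∀ (t : Y) (k : ℕ), |(PW.pi fun _ : Fin k => M.p).E fun c =>
      TF (y t) (Vf fun l => M.th (c l))| ≤ (b + 1) * (k + 1) := fun t k =>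
    abs_E_le_const _ fun c => by
      rw [← YG_GB]
      exact abs_TF_YG_le _ (abs_GB_le hb0 fun l σ => hb1 _ _)
  have a0 := π.const_le_E fun t => hL (y t)
  rw [E_sub] at a0
  simp only [fTU, fTV] at a0
  rw [E_pois π t2 bU, E_pois π t1 bV] at a0
  have a1 := hk1 _ _ δ (abs_bek_le (h2 N) hb0 hb1 H) (fun k => abs_E_le_const π fun t => bV t k)
    fun k hk => by
      rw [bek, E_comm π]
      refine abs_E_sub_le_const _ fun c => ?_
      rw [← YG_GB]
      exact hy ⟨⟨k, by omega⟩, c, none⟩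
  have a2 := hk2 _ _ δ (abs_alk_le (h2 N) hb1 hb2 H) (fun k => abs_E_le_const π fun t => bU t k)
    fun k hk => by
      rw [alk, E_comm π]
      refine abs_E_sub_le_const _ fun c => ?_
      rw [E_comm π]
      refine abs_E_sub_le_const _ fun h => ?_
      simp only [← E_unif]
      rw [E_comm π]
      refine abs_E_sub_le_const _ fun ell => ?_
      rw [← YG_GA]
      exact hy ⟨⟨k, by omega⟩, c, some (h, ell)⟩
  linarith [abs_le.mp a1, abs_le.mp a2]

theorem abs_log_sum_exp_sub_le {α : Type} [Fintype α] [Nonempty α] :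
    LipP fun H : α → ℝ => Real.log (∑ σ, Real.exp (H σ)) := fun H H' c hc => by
  have h := abs_lam_sub_le one_pos (unif α) hc
  have e : ∀ H : α → ℝ, lam 1 (unif α) H =
      Real.log (Fintype.card α : ℝ)⁻¹ + Real.log (∑ σ, Real.exp (H σ)) := fun H => by
    simp only [lam, one_mul, div_one, E, unif, ← mul_sum]
    rw [Real.log_mul (by positivity) (sum_pos (fun _ _ => Real.exp_pos _) univ_nonempty).ne']
  rw [e, e] at h
  simpa using h

theorem Pop_eq_fpress (M : FM K) (lam : ℝ) (N : ℕ) [NeZero N] :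
    Pop (lam * N) (mu0 M N) (ps0 M N) (VV M (fun _ H => Real.log (∑ σ, Real.exp (H σ))) N) 0 =
      N * fpress M lam N := by
  have hN : (N : ℝ) ≠ 0 := by exact_mod_cast NeZero.ne N
  rw [fpress, ← mul_assoc, mul_one_div_cancel hN, one_mul, Pop]
  refine pois_congr fun k => ?_
  rw [Mop_iterate, mu0, E_pi_split]
  refine E_congr _ fun c => ?_
  simp only [VV, ← E_unif]
  rw [E_comm, pi_unif]
  refine E_congr _ fun h => E_congr _ fun i => ?_
  simp only [logZ, zero_add, Finset.sum_apply, ps0, fld]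

theorem cesaro_P {f g : ℕ → ℝ} {C L ε : ℝ} (hε : 0 < ε) (h1 : ∀ n, |f n - (n + 1) * g n| ≤ C)
    (h2 : ∀ᶠ n in atTop, f n + (L - ε / 2) ≤ f (n + 1)) : ∀ᶠ n in atTop, L - ε ≤ g n := by
  obtain ⟨n0, hn0⟩ := eventually_atTop.mp h2
  have h3 : ∀ n, n0 ≤ n → f n0 + (n - n0) * (L - ε / 2) ≤ f n := fun n hn => by
    induction n, hn using Nat.le_induction with
    | base => simp
    | succ n hn ih =>
      have := hn0 n hn
      push_cast
      linarith
  have h4 : Tendsto (fun n : ℕ => (n : ℝ) * (ε / 2)) atTop atTop :=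
    tendsto_natCast_atTop_atTop.atTop_mul_const (by positivity)
  filter_upwards [eventually_ge_atTop n0,
    h4.eventually_ge_atTop (C - f n0 + n0 * (L - ε / 2) + (L - ε))] with n hn hn'
  have h5 := h3 n hn
  have h6 := (abs_le.mp (h1 n)).2
  have h7 : (n + 1) * (L - ε) ≤ (n + 1) * g n := by nlinarith
  exact le_of_mul_le_mul_left h7 (by positivity)

theorem ass_lower
    (core : ∀ {M : Type} [Fintype M] (ι : M → Type) [∀ m, Fintype (ι m)] [∀ m, DecidableEq (ι m)]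
      (G : ∀ m, (ι m → Bool) → ℝ) (ε : ℝ), 0 < ε → ∃ Ξ, CoreProp ι G ε Ξ)
    (M : FM K) {lam : ℝ} (hlam : 0 < lam) (hK : 1 ≤ K) (L : ℝ)
    (hL : ∀ y : FT, L ≤ (fTU M lam fun _ Y => TF y Y) - fTV M lam fun _ Y => TF y Y)
    {ε : ℝ} (hε : 0 < ε) : ∀ᶠ N in atTop, L - ε ≤ fpress M lam N := by
  haveI : NeZero K := ⟨by omega⟩
  obtain ⟨b, hb0, hb1, hb2⟩ := M.exists_bound
  obtain ⟨k0, hk0⟩ := compare_P M hlam L hL (δ := ε / 16) (by positivity)
  obtain ⟨Ξ, hΞ⟩ := core (fun m : IdxP M k0 => Fin m.1 × Fin K) (GfamP M k0) (ε / 16)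
    (by positivity)
  have hcmp := hk0 Ξ hΞ
  obtain ⟨⟨C, h1⟩, h2, ⟨η, hη, h3⟩, -⟩ := hΞ
  have key := cesaro_P (C := C) (L := L) (g := fun n => fpress M lam (n + 1))
    (f := fun n => Pop (lam * (n + 1 : ℕ)) (mu0 M (n + 1)) (ps0 M (n + 1)) (VV M Ξ (n + 1)) 0) hε
    (fun n => ?_) ?_
  · obtain ⟨n0, hn0⟩ := eventually_atTop.mp key
    filter_upwards [eventually_ge_atTop (n0 + 1)] with N hN
    obtain ⟨n, rfl⟩ : ∃ n, N = n + 1 := ⟨N - 1, by omega⟩
    exact hn0 n (by omega)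
  · have e := Pop_eq_fpress M lam (n + 1)
    rw [Nat.cast_succ n] at e ⊢
    rw [← e]
    exact abs_Pop_sub_le_const (by positivity) ((VV_lip (h2 _)).inc fun j σ => hb1 _ _)
      ((VV_lip (Ξ := fun _ H => Real.log (∑ σ, Real.exp (H σ))) abs_log_sum_exp_sub_le).inc
        fun j σ => hb1 _ _) (fun H => abs_E_sub_le_const _ fun h => h1 _ _) 0
  · have l1 : Tendsto (fun n : ℕ => η (n + 1)) atTop (𝓝 0) := hη.comp (tendsto_add_atTop_nat 1)
    have l2 : Tendsto (fun n : ℕ => 4 * b * lam * K ^ 2 / ((n + 1 : ℕ) + 1 : ℝ)) atTop (𝓝 0) :=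
      tendsto_const_nhds.div_atTop (tendsto_atTop_add_const_right _ _
        (tendsto_natCast_atTop_atTop.comp (tendsto_add_atTop_nat 1)))
    filter_upwards [l1.eventually (gt_mem_nhds (by positivity : 0 < ε / 8)),
      l2.eventually (gt_mem_nhds (by positivity : 0 < ε / 8))] with n e1 e2
    have := step_P M (n + 1) hlam hb1 (VV_lip (h2 _)) (VV_lip (h2 _))
      (cavity_P (n + 1) hlam hb0 hb1 hb2 (h2 _) (h2 _) (h3 (n + 1) (Nat.succ_pos n)) (hcmp (n + 1)))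
    linarith

end Vale.Agent.P168
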