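import Vale.Agent.P168.Pois

/-!
# P168: cavity functions and their bounds
-/

namespace Vale.Agent.P168

open Finset PW Filter
open scoped BigOperators Topology

variable {K : ℕ}

/-- Cavity function with an extra spin summed out. -/
noncomputable def GA {k : ℕ} (th : Fin k → (Fin K → Bool) → ℝ) (ell : Fin k → Fin K) (h : ℝ)
    (z : Fin k × Fin K → Bool) : ℝ :=
  Real.log (∑ e : Bool, Real.exp (h * sp e +
    ∑ l, th l (Function.update (fun j => z (l, j)) (ell l) e)))

/-- Cavity function of extra clauses. -/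
noncomputable def GB {k : ℕ} (th : Fin k → (Fin K → Bool) → ℝ) (z : Fin k × Fin K → Bool) : ℝ :=
  ∑ l, th l fun j => z (l, j)

theorem sum_curry_prod_P {k : ℕ} (F : Fin k → (Fin K → Bool) → ℝ) :
    ∑ z : Fin k × Fin K → Bool, ∏ l, F l (fun j => z (l, j)) = ∏ l, ∑ σ, F l σ := by
  rw [prod_univ_sum, Fintype.piFinset_univ]
  exact Fintype.sum_equiv (Equiv.curry _ _ _) _ _ fun z => rfl

theorem YG_GB {k : ℕ} (th : Fin k → (Fin K → Bool) → ℝ) : YG (GB th) = Vf th := by
  funext y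
  rw [Vf, ← sum_curry_prod_P fun l σ => Real.exp (th l σ) * ∏ j, (1 + y (l, j) * sp (σ j)) / 2, YG]
  refine sum_congr rfl fun z _ => ?_
  rw [GB, Real.exp_sum, Fintype.prod_prod_type, prod_mul_distrib]

theorem sum_update_P (F : (Fin K → Bool) → ℝ) (a : Fin K) (e : Bool) (y : Fin K → ℝ) :
    ∑ σ : Fin K → Bool, F (Function.update σ a e) * ∏ j, (1 + y j * sp (σ j)) / 2 =
      ∑ σ : Fin K → Bool with σ a = e, F σ * ∏ j ∈ univ.erase a, (1 + y j * sp (σ j)) / 2 := by
  set T : (Fin K → Bool) → ℝ := fun σ =>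
    F (Function.update σ a e) * ∏ j ∈ univ.erase a, (1 + y j * sp (σ j)) / 2 with hT
  have hTu : ∀ σ b, T (Function.update σ a b) = T σ := fun σ b => by
    simp only [hT, Function.update_idem]
    congr 1
    exact prod_congr rfl fun j hj => by rw [Function.update_of_ne (ne_of_mem_erase hj)]
  have h1 : ∑ σ : Fin K → Bool with ¬ σ a = e, T σ = ∑ σ : Fin K → Bool with σ a = e, T σ := by
    refine sum_nbij' (fun σ => Function.update σ a e) (fun σ => Function.update σ a (!e))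
      ?_ ?_ ?_ ?_ ?_
    · intro σ _; simp
    · intro σ _; simp
    · intro σ hσ
      have : σ a = !e := Bool.eq_not_iff.mpr (mem_filter.mp hσ).2
      simp only [Function.update_idem]
      rw [← this, Function.update_eq_self]
    · intro σ hσ
      have : σ a = e := by simpa using hσ
      simp only [Function.update_idem]
      rw [← this, Function.update_eq_self]
    · intro σ _; rw [hTu]
  have h2 : ∀ σ : Fin K → Bool, F (Function.update σ a e) * ∏ j, (1 + y j * sp (σ j)) / 2 =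
      T σ * ((1 + y a * sp (σ a)) / 2) := fun σ => by
    rw [← mul_prod_erase _ _ (mem_univ a), hT]; ring
  simp only [h2]
  rw [← sum_filter_add_sum_filter_not univ (fun σ : Fin K → Bool => σ a = e)]
  have h3 : ∑ σ : Fin K → Bool with σ a = e, T σ * ((1 + y a * sp (σ a)) / 2) =
      (∑ σ : Fin K → Bool with σ a = e, T σ) * ((1 + y a * sp e) / 2) := by
    rw [sum_mul]
    exact sum_congr rfl fun σ hσ => by rw [(mem_filter.mp hσ).2]
  have h4 : ∑ σ : Fin K → Bool with ¬ σ a = e, T σ * ((1 + y a * sp (σ a)) / 2) =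
      (∑ σ : Fin K → Bool with ¬ σ a = e, T σ) * ((1 - y a * sp e) / 2) := by
    rw [sum_mul]
    refine sum_congr rfl fun σ hσ => ?_
    have : σ a = !e := Bool.eq_not_iff.mpr (mem_filter.mp hσ).2
    rw [this, sp_not]; ring
  have h5 : ∑ σ : Fin K → Bool with σ a = e, T σ =
      ∑ σ : Fin K → Bool with σ a = e, F σ * ∏ j ∈ univ.erase a, (1 + y j * sp (σ j)) / 2 := by
    refine sum_congr rfl fun σ hσ => ?_
    rw [hT, ← (mem_filter.mp hσ).2]
    simp only [Function.update_eq_self]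
  rw [h3, h4, h1, h5]; ring

theorem YG_GA {k : ℕ} (th : Fin k → (Fin K → Bool) → ℝ) (ell : Fin k → Fin K) (h : ℝ) :
    YG (GA th ell h) = Uf th ell h := by
  funext y
  have h1 : ∀ z, Real.exp (GA th ell h z) = ∑ e : Bool, Real.exp (h * sp e) *
      ∏ l, Real.exp (th l (Function.update (fun j => z (l, j)) (ell l) e)) := fun z => by
    rw [GA, Real.exp_log (sum_pos (fun _ _ => Real.exp_pos _) univ_nonempty)]
    simp only [Real.exp_add, Real.exp_sum]
  simp only [YG, Uf, h1, sum_mul]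
  rw [sum_comm]
  refine sum_congr rfl fun e _ => ?_
  simp only [← sum_update_P (fun σ => Real.exp (th _ σ)) _ e fun j => y (_, j)]
  rw [← sum_curry_prod_P fun l σ => Real.exp (th l (Function.update σ (ell l) e)) *
    ∏ j, (1 + y (l, j) * sp (σ j)) / 2, mul_sum]
  refine sum_congr rfl fun z _ => ?_
  rw [Fintype.prod_prod_type, prod_mul_distrib, mul_assoc]

theorem abs_sum_le_P {k : ℕ} {F : Fin k → ℝ} {b : ℝ} (h : ∀ l, |F l| ≤ b) : |∑ l, F l| ≤ b * k := by
  refine (abs_sum_le_sum_abs _ _).trans ((sum_le_sum fun l _ => h l).trans ?_)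
  simp [mul_comm]

theorem abs_GB_le {k : ℕ} {th : Fin k → (Fin K → Bool) → ℝ} {b : ℝ} (hb : 0 ≤ b)
    (h : ∀ l σ, |th l σ| ≤ b) (z : Fin k × Fin K → Bool) : |GB th z| ≤ (b + 1) * (k + 1) := by
  refine (abs_sum_le_P fun l => h l _).trans ?_
  have : (0 : ℝ) ≤ k := Nat.cast_nonneg k
  nlinarith

theorem abs_log_sum_bool_le {F : Bool → ℝ} {b : ℝ} (h : ∀ e, |F e| ≤ b) :
    |Real.log (∑ e, Real.exp (F e))| ≤ b + 1 := by
  have hp : 0 < ∑ e, Real.exp (F e) := sum_pos (fun _ _ => Real.exp_pos _) univ_nonempty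
  have h1 := abs_le.mp (h true)
  have h2 := abs_le.mp (h false)
  rw [abs_le, Real.le_log_iff_exp_le hp, Real.log_le_iff_le_exp hp, Fintype.sum_bool]
  constructor
  · have : Real.exp (-(b + 1)) ≤ Real.exp (F true) := Real.exp_le_exp.mpr (by linarith)
    linarith [Real.exp_pos (F false)]
  · have e1 : Real.exp (F true) ≤ Real.exp b := Real.exp_le_exp.mpr h1.2
    have e2 : Real.exp (F false) ≤ Real.exp b := Real.exp_le_exp.mpr h2.2
    have e3 := Real.add_one_le_exp 1
    rw [Real.exp_add]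
    nlinarith [Real.exp_pos b]

theorem abs_GA_le {k : ℕ} {th : Fin k → (Fin K → Bool) → ℝ} {b : ℝ}
    (h : ∀ l σ, |th l σ| ≤ b) (ell : Fin k → Fin K) {h0 : ℝ} (hh : |h0| ≤ b)
    (z : Fin k × Fin K → Bool) : |GA th ell h0 z| ≤ (b + 1) * (k + 1) := by
  refine (abs_log_sum_bool_le (b := b + b * k) fun e => ?_).trans ?_
  · refine (abs_add_le _ _).trans (add_le_add ?_ (abs_sum_le_P fun l => h l _))
    rwa [abs_mul, abs_sp, mul_one]
  · have : (0 : ℝ) ≤ k := Nat.cast_nonneg k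
    nlinarith

/-- A spin with prescribed mean. -/
noncomputable def spinW (y : ℝ) (hy : -1 ≤ y ∧ y ≤ 1) : PW Bool where
  w := fun b => (1 + y * sp b) / 2
  nonneg := fun b => by cases b <;> simp [sp] <;> linarith [hy.1, hy.2]
  sum_one := by simp [sp]; ring

theorem abs_log_YG_le {ι : Type} [Fintype ι] [DecidableEq ι] {G : (ι → Bool) → ℝ} {b : ℝ}
    (hG : ∀ z, |G z| ≤ b) {y : ι → ℝ} (hy : ∀ l, -1 ≤ y l ∧ y l ≤ 1) :
    |Real.log (YG G y)| ≤ b := by
  have h := abs_lam_le one_pos (PW.pi fun l => spinW (y l) (hy l)) hG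
  simp only [lam, one_mul, div_one, E, PW.pi, spinW] at h
  simpa only [YG, mul_comm] using h

theorem abs_TF_YG_le (y : FT) {ι : Type} [Fintype ι] [DecidableEq ι] {G : (ι → Bool) → ℝ} {b : ℝ}
    (hG : ∀ z, |G z| ≤ b) : |TF y (YG G)| ≤ b :=
  abs_E_le_const _ fun _ => abs_X_le y.m_pos (fun _ => abs_log_YG_le hG fun _ => y.xb_mem _ _) _ _

theorem FM.exists_bound (M : FM K) :
    ∃ b : ℝ, 0 ≤ b ∧ (∀ c σ, |M.th c σ| ≤ b) ∧ ∀ h, |M.hv h| ≤ b := by
  obtain ⟨b1, h1⟩ := Finite.exists_le fun x : M.Θ × (Fin K → Bool) => |M.th x.1 x.2|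
  obtain ⟨b2, h2⟩ := Finite.exists_le fun x : M.Hh => |M.hv x|
  refine ⟨max 0 (max b1 b2), le_max_left _ _, fun c σ => (h1 (c, σ)).trans ?_,
    fun h => (h2 h).trans ?_⟩ <;> simp

theorem abs_expect_le_P {α : Type} [Fintype α] [Nonempty α] {F : α → ℝ} {c : ℝ}
    (h : ∀ a, |F a| ≤ c) : |𝔼 a, F a| ≤ c := by
  rw [← E_unif]; exact abs_E_le_const _ h

/-- Truncation of Poisson expectations. -/
theorem pois_trunc {t : ℝ} (ht : 0 ≤ t) (c : ℝ) {δ : ℝ} (hδ : 0 < δ) :
    ∀ᶠ k0 : ℕ in atTop, ∀ (g g' : ℕ → ℝ) (e : ℝ), (∀ k, |g k| ≤ c * (k + 1)) →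
      (∀ k, |g' k| ≤ c * (k + 1)) → (∀ k ≤ k0, |g k - g' k| ≤ e) →
      |pois t g - pois t g'| ≤ e + δ := by
  have hb : ∀ k0 k : ℕ, |if k ≤ k0 then 0 else 2 * c * (k + 1)| ≤ |2 * c| * (k + 1) := fun k0 k => by
    split_ifs
    · rw [abs_zero]; positivity
    · rw [abs_mul (2 * c), abs_of_nonneg (by positivity : (0 : ℝ) ≤ k + 1)]
  have h1 : Tendsto (fun k0 : ℕ => ∑' k : ℕ, pw t k * if k ≤ k0 then 0 else 2 * c * (k + 1)) atTop
      (𝓝 (∑' _ : ℕ, (0 : ℝ))) := by
    refine tendsto_tsum_of_dominated_convergence (hasSum_pw_lin t |2 * c|).summable (fun k => ?_)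
      (Eventually.of_forall fun k0 k => ?_)
    · refine tendsto_const_nhds.congr' ?_
      filter_upwards [eventually_ge_atTop k] with k0 hk
      rw [if_pos hk, mul_zero]
    · rw [Real.norm_eq_abs, abs_mul, abs_of_nonneg (pw_nonneg ht k)]
      exact mul_le_mul_of_nonneg_left (hb k0 k) (pw_nonneg ht k)
  rw [tsum_zero] at h1
  filter_upwards [h1.eventually (gt_mem_nhds hδ)] with k0 hk0 g g' e hg hg' he
  have he0 : 0 ≤ e := (abs_nonneg _).trans (he 0 (Nat.zero_le _))
  have hce : ∀ k : ℕ, |e| ≤ |e| * (k + 1) := fun k =>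
    le_mul_of_one_le_right (abs_nonneg _) (by linarith [(Nat.cast_nonneg k : (0 : ℝ) ≤ k)])
  rw [← pois_sub' ht hg hg']
  refine (abs_pois_le_pois (c := |e| + |2 * c|)
    (g' := fun k => e + if k ≤ k0 then 0 else 2 * c * (k + 1)) ht (fun k => ?_) fun k => ?_).trans ?_
  · split_ifs with hk
    · linarith [he k hk]
    · linarith [abs_sub (g k) (g' k), hg k, hg' k]
  · linarith [abs_add_le e (if k ≤ k0 then 0 else 2 * c * (k + 1)), hb k0 k, hce k]
  · rw [pois_add' ht hce (hb k0), pois_const, pois_eq]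
    linarith

theorem E_pi_split {ι α β : Type} [Fintype ι] [DecidableEq ι] [Fintype α] [Fintype β]
    (μ : PW α) (ν : PW β) (F : (ι → α × β) → ℝ) :
    (PW.pi fun _ : ι => μ.prod ν).E F = (PW.pi fun _ : ι => μ).E fun a =>
      (PW.pi fun _ : ι => ν).E fun b => F fun i => (a i, b i) := by
  rw [← E_prod (PW.pi fun _ : ι => μ) (PW.pi fun _ : ι => ν) fun x => F fun i => (x.1 i, x.2 i)]
  simp only [E, PW.pi, PW.prod]
  refine Fintype.sum_equiv (Equiv.arrowProdEquivProdArrow _ _ _) _ _ fun x => ?_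
  simp [prod_mul_distrib]

/-- A biased coin. -/
noncomputable def coin (s : ℝ) (h0 : 0 ≤ s) (h1 : s ≤ 1) : PW Bool where
  w := fun b => if b then s else 1 - s
  nonneg := fun b => by cases b <;> simp <;> linarith
  sum_one := by simp

theorem coin_lower {s : ℝ} (h0 : 0 ≤ s) (h1 : s ≤ 1) {g : (Fin K → Bool) → ℝ} (hg : ∀ a, 0 ≤ g a) :
    (1 - s) ^ K * g (fun _ => false) + s * (1 - s) ^ (K - 1) * ∑ l, g (fun j => decide (j = l)) ≤
      (PW.pi fun _ : Fin K => coin s h0 h1).E g := by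
  have hinj : Function.Injective fun (l : Fin K) (j : Fin K) => decide (j = l) := fun l l' h => by
    simpa using congrFun h l
  have hnot : (fun _ => false) ∉ univ.image fun (l : Fin K) (j : Fin K) => decide (j = l) := by
    simp only [mem_image, mem_univ, true_and, not_exists]
    intro l h
    simpa using congrFun h l
  refine le_trans (le_of_eq ?_) (sum_le_sum_of_subset_of_nonneg
    (subset_univ (insert (fun _ => false) (univ.image fun (l j : Fin K) => decide (j = l))))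
    fun a _ _ => mul_nonneg ((PW.pi fun _ : Fin K => coin s h0 h1).nonneg a) (hg a))
  rw [sum_insert hnot, sum_image fun l _ l' _ h => hinj h, mul_sum]
  congr 1
  · simp [PW.pi, coin]
  · refine sum_congr rfl fun l _ => ?_
    congr 1
    simp only [PW.pi, coin]
    rw [← mul_prod_erase _ _ (mem_univ l), prod_congr rfl (g := fun _ => 1 - s)]
    · simp
    · intro j hj
      simp [ne_of_mem_erase hj]

theorem unif_succ (N : ℕ) [NeZero N] (h0 : (0 : ℝ) ≤ 1 / (N + 1)) (h1 : (1 : ℝ) / (N + 1) ≤ 1) :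
    unif (Fin (N + 1)) = ((coin _ h0 h1).prod (unif (Fin N))).map
      fun x => if x.1 then 0 else x.2.succ := by
  refine ext_E fun F => ?_
  rw [E_map, E_prod]
  have hN : (N : ℝ) ≠ 0 := by exact_mod_cast NeZero.ne N
  simp [E, coin, unif, Fin.sum_univ_succ, ← mul_sum]
  field_simp
  ring

theorem E_unif_succ (N : ℕ) [NeZero N] (h0 : (0 : ℝ) ≤ 1 / (N + 1)) (h1 : (1 : ℝ) / (N + 1) ≤ 1)
    (G : (Fin K → Fin (N + 1)) → ℝ) :
    (unif (Fin K → Fin (N + 1))).E G = (PW.pi fun _ : Fin K => coin _ h0 h1).E fun a =>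
      (unif (Fin K → Fin N)).E fun i => G fun j => if a j then 0 else (i j).succ := by
  rw [← pi_unif, ← pi_unif, unif_succ N h0 h1, E_pi_map, E_pi_split]

/-- Mixture of two weights. -/
noncomputable def mixW {α β : Type} [Fintype α] [Fintype β] (p : ℝ) (h0 : 0 ≤ p) (h1 : p ≤ 1)
    (μ : PW α) (ν : PW β) : PW (α ⊕ β) where
  w := Sum.elim (fun a => p * μ.w a) fun b => (1 - p) * ν.w b
  nonneg := fun x => by
    rcases x with a | b
    · exact mul_nonneg h0 (μ.nonneg a)
    · exact mul_nonneg (by linarith) (ν.nonneg b)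
  sum_one := by simp [← mul_sum, μ.sum_one, ν.sum_one]

theorem E_mixW {α β : Type} [Fintype α] [Fintype β] {p : ℝ} (h0 : 0 ≤ p) (h1 : p ≤ 1)
    (μ : PW α) (ν : PW β) (F : α ⊕ β → ℝ) :
    (mixW p h0 h1 μ ν).E F = p * μ.E (fun a => F (.inl a)) + (1 - p) * ν.E fun b => F (.inr b) := by
  simp [E, mixW, mul_sum, mul_assoc]

end Vale.Agent.P168
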