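import Vale.Agent.P168.AssA

/-!
# P168: adding one site
-/

namespace Vale.Agent.P168

open Finset PW Filter
open scoped BigOperators Topology

variable {K : ℕ} (M : FM K)

/-- A clause on `N` sites. -/
def ps0 (N : ℕ) (j : M.Θ × (Fin K → Fin N)) : (Fin N → Bool) → ℝ :=
  fun σ => M.th j.1 fun a => σ (j.2 a)

/-- Law of a clause on `N` sites. -/
noncomputable def mu0 (N : ℕ) [NeZero N] : PW (M.Θ × (Fin K → Fin N)) := M.p.prod (unif _)

/-- A clause that contains the new site once. -/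
def ps1 (N : ℕ) (j : M.Θ × (Fin K × (Fin K → Fin N))) : (Fin (N + 1) → Bool) → ℝ :=
  fun σ => M.th j.1 (Function.update (fun a => σ (j.2.2 a).succ) j.2.1 (σ 0))

/-- Law of a clause that contains the new site once. -/
noncomputable def mu1 (N : ℕ) [NeZero N] [NeZero K] : PW (M.Θ × (Fin K × (Fin K → Fin N))) :=
  M.p.prod ((unif _).prod (unif _))

/-- Extension of a function of `N` spins to `N + 1` spins. -/
def extH (N : ℕ) : ((Fin N → Bool) → ℝ) →+ ((Fin (N + 1) → Bool) → ℝ) where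
  toFun := fun H σ => H (Fin.tail σ)
  map_zero' := rfl
  map_add' := fun _ _ => rfl

/-- The Lipschitz property in the uniform norm. -/
def LipP {α : Type} (V : (α → ℝ) → ℝ) : Prop :=
  ∀ H H' (c : ℝ), (∀ σ, |H σ - H' σ| ≤ c) → |V H - V H'| ≤ c

theorem LipP.inc {α J : Type} {V : (α → ℝ) → ℝ} (h : LipP V) {ψ : J → α → ℝ} {b : ℝ}
    (hψ : ∀ j σ, |ψ j σ| ≤ b) : Inc ψ V b := fun x j => h _ _ _ fun σ => by simpa using hψ j σ

theorem bern_P {s : ℝ} (h1 : s ≤ 1) (n : ℕ) : 1 - n * s ≤ (1 - s) ^ n := by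
  have := one_add_mul_le_pow (a := -s) (by linarith) n
  simpa [sub_eq_add_neg] using this

theorem gen_ineq [NeZero K] (N : ℕ) [NeZero N] {b : ℝ} (hb : ∀ c σ, |M.th c σ| ≤ b)
    {V : ((Fin (N + 1) → Bool) → ℝ) → ℝ} (hV : LipP V) (x : (Fin (N + 1) → Bool) → ℝ) :
    (1 - 1 / ((N : ℝ) + 1)) ^ K * Mop (mu0 M N) (fun j => extH N (ps0 M N j)) V x +
      (1 - (1 - 1 / ((N : ℝ) + 1)) ^ K) * Mop (mu1 M N) (ps1 M N) V x ≤
      Mop (mu0 M (N + 1)) (ps0 M (N + 1)) V x + 2 * b * (K * (1 / ((N : ℝ) + 1))) ^ 2 := by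
  have h0 : (0 : ℝ) ≤ 1 / (N + 1) := by positivity
  have h1 : (1 : ℝ) / (N + 1) ≤ 1 := by
    rw [div_le_one (by positivity)]; linarith [(Nat.cast_nonneg N : (0 : ℝ) ≤ N)]
  simp only [Mop, mu0, mu1, E_prod]
  rw [← E_const_mul, ← E_const_mul, ← E_add, ← E_add_const]
  refine E_mono _ fun c => ?_
  set s : ℝ := 1 / (N + 1) with hs
  set G : (Fin K → Fin (N + 1)) → ℝ := fun i => V (x + ps0 M (N + 1) (c, i)) - V x + b with hG
  have hGb : ∀ i, 0 ≤ G i ∧ G i ≤ 2 * b := fun i => by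
    have := abs_le.mp (hV.inc (ψ := ps0 M (N + 1)) (fun j σ => hb _ _) x (c, i))
    simp only [hG]
    constructor <;> linarith [this.1, this.2]
  have key := coin_lower (K := K) h0 h1 (g := fun a => (unif (Fin K → Fin N)).E fun i =>
    G fun j => if a j then 0 else (i j).succ) fun a => E_nonneg _ fun i => (hGb _).1
  rw [← E_unif_succ N h0 h1] at key
  have e0 : ((unif (Fin K → Fin N)).E fun i => G fun j => if false then 0 else (i j).succ) =
      (unif (Fin K → Fin N)).E (fun i => V (x + extH N (ps0 M N (c, i)))) - V x + b := by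
    rw [← E_sub_const, ← E_add_const]; rfl
  have e1 : ∀ l : Fin K, ((unif (Fin K → Fin N)).E fun i =>
      G fun j => if decide (j = l) then 0 else (i j).succ) =
      (unif (Fin K → Fin N)).E (fun i => V (x + ps1 M N (c, l, i))) - V x + b := fun l => by
    rw [← E_sub_const, ← E_add_const]
    refine E_congr _ fun i => ?_
    simp only [hG]
    congr 4
    funext σ
    simp only [ps0, ps1]
    congr 1
    funext j
    by_cases hj : j = l
    · subst hj; simp
    · simp [hj]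
  have e2 : (unif (Fin K → Fin (N + 1))).E G =
      (unif (Fin K → Fin (N + 1))).E (fun i => V (x + ps0 M (N + 1) (c, i))) - V x + b := by
    rw [← E_sub_const, ← E_add_const]
  have hK : (0 : ℝ) < K := by exact_mod_cast Nat.pos_of_ne_zero (NeZero.ne K)
  have e3 : ∑ l : Fin K, ((unif (Fin K → Fin N)).E fun i =>
      G fun j => if decide (j = l) then 0 else (i j).succ) = K * ((unif (Fin K)).E
        (fun l => (unif (Fin K → Fin N)).E fun i => V (x + ps1 M N (c, l, i))) - V x + b) := by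
    rw [← E_sub_const, ← E_add_const]
    simp only [e1]
    rw [E_unif (α := Fin K), expect_eq_sum_div_card]
    simp only [card_univ, Fintype.card_fin]
    field_simp
  have hA : 0 ≤ (unif (Fin K)).E
        (fun l => (unif (Fin K → Fin N)).E fun i => V (x + ps1 M N (c, l, i))) - V x + b ∧
      (unif (Fin K)).E
        (fun l => (unif (Fin K → Fin N)).E fun i => V (x + ps1 M N (c, l, i))) - V x + b ≤ 2 * b := by
    rw [← E_sub_const, ← E_add_const]
    simp only [← e1]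
    exact ⟨E_nonneg _ fun l => E_nonneg _ fun i => (hGb _).1,
      E_le_const _ fun l => E_le_const _ fun i => (hGb _).2⟩
  beta_reduce at key
  rw [e0, e2, e3] at key
  obtain ⟨K', hK'⟩ : ∃ K', K = K' + 1 := Nat.exists_eq_succ_of_ne_zero (NeZero.ne K)
  have hp : 1 - (1 - s) ^ K - s * (1 - s) ^ (K - 1) * K ≤ (K * s) ^ 2 := by
    have hb1 := bern_P h1 K'
    have hK0 : (0 : ℝ) ≤ K' := Nat.cast_nonneg K'
    rw [hK', Nat.add_sub_cancel, pow_succ]
    push_cast
    have : (1 - K' * s) * (1 + K' * s) ≤ (1 - s) ^ K' * (1 + K' * s) := by gcongr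
    nlinarith [mul_nonneg hK0 (mul_nonneg h0 h0), mul_nonneg h0 h0]
  generalize (unif (Fin K)).E
    (fun l => (unif (Fin K → Fin N)).E fun i => V (x + ps1 M N (c, l, i))) = A1 at *
  generalize (unif (Fin K → Fin N)).E (fun i => V (x + extH N (ps0 M N (c, i)))) = A0 at *
  generalize (unif (Fin K → Fin (N + 1))).E (fun i => V (x + ps0 M (N + 1) (c, i))) = A2 at *
  have h2 : (1 - (1 - s) ^ K - s * (1 - s) ^ (K - 1) * K) * (A1 - V x + b) ≤
      (K * s) ^ 2 * (2 * b) :=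
    (mul_le_mul_of_nonneg_right hp hA.1).trans (mul_le_mul_of_nonneg_left hA.2 (sq_nonneg _))
  nlinarith

theorem rate_P {s : ℝ} (h0 : 0 ≤ s) (h1 : s ≤ 1) (n : ℕ) :
    1 - (1 - s) ^ n ≤ n * s ∧ n * s - (n * s) ^ 2 ≤ 1 - (1 - s) ^ n := by
  refine ⟨by linarith [bern_P h1 n], ?_⟩
  induction n with
  | zero => simp
  | succ n ih =>
    have hn : (0 : ℝ) ≤ n := Nat.cast_nonneg n
    have h2 : (1 - s) ^ n * (1 - s) ≤ (1 - n * s + (n * s) ^ 2) * (1 - s) := by
      gcongr <;> linarith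
    rw [pow_succ (1 - s)]
    push_cast
    nlinarith [mul_nonneg h0 h0, mul_nonneg hn (mul_nonneg h0 h0), mul_nonneg h0 (sq_nonneg (n * s))]

theorem step_P [NeZero K] (N : ℕ) [NeZero N] {lam : ℝ} (hlam : 0 < lam) {b : ℝ}
    (hb : ∀ c σ, |M.th c σ| ≤ b) {V : ((Fin N → Bool) → ℝ) → ℝ} (hV : LipP V)
    {V' : ((Fin (N + 1) → Bool) → ℝ) → ℝ} (hV' : LipP V') {D : ℝ}
    (hD : ∀ H, Pop ((K - 1) * lam) (mu0 M N) (ps0 M N) V H + D ≤
      Pop (K * lam) (mu1 M N) (ps1 M N) V' (extH N H)) :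
    Pop (lam * N) (mu0 M N) (ps0 M N) V 0 + D ≤
      Pop (lam * (N + 1 : ℕ)) (mu0 M (N + 1)) (ps0 M (N + 1)) V' 0 +
        4 * b * lam * K ^ 2 / (N + 1) := by
  have hN1 : (0 : ℝ) < N + 1 := by positivity
  have h0 : (0 : ℝ) ≤ 1 / (N + 1) := by positivity
  have h1 : (1 : ℝ) / (N + 1) ≤ 1 := by
    rw [div_le_one (by positivity)]; linarith [(Nat.cast_nonneg N : (0 : ℝ) ≤ N)]
  have hgen := gen_ineq M N hb hV'
  obtain ⟨hr1, hr2⟩ := rate_P h0 h1 K
  set s : ℝ := 1 / (N + 1) with hs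
  have hs1 : s * (N + 1) = 1 := by rw [hs]; field_simp
  have hp0 : 0 ≤ (1 - s) ^ K := pow_nonneg (by linarith) _
  have hp1 : (1 - s) ^ K ≤ 1 - s := pow_le_of_le_one (by linarith) (by linarith) (NeZero.ne K)
  generalize (1 - s) ^ K = p at *
  have hI0 : Inc (ps0 M N) V b := hV.inc fun j σ => hb _ _
  have hI0' : Inc (fun j => extH N (ps0 M N j)) V' b := hV'.inc fun j σ => hb _ _
  have hI1 : Inc (ps1 M N) V' b := hV'.inc fun j σ => hb _ _
  have hI2 : Inc (ps0 M (N + 1)) V' b := hV'.inc fun j σ => hb _ _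
  have hb0 : 0 ≤ b := hI0.nonneg (mu0 M N)
  have hIm : Inc (Sum.elim (fun j => extH N (ps0 M N j)) (ps1 M N)) V' b := fun x j => by
    rcases j with j | j
    · exact hI0' x j
    · exact hI1 x j
  set T : ℝ := lam * (N + 1) with hT
  have hT0 : 0 ≤ T := by positivity
  have hmix : ∀ (W : ((Fin (N + 1) → Bool) → ℝ) → ℝ) x,
      Mop (mixW p hp0 (by linarith) (mu0 M N) (mu1 M N))
        (Sum.elim (fun j => extH N (ps0 M N j)) (ps1 M N)) W x =
      p * Mop (mu0 M N) (fun j => extH N (ps0 M N j)) W x +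
        (1 - p) * Mop (mu1 M N) (ps1 M N) W x := fun W x => by
    simp only [Mop, E_mixW, Sum.elim_inl, Sum.elim_inr]
  have a1 := Pop_le_Pop (μ := mixW p hp0 (by linarith) (mu0 M N) (mu1 M N))
    (μ' := mu0 M (N + 1)) hT0 hIm hI2 (fun x => by rw [hmix]; exact hgen x) 0
  rw [Pop_thin hT0 hp0 (by linarith) hI0' hI1 hmix, ← map_zero (extH N), Pop_hom, map_zero] at a1
  have ht1 : (1 - p) * T ≤ K * lam := by
    calc (1 - p) * T ≤ K * s * T := by gcongr
      _ = K * lam * (s * (N + 1)) := by rw [hT]; ring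
      _ = _ := by rw [hs1, mul_one]
  have ht2 : K * lam - (1 - p) * T ≤ lam * K ^ 2 * s := by
    have : (K * s - (K * s) ^ 2) * T ≤ (1 - p) * T := by gcongr
    have e : (K * s - (K * s) ^ 2) * T = (K * lam - lam * K ^ 2 * s) * (s * (N + 1)) := by
      rw [hT]; ring
    rw [e, hs1] at this
    linarith
  have ht3 : 0 ≤ (1 - p) * T - lam := by
    have : s * T ≤ (1 - p) * T := by gcongr; linarith
    have e : s * T = lam * (s * (N + 1)) := by rw [hT]; ring
    rw [e, hs1] at this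
    linarith
  have ht4 : 0 ≤ (1 - p) * T := mul_nonneg (by linarith) hT0
  have ht5 : 0 ≤ p * T := mul_nonneg hp0 hT0
  have ht6 : 0 ≤ K * lam - (1 - p) * T := by linarith
  have a2 : ∀ H, Pop ((1 - p) * T - lam) (mu0 M N) (ps0 M N) V H +
      (D - 2 * (lam * K ^ 2 * s * b)) ≤ Pop ((1 - p) * T) (mu1 M N) (ps1 M N) V' (extH N H) := by
    intro H
    have b1 := hD H
    have b2 := abs_Pop_sub_le (μ := mu1 M N) ht6 (hI1.Pop (μ := mu1 M N) ht4 hI1) (extH N H)
    rw [← Pop_Pop ht6 ht4 hI1, sub_add_cancel] at b2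
    have b3 := abs_Pop_sub_le (μ := mu0 M N) ht6 (hI0.Pop (μ := mu0 M N) ht3 hI0) H
    rw [← Pop_Pop ht6 ht3 hI0,
      show K * lam - (1 - p) * T + ((1 - p) * T - lam) = (K - 1) * lam by ring] at b3
    have b4 : (K * lam - (1 - p) * T) * b ≤ lam * K ^ 2 * s * b := by gcongr
    linarith [abs_le.mp b2, abs_le.mp b3]
  have hI3 : Inc (ps0 M N) (Pop ((1 - p) * T - lam) (mu0 M N) (ps0 M N) V) b := hI0.Pop ht3 hI0
  have hI4 : Inc (ps0 M N) (fun _ => D - 2 * (lam * K ^ 2 * s * b)) 0 := fun x j => by simp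
  have hI5 : Inc (ps0 M N) (fun H => Pop ((1 - p) * T - lam) (mu0 M N) (ps0 M N) V H +
      (D - 2 * (lam * K ^ 2 * s * b))) b := fun x j => by simpa using hI3 x j
  have hI6 : Inc (ps0 M N) (fun H => Pop ((1 - p) * T) (mu1 M N) (ps1 M N) V' (extH N H)) b :=
    fun x j => by simpa only [map_add] using hI1.Pop (μ := mu1 M N) ht4 hI0' (extH N x) j
  have a3 := Pop_mono (μ := mu0 M N) ht5 hI5 hI6 a2 0
  rw [Pop_add ht5 hI3 hI4, Pop_const, ← Pop_Pop ht5 ht3 hI0,
    show p * T + ((1 - p) * T - lam) = lam * N by rw [hT]; ring] at a3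
  have e1 : T * (2 * b * (K * s) ^ 2) = 2 * (lam * K ^ 2 * s * b) * (s * (N + 1)) := by
    rw [hT]; ring
  have e2 : 4 * b * lam * K ^ 2 / (N + 1) = 4 * (lam * K ^ 2 * s * b) := by rw [hs]; ring
  rw [e1, hs1] at a1
  push_cast
  rw [e2, ← hT]
  linarith

end Vale.Agent.P168
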