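import Vale.Agent.P168.PW

/-!
# P168: hierarchical free energy along a finite Markov chain

`P p ω` is the step from height `p+1` (state `ω`) down to height `p`, taken with exponent `a p`.
-/

namespace Vale.Agent.P168

open Finset PW
open scoped BigOperators

/-- A chain of Markov kernels. -/
abbrev Ch (Ω : Type) [Fintype Ω] := ℕ → Ω → PW Ω

variable {Ω Ω' : Type} [Fintype Ω] [Fintype Ω']

/-- Free energy at height `p` of the function `G` placed at height `j`. -/
noncomputable def X (a : ℕ → ℝ) (P : Ch Ω) (j : ℕ) (G : Ω → ℝ) : ℕ → Ω → ℝ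
  | 0 => G
  | p + 1 => if p < j then G else fun ω => lam (a p) (P p ω) (X a P j G p)

/-- Law at height `j` of the chain started at height `p`. -/
noncomputable def B (P : Ch Ω) (j : ℕ) : ℕ → Ω → PW Ω
  | 0 => PW.pure
  | p + 1 => if p < j then PW.pure else fun ω => (P p ω).bind (B P j p)

/-- Average at height `p` of the function `F` placed at height `j`. -/
noncomputable def A (P : Ch Ω) (j p : ℕ) (F : Ω → ℝ) (ω : Ω) : ℝ := (B P j p ω).E F

/-- The chain tilted by `G` placed at height `j`. -/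
noncomputable def T (a : ℕ → ℝ) (P : Ch Ω) (j : ℕ) (G : Ω → ℝ) : Ch Ω := fun p ω =>
  if p < j then P p ω else (P p ω).tilt fun x => a p * X a P j G p x

section basic
variable {a : ℕ → ℝ} {P : Ch Ω} {j p : ℕ}

theorem X_of_le {G : Ω → ℝ} (h : p ≤ j) : X a P j G p = G := by
  cases p with
  | zero => rfl
  | succ p => simp [X, show p < j by omega]

theorem X_succ {G : Ω → ℝ} (h : j ≤ p) (ω : Ω) :
    X a P j G (p + 1) ω = lam (a p) (P p ω) (X a P j G p) := by
  simp [X, show ¬ p < j by omega]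

theorem B_of_le (h : p ≤ j) : B P j p = PW.pure := by
  cases p with
  | zero => rfl
  | succ p => simp [B, show p < j by omega]

theorem B_succ (h : j ≤ p) (ω : Ω) : B P j (p + 1) ω = (P p ω).bind (B P j p) := by
  simp [B, show ¬ p < j by omega]

theorem A_of_le {F : Ω → ℝ} (h : p ≤ j) : A P j p F = F := by
  funext ω; simp [A, B_of_le h]

theorem A_succ {F : Ω → ℝ} (h : j ≤ p) (ω : Ω) : A P j (p + 1) F ω = (P p ω).E (A P j p F) := by
  rw [A, B_succ h, E_bind]; rfl

theorem T_of_lt {G : Ω → ℝ} (h : p < j) (ω : Ω) : T a P j G p ω = P p ω := by simp [T, h]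

theorem T_of_le {G : Ω → ℝ} (h : j ≤ p) (ω : Ω) :
    T a P j G p ω = (P p ω).tilt fun x => a p * X a P j G p x := by
  simp [T, show ¬ p < j by omega]

/-- Induction on the height above `j`. -/
theorem ht_induction {j : ℕ} {Q : ℕ → Prop} (h0 : ∀ p, p ≤ j → Q p)
    (hs : ∀ p, j ≤ p → Q p → Q (p + 1)) (p : ℕ) : Q p := by
  induction p with
  | zero => exact h0 0 (Nat.zero_le _)
  | succ p ih =>
    by_cases h : p < j
    · exact h0 _ h
    · exact hs p (by omega) ih

theorem A_A {i : ℕ} (hji : j ≤ i) (F : Ω → ℝ) (p : ℕ) (hp : i ≤ p) :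
    A P i p (A P j i F) = A P j p F := by
  induction p, hp using Nat.le_induction with
  | base => exact A_of_le le_rfl
  | succ p hp ih => funext ω; rw [A_succ hp, A_succ (hji.trans hp), ih]

theorem X_X {i : ℕ} (hji : j ≤ i) (G : Ω → ℝ) (p : ℕ) (hp : i ≤ p) :
    X a P i (X a P j G i) p = X a P j G p := by
  induction p, hp using Nat.le_induction with
  | base => exact X_of_le le_rfl
  | succ p hp ih => funext ω; rw [X_succ hp, X_succ (hji.trans hp), ih]

theorem T_X {i : ℕ} (hji : j ≤ i) (G : Ω → ℝ) (p : ℕ) (hp : i ≤ p) :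
    T a P i (X a P j G i) p = T a P j G p := by
  funext ω; rw [T_of_le hp, T_of_le (hji.trans hp), X_X hji G p hp]

theorem B_congr {P' : Ch Ω} (p : ℕ) (h : ∀ i, j ≤ i → i < p → P i = P' i) :
    B P j p = B P' j p := by
  induction p using ht_induction (j := j) with
  | h0 p hp => rw [B_of_le hp, B_of_le hp]
  | hs p hp ih =>
    funext ω
    rw [B_succ hp, B_succ hp, h p hp (by omega), ih fun i h1 h2 => h i h1 (by omega)]

theorem A_congr {P' : Ch Ω} (p : ℕ) (h : ∀ i, j ≤ i → i < p → P i = P' i) (F : Ω → ℝ) :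
    A P j p F = A P' j p F := by
  funext ω; rw [A, A, B_congr p h]

theorem X_congr {a' : ℕ → ℝ} {P' : Ch Ω} (p : ℕ)
    (h : ∀ i, j ≤ i → i < p → a i = a' i ∧ P i = P' i) (G : Ω → ℝ) :
    X a P j G p = X a' P' j G p := by
  induction p using ht_induction (j := j) with
  | h0 p hp => rw [X_of_le hp, X_of_le hp]
  | hs p hp ih =>
    funext ω
    rw [X_succ hp, X_succ hp, (h p hp (by omega)).1, (h p hp (by omega)).2,
      ih fun i h1 h2 => h i h1 (by omega)]

theorem X_mono (ha : ∀ i, 0 < a i) {G G' : Ω → ℝ} (h : ∀ ω, G ω ≤ G' ω) (p : ℕ) :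
    ∀ ω, X a P j G p ω ≤ X a P j G' p ω := by
  induction p using ht_induction (j := j) with
  | h0 p hp => rw [X_of_le hp, X_of_le hp]; exact h
  | hs p hp ih => intro ω; rw [X_succ hp, X_succ hp]; exact lam_mono (ha p) _ ih

theorem X_add_const (ha : ∀ i, 0 < a i) (G : Ω → ℝ) (c : ℝ) (p : ℕ) :
    X a P j (fun ω => G ω + c) p = fun ω => X a P j G p ω + c := by
  induction p using ht_induction (j := j) with
  | h0 p hp => rw [X_of_le hp, X_of_le hp]
  | hs p hp ih => funext ω; rw [X_succ hp, X_succ hp, ih, lam_add_const (ha p)]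

theorem X_const (ha : ∀ i, 0 < a i) (c : ℝ) (p : ℕ) : X a P j (fun _ => c) p = fun _ => c := by
  induction p using ht_induction (j := j) with
  | h0 p hp => rw [X_of_le hp]
  | hs p hp ih => funext ω; rw [X_succ hp, ih, lam_const (ha p)]

theorem abs_X_sub_le (ha : ∀ i, 0 < a i) {G G' : Ω → ℝ} {c : ℝ} (h : ∀ ω, |G ω - G' ω| ≤ c)
    (p : ℕ) : ∀ ω, |X a P j G p ω - X a P j G' p ω| ≤ c := by
  induction p using ht_induction (j := j) with
  | h0 p hp => rw [X_of_le hp, X_of_le hp]; exact h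
  | hs p hp ih => intro ω; rw [X_succ hp, X_succ hp]; exact abs_lam_sub_le (ha p) _ ih

theorem abs_X_le (ha : ∀ i, 0 < a i) {G : Ω → ℝ} {c : ℝ} (h : ∀ ω, |G ω| ≤ c) (p : ℕ) (ω : Ω) :
    |X a P j G p ω| ≤ c := by
  have := abs_X_sub_le (P := P) (j := j) ha (G := G) (G' := fun _ => 0) (by simpa using h) p ω
  simpa [X_const ha] using this

theorem X_add (G G' : Ω → ℝ) (p : ℕ) :
    X a P j (fun ω => G ω + G' ω) p = fun ω => X a P j G p ω + X a (T a P j G) j G' p ω := by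
  induction p using ht_induction (j := j) with
  | h0 p hp => rw [X_of_le hp, X_of_le hp, X_of_le hp]
  | hs p hp ih => funext ω; rw [X_succ hp, X_succ hp, X_succ hp, ih, lam_add, T_of_le hp]

theorem T_T (G G' : Ω → ℝ) : T a (T a P j G) j G' = T a P j fun ω => G ω + G' ω := by
  funext p ω
  by_cases h : p < j
  · simp only [T_of_lt h]
  · have h : j ≤ p := by omega
    simp only [T_of_le h, tilt_tilt, X_add, mul_add]

theorem T_const (ha : ∀ i, 0 < a i) (c : ℝ) : T a P j (fun _ => c) = P := by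
  funext p ω
  by_cases h : p < j
  · simp only [T_of_lt h]
  · rw [T_of_le (by omega), X_const ha, tilt_const]

theorem X_smul {θ : ℝ} (ha : ∀ i, 0 < a i) (hθ : 0 < θ) (G : Ω → ℝ) (p : ℕ) :
    X a P j (fun ω => θ * G ω) p = fun ω => θ * X (fun i => θ * a i) P j G p ω := by
  induction p using ht_induction (j := j) with
  | h0 p hp => rw [X_of_le hp, X_of_le hp]
  | hs p hp ih => funext ω; rw [X_succ hp, X_succ hp, ih, lam_smul (ha p) hθ]

theorem X_mono_exp {a' : ℕ → ℝ} (ha : ∀ i, 0 < a i) (G : Ω → ℝ) (p : ℕ)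
    (h : ∀ i, j ≤ i → i < p → a i ≤ a' i) : ∀ ω, X a P j G p ω ≤ X a' P j G p ω := by
  induction p using ht_induction (j := j) with
  | h0 p hp => rw [X_of_le hp, X_of_le hp]; exact fun _ => le_rfl
  | hs p hp ih =>
    intro ω
    rw [X_succ hp, X_succ hp]
    exact (lam_mono (ha p) _ (ih fun i h1 h2 => h i h1 (by omega))).trans
      (lam_mono_exp (ha p) (h p hp (by omega)) _ _)

theorem X_const_exp {m : ℝ} (hm : 0 < m) (G : Ω → ℝ) (p : ℕ) :
    X (fun _ => m) P j G p = fun ω => lam m (B P j p ω) G := by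
  induction p using ht_induction (j := j) with
  | h0 p hp => funext ω; rw [X_of_le hp, B_of_le hp, lam_pure hm]
  | hs p hp ih => funext ω; rw [X_succ hp, B_succ hp, ih, lam_bind hm]

theorem X_le_lam {m : ℝ} (ha : ∀ i, 0 < a i) (hm : 0 < m) (G : Ω → ℝ) (p : ℕ)
    (h : ∀ i, j ≤ i → i < p → a i ≤ m) (ω : Ω) : X a P j G p ω ≤ lam m (B P j p ω) G := by
  have := X_mono_exp (P := P) (j := j) (a' := fun _ => m) ha G p h ω
  rwa [X_const_exp hm] at this

theorem lam_le_X {m : ℝ} (hm : 0 < m) (G : Ω → ℝ) (p : ℕ)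
    (h : ∀ i, j ≤ i → i < p → m ≤ a i) (ω : Ω) : lam m (B P j p ω) G ≤ X a P j G p ω := by
  have := X_mono_exp (P := P) (j := j) (a := fun _ => m) (a' := a) (fun _ => hm) G p h ω
  rwa [X_const_exp hm] at this

theorem A_le_X (ha : ∀ i, 0 < a i) (G : Ω → ℝ) (p : ℕ) : ∀ ω, A P j p G ω ≤ X a P j G p ω := by
  induction p using ht_induction (j := j) with
  | h0 p hp => rw [X_of_le hp, A_of_le hp]; exact fun _ => le_rfl
  | hs p hp ih =>
    intro ω
    rw [X_succ hp, A_succ hp]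
    exact (E_mono _ ih).trans (E_le_lam (ha p) _ _)

theorem abs_X_sub_A_le {m c : ℝ} (ha : ∀ i, 0 < a i) (hm : 0 < m) {G : Ω → ℝ}
    (hG : ∀ ω, |G ω| ≤ c) (hc : m * c ≤ 1) (p : ℕ) (h : ∀ i, j ≤ i → i < p → a i ≤ m) (ω : Ω) :
    |X a P j G p ω - A P j p G ω| ≤ m * c ^ 2 := by
  have h1 := A_le_X (P := P) (j := j) ha G p ω
  have h2 := (X_le_lam (P := P) (j := j) ha hm G p h ω).trans (lam_le_E_add hm _ hG hc)
  rw [abs_of_nonneg (by linarith)]
  rw [A]; linarith

theorem abs_A_le {F : Ω → ℝ} {c : ℝ} (h : ∀ ω, |F ω| ≤ c) (ω : Ω) : |A P j p F ω| ≤ c :=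
  abs_E_le_const _ h

theorem A_const (c : ℝ) : A P j p (fun _ => c) = fun _ => c := by funext ω; simp [A]

/-- The tilted chain has bounded density. -/
theorem A_T_le (ha : ∀ i, 0 < a i) (ha' : Antitone a) (ha1 : a 0 ≤ 1) {G : Ω → ℝ} {b : ℝ}
    (hG : ∀ ω, |G ω| ≤ b) {i : ℕ} (hji : j ≤ i) {F : Ω → ℝ} (hF : ∀ ω, 0 ≤ F ω) (p : ℕ) (ω : Ω) :
    A (T a P j G) i p F ω ≤ Real.exp (2 * b) * A P i p F ω := by
  have hb : 0 ≤ b := (abs_nonneg _).trans (hG ω)
  have key : ∀ p, i ≤ p → ∀ ω, A (T a P j G) i p F ω ≤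
      Real.exp (b * (2 * a i - a p) - a p * X a P j G p ω) * A P i p F ω := by
    intro p hp
    induction p, hp using Nat.le_induction with
    | base =>
      intro ω
      rw [A_of_le le_rfl, A_of_le le_rfl]
      refine le_mul_of_one_le_left (hF ω) (Real.one_le_exp ?_)
      have := (abs_le.mp (abs_X_le (P := P) (j := j) ha hG i ω)).2
      nlinarith [ha i]
    | succ p hp ih =>
      intro ω
      have hjp := hji.trans hp
      rw [A_succ hp, A_succ hp, T_of_le hjp, E_tilt_lam (ha p), ← X_succ hjp, ← E_const_mul]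
      refine E_mono _ fun x => ?_
      have hA : 0 ≤ A P i p F x := E_nonneg _ hF
      refine (mul_le_mul_of_nonneg_left (ih x) (Real.exp_pos _).le).trans ?_
      rw [← mul_assoc, ← Real.exp_add]
      gcongr
      have h1 := (abs_le.mp (abs_X_le (P := P) (j := j) ha hG (p + 1) ω)).1
      have h2 : a (p + 1) ≤ a p := ha' (Nat.le_succ p)
      nlinarith
  by_cases hp : i ≤ p
  · refine (key p hp ω).trans (mul_le_mul_of_nonneg_right ?_ (E_nonneg _ hF))
    have h1 := (abs_le.mp (abs_X_le (P := P) (j := j) ha hG p ω)).1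
    have h2 : a i ≤ 1 := (ha' (Nat.zero_le i)).trans ha1
    have := ha p
    apply Real.exp_le_exp.mpr
    nlinarith
  · rw [A_of_le (by omega), A_of_le (by omega)]
    exact le_mul_of_one_le_left (hF ω) (Real.one_le_exp (by linarith))

theorem abs_A_T_sub_le (ha : ∀ i, 0 < a i) (ha' : Antitone a) (ha1 : a 0 ≤ 1) {G : Ω → ℝ} {b : ℝ}
    (hG : ∀ ω, |G ω| ≤ b) (hb : b ≤ 1 / 2) {i : ℕ} (hji : j ≤ i) {F : Ω → ℝ} {c : ℝ}
    (hF : ∀ ω, |F ω| ≤ c) (p : ℕ) (ω : Ω) :
    |A (T a P j G) i p F ω - A P i p F ω| ≤ 8 * b * c := by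
  have hb0 : 0 ≤ b := (abs_nonneg _).trans (hG ω)
  have hc0 : 0 ≤ c := (abs_nonneg _).trans (hF ω)
  have he : Real.exp (2 * b) ≤ 1 + 4 * b := by
    have := Real.abs_exp_sub_one_le (x := 2 * b) (by rw [abs_of_nonneg (by linarith)]; linarith)
    rw [abs_of_nonneg (by linarith : 0 ≤ 2 * b)] at this
    linarith [(abs_le.mp this).2]
  have key : ∀ F : Ω → ℝ, (∀ ω, |F ω| ≤ c) →
      A (T a P j G) i p F ω - A P i p F ω ≤ 8 * b * c := fun F hF => by
    have h1 := A_T_le (P := P) ha ha' ha1 hG hji (F := fun x => F x + c)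
      (fun x => by linarith [(abs_le.mp (hF x)).1]) p ω
    simp only [A, E_add_const] at h1 ⊢
    have h2 := abs_le.mp (abs_E_le_const (B P i p ω) hF)
    have h3 : Real.exp (2 * b) * ((B P i p ω).E F + c) ≤ (1 + 4 * b) * ((B P i p ω).E F + c) :=
      mul_le_mul_of_nonneg_right he (by linarith)
    nlinarith
  have h1 := key F hF
  have h2 := key (fun x => -F x) (by simpa using hF)
  simp only [A, E_neg] at h1 h2 ⊢
  rw [abs_le]; constructor <;> linarith

end basic

/-! ### Morphisms -/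

/-- `π` intertwines the steps `i ≥ j` of the two chains. -/
def Mor (j : ℕ) (π : Ω' → Ω) (P' : Ch Ω') (P : Ch Ω) : Prop :=
  ∀ i, j ≤ i → ∀ ω (F : Ω → ℝ), (P' i ω).E (fun x => F (π x)) = (P i (π ω)).E F

section mor
variable {a : ℕ → ℝ} {P : Ch Ω} {P' : Ch Ω'} {j : ℕ} {π : Ω' → Ω}

theorem Mor.mono {i : ℕ} (h : Mor j π P' P) (hi : j ≤ i) : Mor i π P' P :=
  fun l hl => h l (hi.trans hl)

theorem Mor.comp {Ω'' : Type} [Fintype Ω''] {P'' : Ch Ω''} {π' : Ω'' → Ω'} (h : Mor j π P' P)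
    (h' : Mor j π' P'' P') : Mor j (fun x => π (π' x)) P'' P := fun i hi ω F => by
  rw [h' i hi ω (fun x => F (π x)), h i hi]

theorem Mor.A (h : Mor j π P' P) (F : Ω → ℝ) (p : ℕ) :
    A P' j p (fun x => F (π x)) = fun x => A P j p F (π x) := by
  induction p using ht_induction (j := j) with
  | h0 p hp => rw [A_of_le hp, A_of_le hp]
  | hs p hp ih => funext ω; rw [A_succ hp, A_succ hp, ih, h p hp]

theorem Mor.X (h : Mor j π P' P) (G : Ω → ℝ) (p : ℕ) :
    X a P' j (fun x => G (π x)) p = fun x => X a P j G p (π x) := by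
  induction p using ht_induction (j := j) with
  | h0 p hp => rw [X_of_le hp, X_of_le hp]
  | hs p hp ih =>
    funext ω
    rw [X_succ hp, X_succ hp, ih, lam, lam,
      h p hp ω fun x => Real.exp (a p * Vale.Agent.P168.X a P j G p x)]

theorem Mor.T {i : ℕ} (h : Mor i π P' P) (hij : i ≤ j) (G : Ω → ℝ) :
    Mor i π (T a P' j fun x => G (π x)) (T a P j G) := fun p hp ω F => by
  by_cases hpj : p < j
  · rw [T_of_lt hpj, T_of_lt hpj, h p hp]
  · have hpj : j ≤ p := by omega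
    rw [T_of_le hpj, T_of_le hpj, E_tilt, E_tilt, (h.mono hij).X,
      h p hp ω fun x => Real.exp (a p * Vale.Agent.P168.X a P j G p x),
      h p hp ω fun x => Real.exp (a p * Vale.Agent.P168.X a P j G p x) * F x]

end mor

/-! ### Products -/

/-- Product of two chains. -/
def prodCh (P : Ch Ω) (P' : Ch Ω') : Ch (Ω × Ω') := fun p x => (P p x.1).prod (P' p x.2)

theorem mor_fst (P : Ch Ω) (P' : Ch Ω') : Mor 0 Prod.fst (prodCh P P') P := fun i _ ω F => by
  simp [prodCh, E_prod]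

theorem mor_snd (P : Ch Ω) (P' : Ch Ω') : Mor 0 Prod.snd (prodCh P P') P' := fun i _ ω F => by
  simp [prodCh, E_prod]

theorem X_prod (a : ℕ → ℝ) (P : Ch Ω) (P' : Ch Ω') (j : ℕ) (G : Ω → ℝ) (G' : Ω' → ℝ) (p : ℕ) :
    X a (prodCh P P') j (fun x => G x.1 + G' x.2) p =
      fun x => X a P j G p x.1 + X a P' j G' p x.2 := by
  induction p using ht_induction (j := j) with
  | h0 p hp => rw [X_of_le hp, X_of_le hp, X_of_le hp]
  | hs p hp ih => funext ω; rw [X_succ hp, X_succ hp, X_succ hp, ih, prodCh, lam_prod]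

theorem T_prod_fst (a : ℕ → ℝ) (P : Ch Ω) (P' : Ch Ω') (j : ℕ) (G : Ω → ℝ) :
    T a (prodCh P P') j (fun x => G x.1) = prodCh (T a P j G) P' := by
  funext p ω
  by_cases h : p < j
  · simp only [T_of_lt h, prodCh]
  · have h : j ≤ p := by omega
    refine ext_E fun F => ?_
    have := ((mor_fst P P').mono (Nat.zero_le j)).X (a := a) G p
    simp only [T_of_le h, prodCh, E_tilt, E_prod, this, E_const_mul, E_const]

section pi
variable {ι : Type} [Fintype ι] [DecidableEq ι] {δ : ι → Type} [∀ i, Fintype (δ i)]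

/-- Product of a family of chains. -/
def piCh (P : ∀ i, Ch (δ i)) : Ch (∀ i, δ i) := fun p x => PW.pi fun i => P i p (x i)

theorem X_pi (a : ℕ → ℝ) (P : ∀ i, Ch (δ i)) (j : ℕ) (G : ∀ i, δ i → ℝ) (p : ℕ) :
    X a (piCh P) j (fun x => ∑ i, G i (x i)) p = fun x => ∑ i, X a (P i) j (G i) p (x i) := by
  induction p using ht_induction (j := j) with
  | h0 p hp => simp only [X_of_le hp]
  | hs p hp ih => funext ω; simp only [X_succ hp]; rw [ih, piCh, lam_pi]

theorem B_pi (P : ∀ i, Ch (δ i)) (j p : ℕ) :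
    B (piCh P) j p = fun x => PW.pi fun i => B (P i) j p (x i) := by
  induction p using ht_induction (j := j) with
  | h0 p hp => funext x; simp only [B_of_le hp, pi_pure]
  | hs p hp ih => funext ω; simp only [B_succ hp]; rw [ih, piCh, pi_bind]

theorem mor_eval (P : ∀ i, Ch (δ i)) (i : ι) : Mor 0 (fun x => x i) (piCh P) (P i) :=
  fun _ _ _ F => E_pi_eval _ i F

theorem mor_reindex {ι' : Type} [Fintype ι'] [DecidableEq ι'] (e : ι ≃ ι') (P : Ch Ω) :
    Mor 0 (fun (x : ι' → Ω) i => x (e i)) (piCh fun _ : ι' => P) (piCh fun _ : ι => P) := by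
  intro p _ ω F
  simp only [E, piCh, PW.pi]
  refine Fintype.sum_equiv (Equiv.arrowCongr e.symm (Equiv.refl Ω)) _ _ fun x => ?_
  simp only [Equiv.arrowCongr_apply, Equiv.coe_refl, Equiv.symm_symm, Function.comp_def, id]
  rw [e.prod_comp (fun i => (P p (ω i)).w (x i))]
  rfl

end pi

/-! ### Tree shapes -/

/-- Replica trees of a given height with labelled leaves. -/
inductive Sh (Λ : Type) : ℕ → Type
  | leaf : Λ → Sh Λ 0
  | up : {b : ℕ} → Sh Λ b → Sh Λ (b + 1)
  | node : {b : ℕ} → Sh Λ (b + 1) → Sh Λ (b + 1) → Sh Λ (b + 1)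

variable {Λ Λ' : Type}

/-- Number of leaves. -/
def Sh.nl : {b : ℕ} → Sh Λ b → ℕ
  | _, .leaf _ => 1
  | _, .up e => e.nl
  | _, .node e1 e2 => e1.nl + e2.nl

/-- Relabelling. -/
def Sh.map (f : Λ → Λ') : {b : ℕ} → Sh Λ b → Sh Λ' b
  | _, .leaf x => .leaf (f x)
  | _, .up e => .up (e.map f)
  | _, .node e1 e2 => .node (e1.map f) (e2.map f)

/-- Value of a tree: products at branchings, averages along edges. -/
noncomputable def ev (P : Ch Ω) (o : Λ → Ω → ℝ) : {b : ℕ} → Sh Λ b → Ω → ℝ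
  | _, .leaf x => o x
  | _, .up (b := b) e => fun ω => (P b ω).E (ev P o e)
  | _, .node e1 e2 => fun ω => ev P o e1 ω * ev P o e2 ω

theorem Sh.nl_pos {b : ℕ} (e : Sh Λ b) : 0 < e.nl := by
  induction e with
  | leaf x => simp [Sh.nl]
  | up e ih => simpa [Sh.nl] using ih
  | node e1 e2 ih1 ih2 => simp only [Sh.nl]; omega

theorem ev_map (P : Ch Ω) (o : Λ' → Ω → ℝ) (f : Λ → Λ') {b : ℕ} (e : Sh Λ b) :
    ev P o (e.map f) = ev P (fun x => o (f x)) e := by
  induction e with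
  | leaf x => rfl
  | up e ih => simp only [Sh.map, ev, ih]
  | node e1 e2 ih1 ih2 => simp only [Sh.map, ev, ih1, ih2]

theorem ev_congr {P P' : Ch Ω} (o : Λ → Ω → ℝ) {b : ℕ} (e : Sh Λ b) (h : ∀ i < b, P i = P' i) :
    ev P o e = ev P' o e := by
  induction e with
  | leaf x => rfl
  | up e ih => simp only [ev, ih fun i hi => h i (by omega), h _ (Nat.lt_succ_self _)]
  | node e1 e2 ih1 ih2 => simp only [ev, ih1 h, ih2 h]

theorem ev_mem {P : Ch Ω} {o : Λ → Ω → ℝ} (ho : ∀ x ω, 0 ≤ o x ω ∧ o x ω ≤ 1) {b : ℕ}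
    (e : Sh Λ b) : ∀ ω, 0 ≤ ev P o e ω ∧ ev P o e ω ≤ 1 := by
  induction e with
  | leaf x => exact ho x
  | up e ih => exact fun ω => ⟨E_nonneg _ fun x => (ih x).1, E_le_const _ fun x => (ih x).2⟩
  | node e1 e2 ih1 ih2 =>
    exact fun ω => ⟨mul_nonneg (ih1 ω).1 (ih2 ω).1, mul_le_one₀ (ih1 ω).2 (ih2 ω).1 (ih2 ω).2⟩

theorem abs_ev_le {P : Ch Ω} {o : Λ → Ω → ℝ} {c : ℝ} (ho : ∀ x ω, |o x ω| ≤ c) {b : ℕ}
    (e : Sh Λ b) : ∀ ω, |ev P o e ω| ≤ c ^ e.nl := by
  induction e with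
  | leaf x => simpa [ev, Sh.nl] using ho x
  | up e ih => exact fun ω => abs_E_le_const _ ih
  | node e1 e2 ih1 ih2 =>
    intro ω
    simp only [ev, Sh.nl, abs_mul, pow_add]
    exact mul_le_mul (ih1 ω) (ih2 ω) (abs_nonneg _) ((abs_nonneg _).trans (ih1 ω))

theorem Mor.ev {P : Ch Ω} {P' : Ch Ω'} {π : Ω' → Ω} (h : Mor 0 π P' P) (o : Λ → Ω → ℝ) {b : ℕ}
    (e : Sh Λ b) : ev P' (fun x ω => o x (π ω)) e = fun ω => ev P o e (π ω) := by
  induction e with
  | leaf x => rfl
  | up e ih => funext ω; simp only [Vale.Agent.P168.ev, ih]; exact h _ (Nat.zero_le _) _ _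
  | node e1 e2 ih1 ih2 => simp only [Vale.Agent.P168.ev, ih1, ih2]

theorem ev_prod (P : Ch Ω) (P' : Ch Ω') (o : Λ → Ω → ℝ) (o' : Λ → Ω' → ℝ) {b : ℕ} (e : Sh Λ b) :
    ev (prodCh P P') (fun l x => o l x.1 * o' l x.2) e = fun x => ev P o e x.1 * ev P' o' e x.2 := by
  induction e with
  | leaf x => rfl
  | up e ih => funext ω; simp only [ev, ih, prodCh]; exact E_prod_mul _ _ _ _
  | node e1 e2 ih1 ih2 => funext ω; simp only [ev, ih1, ih2]; ring

theorem ev_pi {ι : Type} [Fintype ι] [DecidableEq ι] {δ : ι → Type} [∀ i, Fintype (δ i)]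
    (P : ∀ i, Ch (δ i)) (o : ∀ i, Λ → δ i → ℝ) {b : ℕ} (e : Sh Λ b) :
    ev (piCh P) (fun l x => ∏ i, o i l (x i)) e = fun x => ∏ i, ev (P i) (o i) e (x i) := by
  induction e with
  | leaf x => rfl
  | up e ih => funext ω; simp only [ev, ih, piCh]; exact E_pi_prod _ _
  | node e1 e2 ih1 ih2 => funext ω; simp only [ev, ih1, ih2, prod_mul_distrib]

theorem ev_const_mul (P : Ch Ω) (o : Λ → Ω → ℝ) (c : ℝ) {b : ℕ} (e : Sh Λ b) :
    ev P (fun l x => c * o l x) e = fun x => c ^ e.nl * ev P o e x := by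
  induction e with
  | leaf x => simp [ev, Sh.nl]
  | up e ih => funext ω; simp only [ev, ih, Sh.nl, E_const_mul]
  | node e1 e2 ih1 ih2 => funext ω; simp only [ev, ih1, ih2, Sh.nl]; ring

/-- The coarse chain whose step `b` runs from height `J (b+1)` down to height `J b`. -/
noncomputable def co (P : Ch Ω) (J : ℕ → ℕ) : Ch Ω := fun b ω => B P (J b) (J (b + 1)) ω

end Vale.Agent.P168
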