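import Vale.Agent.P168.GGfam

/-!
# P168: the concrete perturbed system
-/

namespace Vale.Agent.P168

open Finset PW Des Filter
open scoped BigOperators Topology

theorem fg_comp {Ω Ω' : Type} {s : Sgn Ω} {s' : Sgn Ω'} {o : Bool → Ω → ℝ} {o' : Bool → Ω' → ℝ}
    {ω : Ω} {ω' : Ω'} (hτ : ∀ l, s'.τ l ω' = s.τ l ω) (ho : ∀ β, o' β ω' = o β ω) (D : Des) :
    D.f s' o' ω' = D.f s o ω ∧ D.g s' o' ω' = D.g s o ω := by
  induction D with
  | leaf β m => simp [f, g, ho]
  | node D1 D2 lo hi ih1 ih2 => simp [f, g, nodeF, nodeG, em, ih1.1, ih1.2, ih2.1, ih2.2, hτ]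

/-- Families, copies and terms. -/
abbrev Fam (n : ℕ) := {D // D ∈ Des.all n n}
def cp (n : ℕ) : ℕ := (n + 1) ^ 3
theorem cp_pos (n : ℕ) : 0 < cp n := by unfold cp; positivity
instance (n : ℕ) : Nonempty (Fin (cp n)) := ⟨⟨0, cp_pos n⟩⟩
instance (n : ℕ) : Nonempty (Fin (2 * cp n)) := ⟨⟨0, by have := cp_pos n; omega⟩⟩
abbrev Tm (n : ℕ) := Fam n × Fin (cp n)
abbrev Oc (n N : ℕ) := (Fin N → Bool) × (Fin n → Tm n → Bool)

variable {n N : ℕ}

def mix (l : ℕ) (ω ω' : Oc n N) : Oc n N := (ω'.1, fun i => if (i : ℕ) ≤ l then ω'.2 i else ω.2 i)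

/-- The reference chain: step `l` resamples the spins and the signs of level at most `l`. -/
noncomputable def P0 (n N : ℕ) : Ch (Oc n N) := fun l ω => (unif (Oc n N)).map (mix l ω)

def sgn (N : ℕ) (t : Tm n) : Sgn (Oc n N) where
  τ := fun l ω => if h : l < n then ω.2 ⟨l, h⟩ t else true
  π := fun l ω => (ω.1, fun i u => if (i : ℕ) = l ∧ u = t then !ω.2 i u else ω.2 i u)

def spin (i : Fin N) (ω : Oc n N) : Bool := ω.1 i

theorem pi_invol (t : Tm n) (l : ℕ) : Function.Involutive ((sgn N t).π l) := fun ω => by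
  refine Prod.ext rfl (funext fun i => funext fun u => ?_)
  simp only [sgn]
  split_ifs <;> simp

theorem E_flip (t : Tm n) (l : ℕ) (F : Oc n N → ℝ) :
    (unif (Oc n N)).E (fun x => F ((sgn N t).π l x)) = (unif (Oc n N)).E F :=
  E_unif_equiv (pi_invol t l).toPerm F

theorem sym_P0 (t : Tm n) : Sym n (sgn N t) (P0 n N) where
  self := fun l hl ω => by simp [sgn, hl]
  ne := fun l l' h ω => by
    simp only [sgn]
    split_ifs with h1 h2
    · exact absurd h2.1.symm h
    · rfl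
    · rfl
  mor := fun l _ i _ ω F => by
    simp only [P0, E_map]
    rw [← E_flip t l fun x => F (mix i ((sgn N t).π l ω) x)]
    refine E_congr _ fun x => congrArg F (Prod.ext rfl (funext fun j => funext fun u => ?_))
    simp only [sgn, mix]
    split_ifs <;> simp [*]
  res := fun l i hli _ ω F => by
    simp only [P0, E_map]
    rw [← E_flip t l fun x => F (mix i ω x)]
    refine E_congr _ fun x => congrArg F (Prod.ext rfl (funext fun j => funext fun u => ?_))
    simp only [sgn, mix]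
    split_ifs with h1 h2 h3
    · simp [h1]
    · omega
    · simp [h1]
    · rfl
  frz := fun l hl i hi ω F F' hF => by
    simp only [P0, E_map]
    refine E_congr _ fun x => hF _ ?_
    simp [sgn, mix, hl, show ¬ l ≤ i by omega]

/-- One perturbation term. -/
noncomputable def term (t : Tm n) (i : Fin N) (u : ℝ) (ω : Oc n N) : ℝ :=
  t.1.1.f (sgn N t) (ob spin i) ω + u * t.1.1.g (sgn N t) (ob spin i) ω

noncomputable def pert (st : Tm n → Fin N) (w : Fam n → ℝ) (ω : Oc n N) : ℝ :=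
  ∑ t, term t (st t) (w t.1) ω

noncomputable def grid (zz : Fam n → Fin (2 * cp n)) (F : Fam n) : ℝ := (zz F : ℝ) / (2 * cp n)

theorem abs_grid_le (zz : Fam n → Fin (2 * cp n)) (F : Fam n) : |grid zz F| ≤ 1 := by
  have h : (0 : ℝ) < 2 * cp n := by have := cp_pos n; positivity
  rw [grid, abs_of_nonneg (by positivity), div_le_one h]
  exact_mod_cast (zz F).2.le

def om0 (n N : ℕ) : Oc n N := (fun _ => true, fun _ _ => true)

abbrev Zc (n N : ℕ) := (Tm n → Fin (N + 1)) × (Fam n → Fin (2 * cp n))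

noncomputable def Pz (H : (Fin (N + 1) → Bool) → ℝ) (z : Zc n N) : Ch (Oc n (N + 1)) :=
  T (al n) (P0 n (N + 1)) 0 fun ω => H ω.1 + pert z.1 (grid z.2) ω

noncomputable def Pc (H : (Fin (N + 1) → Bool) → ℝ) (t0 : Tm n) (z : Zc n N) :
    Ch (Oc n (N + 1)) := T (al n) (P0 n (N + 1)) 0 fun ω =>
      H ω.1 + ∑ t ∈ univ.erase t0, term t (z.1 t) (grid z.2 t.1) ω

/-- The perturbed random system. -/
noncomputable def sys (n : ℕ) (s : Σ N : ℕ, ((Fin (N + 1) → Bool) → ℝ)) : RS where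
  Z := Zc n s.1
  ρ := unif _
  Ω := Oc n (s.1 + 1)
  P := Pz s.2
  ω0 := om0 n (s.1 + 1)
  I := Fin (s.1 + 1)
  sg := spin

theorem pert_update (st : Tm n → Fin N) (w : Fam n → ℝ) (F : Fam n) (x : ℝ) (ω : Oc n N) :
    pert st (Function.update w F (w F + x)) ω = pert st w ω +
      x * cp n * 𝔼 c, F.1.g (sgn N (F, c)) (ob spin (st (F, c))) ω := by
  have hc : (cp n : ℝ) ≠ 0 := by have := cp_pos n; positivity
  rw [expect_eq_sum_div_card, card_univ, Fintype.card_fin, mul_assoc, mul_div_cancel₀ _ hc]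
  simp only [pert, Fintype.sum_prod_type]
  rw [← add_sum_erase _ _ (mem_univ F), ← add_sum_erase _ (fun F' => ∑ c, term (F', c) _ (w F') ω)
    (mem_univ F), sum_congr rfl (g := fun F' => ∑ c, term (F', c) (st (F', c)) (w F') ω)]
  · simp only [Function.update_self, term, add_mul, sum_add_distrib, mul_sum]; ring
  · intro F' hF'
    rw [Function.update_of_ne (ne_of_mem_erase hF')]

theorem second_diff_avg {M : ℕ} (hM : 0 < M) (φ : ℝ → ℝ) {c : ℝ}
    (h : ∀ u, |φ (u + 1) - φ u| ≤ c) :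
    𝔼 u : Fin M, (φ (u + 1) + φ (u - 1) - 2 * φ u) ≤ 2 * c / M := by
  rw [expect_eq_sum_div_card, card_univ, Fintype.card_fin]
  gcongr
  have := sum_range_sub (fun k : ℕ => φ k - φ (k - 1)) M
  rw [Fin.sum_univ_eq_sum_range (fun k : ℕ => φ (k + 1) + φ (k - 1) - 2 * φ k),
    sum_congr rfl (g := fun k : ℕ => (φ (k + 1 : ℕ) - φ ((k + 1 : ℕ) - 1)) - (φ k - φ (k - 1))), this]
  · have h1 := abs_le.mp (h (M - 1))
    have h2 := abs_le.mp (h ((0 : ℕ) - 1))
    simp only [sub_add_cancel] at h1 h2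
    linarith
  · intro k _; push_cast; simp only [add_sub_cancel_right]; ring

theorem var_bound (H : (Fin (N + 1) → Bool) → ℝ) (F : Fam n) :
    (unif (Zc n N)).E (fun z => A (Pz H z) 0 n (fun ω =>
      |(𝔼 c, F.1.g (sgn (N + 1) (F, c)) (ob spin (z.1 (F, c))) ω) - A (Pz H z) 0 n
        (fun x => 𝔼 c, F.1.g (sgn (N + 1) (F, c)) (ob spin (z.1 (F, c))) x) (om0 n (N + 1))|)
      (om0 n (N + 1))) ≤ 3 / ((n : ℝ) + 1) := by
  have ha := al_pos n
  have hc : (0 : ℝ) < cp n := by exact_mod_cast cp_pos n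
  set gb : (Tm n → Fin (N + 1)) → Oc n (N + 1) → ℝ := fun st ω =>
    𝔼 c, F.1.g (sgn (N + 1) (F, c)) (ob spin (st (F, c))) ω with hgb
  have bg : ∀ st ω, |gb st ω| ≤ 1 := fun st ω => by
    simp only [hgb, ← E_unif]
    exact abs_E_le_const _ fun c => (abs_g_le (ob_mem _ _) _ _).trans (d_le_one _)
  set φ : (Tm n → Fin (N + 1)) → (Fam n → Fin (2 * cp n)) → ℝ → ℝ := fun st zz u =>
    X (al n) (P0 n (N + 1)) 0 (fun ω => H ω.1 +
      pert st (Function.update (grid zz) F (u / (2 * cp n))) ω) n (om0 n (N + 1)) with hφ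
  have shift : ∀ st zz (u x : ℝ) ω, pert st (Function.update (grid zz) F ((u + x) / (2 * cp n))) ω =
      pert st (Function.update (grid zz) F (u / (2 * cp n))) ω + x / 2 * gb st ω :=
    fun st zz u x ω => by
      have := pert_update st (Function.update (grid zz) F (u / (2 * cp n))) F (x / (2 * cp n)) ω
      rw [Function.update_idem, Function.update_self, ← add_div] at this
      rw [this]
      congr 2
      field_simp
  have k1 : ∀ z : Zc n N, A (Pz H z) 0 n (fun ω =>
      (gb z.1 ω - A (Pz H z) 0 n (gb z.1) (om0 n (N + 1))) ^ 2) (om0 n (N + 1)) ≤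
      16 * (n + 1) * (φ z.1 z.2 (z.2 F + 1) + φ z.1 z.2 (z.2 F - 1) - 2 * φ z.1 z.2 (z.2 F)) := by
    intro z
    have e0 : Function.update (grid z.2) F ((z.2 F : ℝ) / (2 * cp n)) = grid z.2 :=
      Function.update_eq_self F (grid z.2)
    have hm : (0 : ℝ) < 1 / ((n : ℝ) + 1) := by positivity
    have l1 := lam_le_X (P := Pz H z) (j := 0) hm (fun ω => 1 / 2 * gb z.1 ω) n
      (fun i _ _ => al_ge n i) (om0 n (N + 1))
    have l2 := lam_le_X (P := Pz H z) (j := 0) hm (fun ω => -(1 / 2 * gb z.1 ω)) n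
      (fun i _ _ => al_ge n i) (om0 n (N + 1))
    have l3 := lam_add_lam_neg hm (B (Pz H z) 0 n (om0 n (N + 1)))
      (Y := fun ω => 1 / 2 * gb z.1 ω) fun ω => by
        have h1 : 1 / ((n : ℝ) + 1) ≤ 1 := by rw [div_le_one (by positivity)]; simp
        have h2 := abs_mul_le' (abs_of_pos (by norm_num : (0 : ℝ) < 1 / 2)).le (bg z.1 ω)
        nlinarith [abs_nonneg (1 / 2 * gb z.1 ω)]
    have e1 : ∀ x : ℝ, φ z.1 z.2 (z.2 F + x) = φ z.1 z.2 (z.2 F) +
        X (al n) (Pz H z) 0 (fun ω => x / 2 * gb z.1 ω) n (om0 n (N + 1)) := fun x => by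
      simp only [hφ]
      simp only [shift, e0, ← add_assoc]
      rw [X_add]
      rfl
    rw [sub_eq_add_neg (z.2 F : ℝ), e1, e1]
    simp only [neg_div, neg_mul]
    rw [E_const_mul] at l3
    simp only [← mul_sub, mul_pow, E_const_mul] at l3
    rw [div_div, div_mul_eq_mul_div, div_le_iff₀ (by positivity)] at l3
    simp only [A]
    nlinarith [(by positivity : (0 : ℝ) < (n : ℝ) + 1)]
  have k2 : (unif (Zc n N)).E (fun z => φ z.1 z.2 (z.2 F + 1) + φ z.1 z.2 (z.2 F - 1) -
      2 * φ z.1 z.2 (z.2 F)) ≤ 1 / (2 * cp n) := by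
    rw [← prod_unif, E_prod]
    refine E_le_const _ fun st => ?_
    rw [← pi_unif, ← E_pi_update _ F]
    refine E_le_const _ fun zz => ?_
    have e : ∀ u, φ st (Function.update zz F u) = φ st zz := fun u => by
      funext x
      have : Function.update (grid (Function.update zz F u)) F (x / (2 * cp n)) =
          Function.update (grid zz) F (x / (2 * cp n)) := by
        funext F'
        by_cases h : F' = F
        · subst h; simp
        · simp [grid, Function.update_of_ne h]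
      simp only [hφ, this]
    simp only [e, Function.update_self, E_unif]
    refine (second_diff_avg (by have := cp_pos n; omega) (φ st zz) (c := 1 / 2) fun u => ?_).trans
      (le_of_eq (by push_cast; ring))
    simp only [hφ, shift]
    refine abs_X_sub_le ha (fun ω => ?_) _ _
    simpa using abs_mul_le' (abs_of_pos (by norm_num : (0 : ℝ) < 1 / 2)).le (bg st ω)
  refine (E_mono _ fun z => E_abs_le_sqrt _ _).trans
    ((E_sqrt_le _ fun z => E_nonneg _ fun _ => sq_nonneg _).trans ?_)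
  rw [← Real.sqrt_sq (by positivity : 0 ≤ 3 / ((n : ℝ) + 1))]
  refine Real.sqrt_le_sqrt ((E_mono _ k1).trans ?_)
  rw [E_const_mul]
  refine (mul_le_mul_of_nonneg_left k2 (by positivity)).trans ?_
  simp only [cp]; push_cast
  rw [div_pow, mul_one_div, div_le_div_iff₀ (by positivity) (by positivity)]
  nlinarith [(by positivity : (0 : ℝ) < ((n : ℝ) + 1) ^ 3)]

theorem Pz_eq (H : (Fin (N + 1) → Bool) → ℝ) (t : Tm n) (z : Zc n N) :
    Pz H z = T (al n) (Pc H t z) 0 (term t (z.1 t) (grid z.2 t.1)) := by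
  rw [Pc, T_T, Pz]
  congr 1
  funext ω
  rw [pert, ← sum_erase_add _ _ (mem_univ t), ← add_assoc]

theorem sym_Pc (H : (Fin (N + 1) → Bool) → ℝ) (t0 : Tm n) (z : Zc n N) :
    Sym n (sgn (N + 1) t0) (Pc H t0 z) := (sym_P0 t0).T fun l _ ω => by
  congr 1
  refine sum_congr rfl fun t ht => ?_
  have := fg_comp (s := sgn (N + 1) t) (s' := sgn (N + 1) t) (o := ob spin (z.1 t))
    (o' := ob spin (z.1 t)) (ω := ω) (ω' := (sgn (N + 1) t0).π l ω)
    (fun l' => by simp [sgn, ne_of_mem_erase ht]) (fun β => rfl) t.1.1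
  rw [term, term, this.1, this.2]

theorem resample_Pc (H : (Fin (N + 1) → Bool) → ℝ) (t0 : Tm n)
    (Φ : Ch (Oc n (N + 1)) → Fin (N + 1) → ℝ) :
    (unif (Zc n N)).E (fun z => Φ (Pc H t0 z) (z.1 t0)) =
      (unif (Zc n N)).E fun z => 𝔼 i, Φ (Pc H t0 z) i := by
  rw [← prod_unif, E_prod, E_prod, E_comm, E_comm (unif (Tm n → Fin (N + 1)))]
  refine E_congr _ fun zz => ?_
  rw [← pi_unif, ← E_pi_update _ t0]
  refine E_congr _ fun st => ?_
  rw [E_unif]
  refine expect_congr rfl fun i _ => ?_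
  simp only [Function.update_self, Pc]
  congr 2
  funext ω
  congr 1
  exact sum_congr rfl fun t ht => by rw [Function.update_of_ne (ne_of_mem_erase ht)]

/-- The concrete system contains concentrated copies of every bounded design. -/
noncomputable def pertOf (H : (Fin (N + 1) → Bool) → ℝ) (F : Fam n) :
    Pert (sys n ⟨N, H⟩) n F.1 (3 / ((n : ℝ) + 1)) where
  C := Fin (cp n)
  s := fun c => sgn (N + 1) (F, c)
  site := fun z c => z.1 (F, c)
  Pm := fun z c => Pc H (F, c) z
  mu := fun z => grid z.2 F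
  mu_le := fun z => abs_grid_le z.2 F
  P_eq := fun z c => Pz_eq H (F, c) z
  sym := fun z c => sym_Pc H (F, c) z
  sg_inv := fun _ _ _ _ => rfl
  resample := fun c Φ => resample_Pc H (F, c) Φ
  var := var_bound H F

theorem ggfam_sys : GGfam sys :=
  ggfam_of_pert sys (fun n => 3 / ((n : ℝ) + 1))
    (tendsto_const_nhds.div_atTop (tendsto_natCast_atTop_atTop.atTop_add tendsto_const_nhds))
    fun _ _ s D hD => ⟨pertOf s.2 ⟨D, hD⟩⟩

end Vale.Agent.P168
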