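import Vale.Agent.P168.Limit
import Vale.Agent.P168.Conc

/-!
# P168: the perturbed free energy functional
-/

namespace Vale.Agent.P168

open Finset PW Des Filter
open scoped BigOperators Topology

theorem pi_close {α : Type} [Fintype α] {μ ν : PW α} {b : ℝ}
    (h : ∀ (F : α → ℝ) (c : ℝ), (∀ x, |F x| ≤ c) → |μ.E F - ν.E F| ≤ b * c) (k : ℕ) :
    ∀ (F : (Fin k → α) → ℝ) (c : ℝ), (∀ x, |F x| ≤ c) →
      |(PW.pi fun _ : Fin k => μ).E F - (PW.pi fun _ : Fin k => ν).E F| ≤ k * (b * c) := by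
  induction k with
  | zero => intro F c _; simp [E, PW.pi]
  | succ k ih =>
    intro F c hF
    rw [E_pi_cons, E_pi_cons]
    have h1 := h (fun a => (PW.pi fun _ : Fin k => μ).E fun x => F (Fin.cons a x)) c
      fun a => abs_E_le_const _ fun x => hF _
    have h2 := abs_E_sub_le_const ν fun a => ih (fun x => F (Fin.cons a x)) c fun x => hF _
    push_cast
    rw [abs_le] at h1 h2 ⊢
    constructor <;> linarith

theorem pi_close' {α ι : Type} [Fintype α] [Fintype ι] [DecidableEq ι] {μ ν : PW α} {b : ℝ}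
    (h : ∀ (F : α → ℝ) (c : ℝ), (∀ x, |F x| ≤ c) → |μ.E F - ν.E F| ≤ b * c)
    (F : (ι → α) → ℝ) (c : ℝ) (hF : ∀ x, |F x| ≤ c) :
    |(PW.pi fun _ : ι => μ).E F - (PW.pi fun _ : ι => ν).E F| ≤ Fintype.card ι * (b * c) := by
  rw [← E_pi_equiv (Fintype.equivFin ι) μ, ← E_pi_equiv (Fintype.equivFin ι) ν]
  exact pi_close h _ _ c fun x => hF _

theorem unif_succ_close (N : ℕ) (F : Fin (N + 2) → ℝ) (c : ℝ) (hF : ∀ x, |F x| ≤ c) :
    |(unif (Fin (N + 2))).E F - ((unif (Fin (N + 1))).map Fin.succ).E F| ≤ 2 / ((N : ℝ) + 2) * c := by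
  have h1 := abs_le.mp (abs_E_le_const ((unif (Fin (N + 1))).map Fin.succ) hF)
  have h2 := abs_le.mp (hF 0)
  have e : (unif (Fin (N + 2))).E F =
      (F 0 + (N + 1) * ((unif (Fin (N + 1))).map Fin.succ).E F) / (N + 2) := by
    rw [E_map, E_unif, E_unif, expect_eq_sum_div_card, expect_eq_sum_div_card, Fin.sum_univ_succ]
    simp only [card_univ, Fintype.card_fin]
    push_cast
    field_simp
  rw [e, div_sub' (by positivity), abs_div, abs_of_pos (by positivity : (0 : ℝ) < N + 2),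
    div_mul_eq_mul_div]
  gcongr
  rw [abs_le]; constructor <;> linarith

variable {n N : ℕ}

/-- Size of the perturbation. -/
noncomputable def pb (n : ℕ) : ℝ := ∑ t : Tm n, (t.1.1.nf + t.1.1.d)

theorem abs_pert_le (st : Tm n → Fin N) (zz : Fam n → Fin (2 * cp n)) (ω : Oc n N) :
    |pert st (grid zz) ω| ≤ pb n := by
  refine (abs_sum_le_sum_abs _ _).trans (sum_le_sum fun t _ => (abs_add_le _ _).trans ?_)
  refine add_le_add (abs_f_le (ob_mem _ _) _ _) ?_
  simpa using abs_mul_le' (abs_grid_le zz t.1) (abs_g_le (ob_mem spin (st t)) t.1.1 ω)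

/-- Perturbed free energy for given sites of the perturbation terms. -/
noncomputable def Psi (H : (Fin N → Bool) → ℝ) (st : Tm n → Fin N) : ℝ :=
  (unif (Fam n → Fin (2 * cp n))).E fun zz =>
    X (al n) (P0 n N) 0 (fun ω => H ω.1 + pert st (grid zz) ω) n (om0 n N)

/-- The perturbed free energy functional. -/
noncomputable def Xi (n : ℕ) : ∀ N : ℕ, ((Fin N → Bool) → ℝ) → ℝ
  | 0 => fun H => Real.log (∑ σ, Real.exp (H σ))
  | N + 1 => fun H => (N + 1) * Real.log 2 + (unif (Tm n → Fin (N + 1))).E (Psi H)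

theorem abs_Psi_sub_le (H : (Fin N → Bool) → ℝ) (st : Tm n → Fin N) :
    |Psi H st - X (al n) (P0 n N) 0 (fun ω => H ω.1) n (om0 n N)| ≤ pb n := by
  rw [Psi, ← E_sub_const]
  exact abs_E_le_const _ fun zz => abs_X_sub_le (al_pos n)
    (fun ω => by simpa using abs_pert_le st zz ω) _ _

theorem X_P0 (hn : 0 < n) (H : (Fin N → Bool) → ℝ) :
    X (al n) (P0 n N) 0 (fun ω => H ω.1) n (om0 n N) =
      Real.log (∑ σ, Real.exp (H σ)) - N * Real.log 2 := by
  rw [← X_X (Nat.zero_le 1) _ n hn]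
  have : X (al n) (P0 n N) 0 (fun ω => H ω.1) 1 =
      fun _ => Real.log (∑ σ, Real.exp (H σ)) - N * Real.log 2 := by
    funext ω
    rw [X_succ le_rfl, X_of_le le_rfl, lam, al_zero]
    simp only [P0, E_map, mix, one_mul, div_one]
    rw [← prod_unif, E_prod]
    simp only [E_const, E_unif, expect_eq_sum_div_card]
    rw [Real.log_div (sum_pos (fun _ _ => Real.exp_pos _) univ_nonempty).ne' (by positivity)]
    simp
  rw [this, X_const (al_pos n)]

/-- Forgetting the first spin. -/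
def pr (ω : Oc n (N + 1)) : Oc n N := (Fin.tail ω.1, ω.2)

theorem E_cons (Φ : Oc n (N + 1) → ℝ) : (unif (Oc n (N + 1))).E Φ =
    (unif (Oc n N)).E fun y => (∑ e : Bool, Φ (Fin.cons e y.1, y.2)) / 2 := by
  rw [← prod_unif, ← prod_unif, E_prod, E_prod, ← pi_unif (ι := Fin (N + 1)), E_pi_cons,
    pi_unif, E_comm]
  refine E_congr _ fun σ => ?_
  rw [E_comm]
  refine E_congr _ fun s => ?_
  rw [E_unif, expect_eq_sum_div_card]
  simp

theorem mor_pr : Mor 0 pr (P0 n (N + 1)) (P0 n N) := fun i _ ω F => by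
  simp only [P0, E_map, E_cons]
  refine E_congr _ fun y => ?_
  simp [pr, mix]

theorem Psi_succ (hn : 0 < n) (H : (Fin (N + 1) → Bool) → ℝ) (st : Tm n → Fin N) :
    Psi H (fun t => (st t).succ) =
      Psi (fun σ => Real.log (∑ e : Bool, Real.exp (H (Fin.cons e σ)))) st - Real.log 2 := by
  rw [Psi, Psi, ← E_sub_const]
  refine E_congr _ fun zz => ?_
  have e1 : ∀ ω : Oc n (N + 1), pert (fun t => (st t).succ) (grid zz) ω =
      pert st (grid zz) (pr ω) := fun ω => sum_congr rfl fun t _ => by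
    have := fg_comp (s := sgn N t) (s' := sgn (N + 1) t) (o := ob spin (st t))
      (o' := ob spin (st t).succ) (ω := pr ω) (ω' := ω) (fun l => rfl) (fun β => rfl) t.1.1
    rw [term, term, this.1, this.2]
  set G : Oc n N → ℝ := fun ω => Real.log (∑ e : Bool, Real.exp (H (Fin.cons e ω.1))) +
    pert st (grid zz) ω with hG
  have e2 : X (al n) (P0 n (N + 1)) 0 (fun ω => H ω.1 + pert (fun t => (st t).succ) (grid zz) ω) 1 =
      fun ω => X (al n) (P0 n N) 0 G 1 (pr ω) + -Real.log 2 := by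
    funext ω
    rw [X_succ le_rfl, X_of_le le_rfl, X_succ le_rfl, X_of_le le_rfl, ← lam_add_const (al_pos n 0),
      lam, lam, al_zero]
    simp only [P0, E_map, E_cons, e1, one_mul, div_one, hG]
    congr 1
    refine E_congr _ fun y => ?_
    rw [Real.exp_add, Real.exp_add, Real.exp_neg, Real.exp_log two_pos,
      Real.exp_log (sum_pos (fun _ _ => Real.exp_pos _) univ_nonempty), sum_mul, div_eq_mul_inv]
    simp only [Real.exp_add]
    rfl
  rw [← X_X (Nat.zero_le 1) _ n hn, e2, ← X_X (Nat.zero_le 1) G n hn,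
    (mor_pr.mono (Nat.zero_le 1)).X (fun x => X (al n) (P0 n N) 0 G 1 x + -Real.log 2),
    X_add_const (al_pos n)]
  have : pr (om0 n (N + 1)) = om0 n N := rfl
  simp only [this, sub_eq_add_neg]

theorem core {M : Type} [Fintype M] (ι : M → Type) [∀ m, Fintype (ι m)] [∀ m, DecidableEq (ι m)]
    (G : ∀ m, (ι m → Bool) → ℝ) (ε : ℝ) (hε : 0 < ε) : ∃ Ξ, CoreProp ι G ε Ξ := by
  obtain ⟨n, hn, h⟩ := limit_thm sys ggfam_sys ι G hε
  have pb0 : 0 ≤ pb n := sum_nonneg fun t _ => add_nonneg (nf_nonneg _) (d_pos _).le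
  refine ⟨Xi n, ⟨pb n, fun N H => ?_⟩, fun N H H' c hc => ?_,
    ⟨fun N => Fintype.card (Tm n) * (2 / ((N : ℝ) + 1) * pb n), ?_, fun N hN H => ?_⟩,
    fun N hN H => ?_⟩
  · cases N with
    | zero => simpa [Xi] using pb0
    | succ N =>
      have := abs_E_le_const (unif (Tm n → Fin (N + 1))) (abs_Psi_sub_le (n := n) H)
      rw [E_sub_const, X_P0 hn] at this
      simp only [Xi]
      convert this using 2
      push_cast; ring
  · cases N with
    | zero => simp only [Xi, Fintype.sum_unique, Real.log_exp]; exact hc _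
    | succ N =>
      simp only [Xi, add_sub_add_left_eq_sub]
      exact abs_E_sub_le_const _ fun st => abs_E_sub_le_const _ fun zz =>
        abs_X_sub_le (al_pos n) (fun ω => by simpa using hc ω.1) _ _
  · have : Tendsto (fun N : ℕ => 2 / ((N : ℝ) + 1)) atTop (𝓝 0) :=
      tendsto_const_nhds.div_atTop (tendsto_natCast_atTop_atTop.atTop_add tendsto_const_nhds)
    simpa using (this.mul_const (pb n)).const_mul (Fintype.card (Tm n) : ℝ)
  · obtain ⟨N, rfl⟩ := Nat.exists_eq_succ_of_ne_zero hN.ne'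
    have := pi_close' (unif_succ_close N) _ _ (abs_Psi_sub_le (n := n) H)
    rw [E_sub_const, E_sub_const, E_pi_map, pi_unif, pi_unif] at this
    simp only [Psi_succ hn, E_sub_const] at this
    simp only [Xi]
    convert this using 2
    · push_cast; ring
    · push_cast; ring
  · obtain ⟨N, rfl⟩ := Nat.exists_eq_succ_of_ne_zero hN.ne'
    obtain ⟨Y, hY, π, y, hy⟩ := h ⟨N, H⟩
    refine ⟨Y, hY, π, y, fun m => ?_⟩
    have e : (𝔼 i : ι m → Fin (N + 1), (Xi n (N + 1) (fun σ => H σ + G m fun l => σ (i l)) -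
        Xi n (N + 1) H)) = (unif (Zc n N)).E fun z => 𝔼 i : ι m → Fin (N + 1),
          X (al n) (Pz H z) 0 (fun ω => G m fun l => spin (i l) ω) n (om0 n (N + 1)) := by
      simp only [← E_unif (α := ι m → Fin (N + 1))]
      rw [E_comm]
      refine E_congr _ fun i => ?_
      simp only [Xi, add_sub_add_left_eq_sub, Psi, ← E_sub]
      rw [← prod_unif, E_prod]
      refine E_congr _ fun st => E_congr _ fun zz => ?_
      simp only [add_right_comm (H _), X_add (fun ω : Oc n (N + 1) => H ω.1 + pert st (grid zz) ω)]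
      simp only [add_sub_cancel_left]
      rfl
    rw [e]
    exact hy m

end Vale.Agent.P168
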