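import Mathlib

/-!
# P168: the diluted spin glass, its pressure and the Mezard-Parisi trial functional
-/

namespace Vale.Agent.P168

open MeasureTheory Finset
open scoped BigOperators

/-- The spin value of a Boolean. -/
def sp (b : Bool) : ℝ := if b then 1 else -1

/-- Expectation of `g` under the Poisson law of mean `t`. -/
noncomputable def pois (t : ℝ) (g : ℕ → ℝ) : ℝ :=
  ∑' k : ℕ, Real.exp (-t) * t ^ k / (k.factorial : ℝ) * g k

/-- Logarithm of the partition function with `k` clauses `th c` on the sites `idx c` and fields `h`. -/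
noncomputable def logZ {K N k : ℕ} (th : Fin k → (Fin K → Bool) → ℝ) (idx : Fin k → Fin K → Fin N)
    (h : Fin N → ℝ) : ℝ :=
  Real.log (∑ σ : Fin N → Bool,
    Real.exp (∑ c, th c (fun j => σ (idx c j)) + ∑ i, h i * sp (σ i)))

/-- The pressure `F_N`. -/
noncomputable def press {K : ℕ} {Ω : Type*} [MeasurableSpace Ω] (lam : ℝ) (P : Measure Ω)
    (θ : Ω → (Fin K → Bool) → ℝ) (ν : Measure ℝ) (N : ℕ) : ℝ :=
  (1 / (N : ℝ)) * pois (lam * N) fun k =>
    ∫ ω : Fin k → Ω, (∫ h : Fin N → ℝ,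
      (𝔼 idx : Fin k → Fin K → Fin N, logZ (fun c => θ (ω c)) idx h)
        ∂(Measure.pi fun _ => ν)) ∂(Measure.pi fun _ => P)

/-- The recursion `Y_{p-1} = (E_p Y_p^{m_p})^{1/m_p}`; index `0` is the outermost level `p = 1`. -/
noncomputable def rsb {W : Type} [MeasurableSpace W] (μ : Measure W) :
    (r : ℕ) → (Fin r → ℝ) → ((Fin r → W) → ℝ) → ℝ
  | 0, _, Y => Y Fin.elim0
  | r + 1, m, Y =>
    (∫ w, (rsb μ r (Fin.tail m) fun v => Y (Fin.cons w v)) ^ (m 0) ∂μ) ^ (1 / m 0)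

/-- `E log Y_0` over the level variables of the messages indexed by `ι`. -/
noncomputable def calT {ι : Type} [Fintype ι] (r : ℕ) (m : Fin r → ℝ)
    (x : (Fin (r + 1) → unitInterval) → ℝ) (Y : (ι → ℝ) → ℝ) : ℝ :=
  ∫ w0 : ι → unitInterval, Real.log (rsb volume r m fun v : Fin r → ι → unitInterval =>
    Y fun l => x (Fin.cons (w0 l) fun p => v p l))

/-- The variable `U` as a function of the messages. -/
noncomputable def Uf {K k : ℕ} (th : Fin k → (Fin K → Bool) → ℝ) (ell : Fin k → Fin K) (h : ℝ)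
    (y : Fin k × Fin K → ℝ) : ℝ :=
  ∑ e : Bool, Real.exp (h * sp e) * ∏ c, ∑ σ : Fin K → Bool with σ (ell c) = e,
    Real.exp (th c σ) * ∏ j ∈ univ.erase (ell c), (1 + y (c, j) * sp (σ j)) / 2

/-- The variable `V` as a function of the messages. -/
noncomputable def Vf {K k : ℕ} (th : Fin k → (Fin K → Bool) → ℝ) (y : Fin k × Fin K → ℝ) : ℝ :=
  ∏ c, ∑ σ : Fin K → Bool, Real.exp (th c σ) * ∏ j, (1 + y (c, j) * sp (σ j)) / 2

/-- The value of the functional on `U`. -/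
noncomputable def TU {K : ℕ} {Ω : Type*} [MeasurableSpace Ω] (lam : ℝ) (P : Measure Ω)
    (θ : Ω → (Fin K → Bool) → ℝ) (ν : Measure ℝ) (r : ℕ) (m : Fin r → ℝ)
    (x : (Fin (r + 1) → unitInterval) → ℝ) : ℝ :=
  pois (K * lam) fun k => ∫ ω : Fin k → Ω, (∫ h : ℝ,
    (𝔼 ell : Fin k → Fin K, calT r m x (Uf (fun c => θ (ω c)) ell h)) ∂ν)
      ∂(Measure.pi fun _ => P)

/-- The value of the functional on `V`. -/
noncomputable def TV {K : ℕ} {Ω : Type*} [MeasurableSpace Ω] (lam : ℝ) (P : Measure Ω)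
    (θ : Ω → (Fin K → Bool) → ℝ) (r : ℕ) (m : Fin r → ℝ)
    (x : (Fin (r + 1) → unitInterval) → ℝ) : ℝ :=
  pois ((K - 1) * lam) fun k => ∫ ω : Fin k → Ω,
    calT r m x (Vf fun c => θ (ω c)) ∂(Measure.pi fun _ => P)

/-- Admissible trial parameters of depth `r`. -/
def Adm (r : ℕ) (m : Fin r → ℝ) (x : (Fin (r + 1) → unitInterval) → ℝ) : Prop :=
  StrictMono m ∧ (∀ p, 0 < m p ∧ m p < 1) ∧ Measurable x ∧ ∀ u, -1 ≤ x u ∧ x u ≤ 1

/-- The set of all values of the trial functional, over all depths. -/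
def trial {K : ℕ} {Ω : Type*} [MeasurableSpace Ω] (lam : ℝ) (P : Measure Ω)
    (θ : Ω → (Fin K → Bool) → ℝ) (ν : Measure ℝ) : Set ℝ :=
  {v | ∃ (r : ℕ) (m : Fin r → ℝ) (x : (Fin (r + 1) → unitInterval) → ℝ),
    Adm r m x ∧ v = TU lam P θ ν r m x - TV lam P θ r m x}

/-- The clause function `log (a (1 + b f_1 ... f_K))`. -/
noncomputable def clause {K : ℕ} {Ω : Type*} (a b : Ω → ℝ) (f : Fin K → Ω → Bool → ℝ) (ω : Ω)
    (σ : Fin K → Bool) : ℝ :=
  Real.log (a ω * (1 + b ω * ∏ j, f j ω (σ j)))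

end Vale.Agent.P168
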