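import Vale.Agent.P168.Node

/-!
# P168: perturbation designs realising tree features
-/

namespace Vale.Agent.P168

open Finset PW
open scoped BigOperators

/-- Perturbation designs. -/
inductive Des
  | leaf : Bool → ℕ → Des
  | node : Des → Des → ℕ → ℕ → Des
  deriving DecidableEq

namespace Des

def top : Des → ℕ
  | leaf _ _ => 0
  | node _ _ _ hi => hi + 1

def WF : Des → Prop
  | leaf _ _ => True
  | node D1 D2 lo hi => WF D1 ∧ WF D2 ∧ top D1 ≤ lo ∧ top D2 ≤ lo ∧ lo < hi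

def depth : Des → ℕ
  | leaf _ _ => 0
  | node D1 D2 _ _ => max (depth D1) (depth D2) + 1

/-- Largest size parameter. -/
def kb : Des → ℕ
  | leaf _ k => k
  | node D1 D2 _ _ => max (kb D1) (kb D2)

/-- Largest height. -/
def hb : Des → ℕ
  | leaf _ _ => 0
  | node D1 D2 lo hi => max (max (hb D1) (hb D2)) (max lo hi)

noncomputable def d : Des → ℝ
  | leaf _ k => 1 / ((k : ℝ) + 1)
  | node _ D2 _ _ => d D2

noncomputable def nf : Des → ℝ
  | leaf _ _ => 0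
  | node D1 D2 _ _ => nf D1 + d D1 + nf D2

noncomputable def c (a : ℕ → ℝ) : Des → ℝ
  | leaf _ k => 1 / ((k : ℝ) + 1)
  | node D1 D2 lo hi => c a D1 * c a D2 * (a lo - a hi) / 4

/-- All designs of bounded depth and bounded entries. -/
def all (B : ℕ) : ℕ → Finset Des
  | 0 => (univ ×ˢ range (B + 1)).image fun x => leaf x.1 x.2
  | k + 1 => all B 0 ∪ ((all B k ×ˢ all B k) ×ˢ (range (B + 1) ×ˢ range (B + 1))).image
      fun x => node x.1.1 x.1.2 x.2.1 x.2.2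

theorem mem_all {B : ℕ} (D : Des) : ∀ k, D.depth ≤ k → D.kb ≤ B → D.hb ≤ B → D ∈ all B k := by
  induction D with
  | leaf β m =>
    intro k _ h _
    have : leaf β m ∈ all B 0 := by
      simp only [all, mem_image, mem_product, mem_univ, mem_range, true_and]
      exact ⟨(β, m), Nat.lt_succ_of_le h, rfl⟩
    cases k with
    | zero => exact this
    | succ k => rw [all]; exact mem_union_left _ this
  | node D1 D2 lo hi ih1 ih2 =>
    intro k h1 h2 h3
    simp only [depth, kb, hb] at h1 h2 h3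
    cases k with
    | zero => omega
    | succ k =>
      rw [all]
      refine mem_union_right _ (mem_image.mpr ⟨((D1, D2), (lo, hi)), ?_, rfl⟩)
      simp only [mem_product, mem_range]
      exact ⟨⟨ih1 k (by omega) (by omega) (by omega), ih2 k (by omega) (by omega) (by omega)⟩,
        by omega, by omega⟩

theorem hb_le_top (D : Des) (h : D.WF) : D.hb ≤ D.top := by
  induction D with
  | leaf β m => exact le_rfl
  | node D1 D2 lo hi ih1 ih2 =>
    obtain ⟨h1, h2, h3, h4, h5⟩ := h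
    have := ih1 h1
    have := ih2 h2
    simp only [hb, top]; omega

theorem d_pos (D : Des) : 0 < D.d := by
  induction D with
  | leaf β m => simp only [d]; positivity
  | node D1 D2 lo hi ih1 ih2 => exact ih2

theorem d_le_one (D : Des) : D.d ≤ 1 := by
  induction D with
  | leaf β m => simp only [d]; rw [div_le_one (by positivity)]; simp
  | node D1 D2 lo hi ih1 ih2 => exact ih2

theorem nf_nonneg (D : Des) : 0 ≤ D.nf := by
  induction D with
  | leaf β m => exact le_rfl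
  | node D1 D2 lo hi ih1 ih2 => simp only [nf]; linarith [d_pos D1]

variable {Ω : Type}

noncomputable def g (s : Sgn Ω) (o : Bool → Ω → ℝ) : Des → Ω → ℝ
  | leaf β k => fun ω => 1 / ((k : ℝ) + 1) * o β ω
  | node _ D2 lo hi => nodeG s lo hi (g s o D2)

noncomputable def f (s : Sgn Ω) (o : Bool → Ω → ℝ) : Des → Ω → ℝ
  | leaf _ _ => fun _ => 0
  | node D1 D2 lo hi => nodeF s lo hi (f s o D1) (g s o D1) (f s o D2)

variable {s : Sgn Ω} {o : Bool → Ω → ℝ}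

theorem abs_g_le (ho : ∀ β ω, 0 ≤ o β ω ∧ o β ω ≤ 1) (D : Des) : ∀ ω, |g s o D ω| ≤ D.d := by
  induction D with
  | leaf β m =>
    intro ω
    simpa [g, d] using abs_mul_le' (abs_of_pos (by positivity : 0 < 1 / ((m : ℝ) + 1))).le
      (abs_le.mpr ⟨by linarith [(ho β ω).1], (ho β ω).2⟩)
  | node D1 D2 lo hi ih1 ih2 =>
    intro ω
    simpa [g, d, nodeG] using abs_mul_le' (abs_em_le (s := s) lo hi ω) (ih2 ω)

theorem abs_f_le (ho : ∀ β ω, 0 ≤ o β ω ∧ o β ω ≤ 1) (D : Des) : ∀ ω, |f s o D ω| ≤ D.nf := by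
  induction D with
  | leaf β m => intro ω; simp [f, nf]
  | node D1 D2 lo hi ih1 ih2 =>
    intro ω
    simp only [f, nf, nodeF]
    split_ifs
    · refine (abs_add_le _ _).trans ?_
      rw [abs_mul, abs_sp, one_mul]
      linarith [ih1 ω, abs_g_le (s := s) ho D1 ω, nf_nonneg D2]
    · linarith [ih2 ω, nf_nonneg D1, d_pos D1]

theorem fg_inv {l : ℕ} (hne : ∀ l', l ≠ l' → ∀ ω, s.τ l' (s.π l ω) = s.τ l' ω)
    (ho : ∀ β ω, o β (s.π l ω) = o β ω) (D : Des) (h : D.WF) (hl : D.top ≤ l) :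
    (∀ ω, f s o D (s.π l ω) = f s o D ω) ∧ ∀ ω, g s o D (s.π l ω) = g s o D ω := by
  induction D with
  | leaf β m => simp [f, g, ho]
  | node D1 D2 lo hi ih1 ih2 =>
    obtain ⟨h1, h2, h3, h4, h5⟩ := h
    simp only [top] at hl
    obtain ⟨e1, e2⟩ := ih1 h1 (by omega)
    obtain ⟨e3, e4⟩ := ih2 h2 (by omega)
    simp [f, g, nodeF, nodeG, em, e1, e2, e3, e4, hne lo (by omega), hne hi (by omega)]

variable [Fintype Ω]

/-- The feature realised by a design, evaluated at height `p`. -/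
noncomputable def rf (a : ℕ → ℝ) (P : Ch Ω) (o : Bool → Ω → ℝ) : Des → ℕ → Ω → ℝ
  | leaf β _ => fun p => A P 0 p (o β)
  | node D1 D2 lo hi => fun p ω => (∑ i ∈ Ico lo hi, (a i - a (i + 1)) *
      A P (i + 1) p (fun x => rf a P o D2 (i + 1) x * rf a P o D1 (i + 1) x) ω) / (a lo - a hi)

variable {a : ℕ → ℝ} {P : Ch Ω}

theorem A_rf (D : Des) {j p : ℕ} (hj : D.top ≤ j) (hp : j ≤ p) :
    A P j p (rf a P o D j) = rf a P o D p := by
  cases D with
  | leaf β m => exact A_A (Nat.zero_le j) _ p hp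
  | node D1 D2 lo hi =>
    funext ω
    simp only [top] at hj
    simp only [rf, div_eq_mul_inv, A_mul_const]
    congr 1
    rw [A, E_sum]
    refine sum_congr rfl fun i hi => ?_
    simp only [mem_Ico] at hi
    rw [E_const_mul, ← A_A' (j := i + 1) (i := j) (by omega) hp]
    rfl

theorem window_avg (ha' : Antitone a) {lo hi : ℕ} (h : lo ≤ hi) {z : ℕ → ℝ} {x c : ℝ}
    (hc : 0 ≤ c) (hz : ∀ i ∈ Ico lo hi, |z i - x| ≤ c) (hx : a lo - a hi = 0 → x = 0) :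
    |(∑ i ∈ Ico lo hi, (a i - a (i + 1)) * z i) / (a lo - a hi) - x| ≤ c := by
  by_cases h0 : a lo - a hi = 0
  · simp [h0, hx h0, hc]
  have hw : 0 < a lo - a hi := lt_of_le_of_ne (sub_nonneg.mpr (ha' h)) (Ne.symm h0)
  rw [div_sub' hw.ne', abs_div, abs_of_pos hw, div_le_iff₀ hw, ← sum_Ico_tele a h, sum_mul,
    ← sum_sub_distrib, mul_sum]
  refine (abs_sum_le_sum_abs _ _).trans (sum_le_sum fun i hi => ?_)
  have : 0 ≤ a i - a (i + 1) := sub_nonneg.mpr (ha' (Nat.le_succ i))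
  rw [← mul_sub, abs_mul, abs_of_nonneg this, mul_comm c]
  exact mul_le_mul_of_nonneg_left (hz i hi) this

theorem abs_rf_le (ha' : Antitone a) (ho : ∀ β ω, 0 ≤ o β ω ∧ o β ω ≤ 1) (D : Des) (h : D.WF) :
    ∀ p ω, |rf a P o D p ω| ≤ 1 := by
  induction D with
  | leaf β m =>
    exact fun p ω => abs_A_le (fun x => abs_le.mpr ⟨by linarith [(ho β x).1], (ho β x).2⟩) ω
  | node D1 D2 lo hi ih1 ih2 =>
    intro p ω
    obtain ⟨h1, h2, h3, h4, h5⟩ := h
    simpa [rf] using window_avg ha' h5.le (x := 0) zero_le_one (fun i _ => by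
      rw [sub_zero]
      exact abs_A_le (fun x => by simpa using abs_mul_le' (ih2 h2 (i + 1) x) (ih1 h1 (i + 1) x)) ω)
      fun _ => rfl

/-- Number of averaging operations in a design. -/
def sz : Des → ℕ
  | leaf _ _ => 1
  | node D1 D2 _ _ => sz D1 + sz D2 + 1

theorem rf_near (ha' : Antitone a) (ho : ∀ β ω, 0 ≤ o β ω ∧ o β ω ≤ 1) {P' : Ch Ω} {b : ℝ}
    (hb : 0 ≤ b) (hn : Near 0 b P' P) (D : Des) (h : D.WF) :
    ∀ p ω, |rf a P' o D p ω - rf a P o D p ω| ≤ D.sz * b := by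
  induction D with
  | leaf β m =>
    intro p ω
    simpa [rf, sz] using hn 0 le_rfl p (o β) 1
      (fun x => abs_le.mpr ⟨by linarith [(ho β x).1], (ho β x).2⟩) ω
  | node D1 D2 lo hi ih1 ih2 =>
    intro p ω
    obtain ⟨h1, h2, h3, h4, h5⟩ := h
    simp only [rf, ← sub_div, ← sum_sub_distrib, ← mul_sub]
    have := window_avg ha' h5.le (x := 0) (c := (sz (node D1 D2 lo hi)) * b) (by positivity)
      (z := fun i => A P' (i + 1) p (fun x => rf a P' o D2 (i + 1) x * rf a P' o D1 (i + 1) x) ω -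
        A P (i + 1) p (fun x => rf a P o D2 (i + 1) x * rf a P o D1 (i + 1) x) ω)
      (fun i _ => by
        rw [sub_zero]
        refine (hn.A (Nat.zero_le _) p (fun x => abs_mul_le' (abs_rf_le ha' ho D2 h2 _ x)
          (abs_rf_le ha' ho D1 h1 _ x)) (fun x => abs_mul_sub_mul_le (abs_rf_le ha' ho D1 h1 _ x)
          (abs_rf_le ha' ho D2 h2 _ x) (ih2 h2 _ x) (ih1 h1 _ x)) ω).trans (le_of_eq ?_)
        simp only [sz]; push_cast; ring) fun _ => rfl
    simpa using this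

end Des

open Des

/-- The design realises its feature with relative error `ε` and has size at most `lm`. -/
def Good (a : ℕ → ℝ) (n : ℕ) (D : Des) (ε lm : ℝ) : Prop :=
  D.WF ∧ D.nf + D.d ≤ lm ∧ 0 < D.c a ∧ D.c a ≤ lm ∧ D.d ^ 2 ≤ ε * D.c a ∧
  ∀ (Ω : Type) [Fintype Ω] (P : Ch Ω) (s : Sgn Ω) (o : Bool → Ω → ℝ), Sym n s P →
    (∀ β ω, 0 ≤ o β ω ∧ o β ω ≤ 1) → (∀ l < n, ∀ β ω, o β (s.π l ω) = o β ω) →
    ∀ p, D.top ≤ p → ∀ ω,
      |A (T a P 0 (D.f s o)) 0 p (D.g s o) ω - D.c a * D.rf a P o p ω| ≤ ε * D.c a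

variable {a : ℕ → ℝ} {n : ℕ}

theorem good_leaf (ha : ∀ i, 0 < a i) (β : Bool) (k : ℕ) {ε lm : ℝ} (h1 : 1 / ((k : ℝ) + 1) ≤ ε)
    (h2 : 1 / ((k : ℝ) + 1) ≤ lm) : Good a n (.leaf β k) ε lm := by
  have h0 : 0 < 1 / ((k : ℝ) + 1) := by positivity
  refine ⟨trivial, by simpa [nf, d] using h2, h0, h2, ?_, fun Ω _ P s o _ _ _ p _ ω => ?_⟩
  · simp only [d, c]; nlinarith
  · simp only [f, g, c, rf, T_const ha, A_const_mul, sub_self, abs_zero]; nlinarith

theorem Good.gamma {D : Des} {ε lm : ℝ} (h : Good a n D ε lm) (ha' : Antitone a) (hε : ε ≤ 1)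
    {Ω : Type} [Fintype Ω] {P : Ch Ω} {s : Sgn Ω} {o : Bool → Ω → ℝ} (hs : Sym n s P)
    (ho : ∀ β ω, 0 ≤ o β ω ∧ o β ω ≤ 1) (hi : ∀ l < n, ∀ β ω, o β (s.π l ω) = o β ω) {p : ℕ}
    (hp : D.top ≤ p) (ω : Ω) : |A (T a P 0 (D.f s o)) 0 p (D.g s o) ω| ≤ 2 * D.c a := by
  obtain ⟨h1, -, h3, -, -, h6⟩ := h
  have e1 := abs_le.mp (h6 Ω P s o hs ho hi p hp ω)
  have e2 := abs_le.mp (abs_rf_le (a := a) (P := P) ha' ho D h1 p ω)
  rw [abs_le]; constructor <;> nlinarith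

theorem Good.odd {D : Des} {ε lm : ℝ} (h : Good a n D ε lm) (ha : ∀ i, 0 < a i) (ha' : Antitone a)
    (ha1 : a 0 ≤ 1)
    {Ω : Type} [Fintype Ω] {P : Ch Ω} {s : Sgn Ω} {o : Bool → Ω → ℝ} (hs : Sym n s P)
    (ho : ∀ β ω, 0 ≤ o β ω ∧ o β ω ≤ 1) (hi : ∀ l < n, ∀ β ω, o β (s.π l ω) = o β ω) {p : ℕ}
    (hp : D.top ≤ p) (ω : Ω) :
    |odd a P p (D.f s o) (D.g s o) ω - D.c a * D.rf a P o p ω| ≤ 2 * ε * D.c a := by
  obtain ⟨h1, -, h3, -, h5, h6⟩ := h
  have e1 := abs_le.mp (h6 Ω P s o hs ho hi p hp ω)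
  have e2 := abs_le.mp (abs_odd_sub_le (P := P) (j := p) (f1 := D.f s o) ha ha' ha1
    (abs_g_le (s := s) ho D) D.d_le_one ω)
  rw [abs_le]; constructor <;> linarith

theorem Good.odd_le {D : Des} {ε lm : ℝ} (h : Good a n D ε lm) (ha : ∀ i, 0 < a i)
    (ha' : Antitone a) (ha1 : a 0 ≤ 1) (hε : ε ≤ 1 / 2)
    {Ω : Type} [Fintype Ω] {P : Ch Ω} {s : Sgn Ω} {o : Bool → Ω → ℝ} (hs : Sym n s P)
    (ho : ∀ β ω, 0 ≤ o β ω ∧ o β ω ≤ 1) (hi : ∀ l < n, ∀ β ω, o β (s.π l ω) = o β ω) {p : ℕ}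
    (hp : D.top ≤ p) (ω : Ω) : |Vale.Agent.P168.odd a P p (D.f s o) (D.g s o) ω| ≤ 2 * D.c a := by
  have e1 := abs_le.mp (h.odd ha ha' ha1 hs ho hi hp ω)
  have e2 := abs_le.mp (abs_rf_le (a := a) (P := P) ha' ho D h.1 p ω)
  have h3 := h.2.2.1
  rw [abs_le]; constructor <;> nlinarith

theorem Good.inv2 {D : Des} {ε lm : ℝ} (h : Good a n D ε lm)
    {Ω : Type} [Fintype Ω] {P : Ch Ω} {s : Sgn Ω} {o : Bool → Ω → ℝ} (hs : Sym n s P)
    (hi' : ∀ l < n, ∀ β ω, o β (s.π l ω) = o β ω) {lo hi : ℕ} (h1 : D.top ≤ lo) (h2 : lo < hi)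
    (h3 : hi < n) : Inv2 s lo hi (D.f s o) ∧ Inv2 s lo hi (D.g s o) := by
  have e1 := fg_inv (hs.ne lo) (hi' lo (by omega)) D h.1 h1
  have e2 := fg_inv (hs.ne hi) (hi' hi h3) D h.1 (by omega)
  exact ⟨⟨e1.1, e2.1⟩, e1.2, e2.2⟩

theorem good_node (ha : ∀ i, 0 < a i) (ha' : Antitone a) (ha1 : a 0 ≤ 1) {D1 D2 : Des}
    {lo hi : ℕ} {ε lm ε1 ε2 l' w : ℝ} (h1 : Good a n D1 ε1 l') (h2 : Good a n D2 ε2 l')
    (t1 : D1.top ≤ lo) (t2 : D2.top ≤ lo) (hlt : lo < hi) (hn : hi < n) (hw0 : 0 < w)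
    (hw : w ≤ a lo - a hi) (hε : ε ≤ 1) (e1 : ε1 ≤ ε / 8) (e2 : ε2 ≤ ε / 8)
    (e3 : ε2 ≤ ε * D1.c a * w / 4) (e4 : 2 * l' ≤ lm) (e5 : l' ≤ ε * w / 2000) :
    Good a n (.node D1 D2 lo hi) ε lm := by
  have hw1 : a lo - a hi ≤ 1 := by linarith [ha hi, (ha' (Nat.zero_le lo)).trans ha1]
  have c1 := h1.2.2.1
  have c2 := h2.2.2.1
  have l0 : 0 < l' := c1.trans_le h1.2.2.2.1
  have ε0 : 0 < ε := by nlinarith
  have l1 : l' ≤ 1 / 2 := by nlinarith
  have ε20 : 0 ≤ ε2 := by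
    have := h2.2.2.2.2.1
    by_contra hc
    nlinarith [sq_nonneg D2.d]
  have ε10 : 0 ≤ ε1 := by
    have := h1.2.2.2.2.1
    by_contra hc
    nlinarith [sq_nonneg D1.d]
  refine ⟨⟨h1.1, h2.1, t1, t2, hlt⟩, ?_, ?_, ?_, ?_, fun Ω _ P s o hs ho hi' p hp ω => ?_⟩
  · simp only [nf, d]; linarith [h1.2.1, h2.2.1]
  · simp only [c]; have : 0 < a lo - a hi := by linarith
    positivity
  · simp only [c]
    have := mul_le_mul h1.2.2.2.1 h2.2.2.2.1 c2.le l0.le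
    have : D1.c a * D2.c a * (a lo - a hi) ≤ l' * l' * 1 := by gcongr; linarith
    nlinarith
  · simp only [c, d]
    refine h2.2.2.2.2.1.trans ?_
    have : ε * D1.c a * w / 4 ≤ ε * D1.c a * (a lo - a hi) / 4 := by gcongr
    nlinarith
  · obtain ⟨i1, i2⟩ := h1.inv2 hs hi' t1 hlt hn
    obtain ⟨i3, i4⟩ := h2.inv2 hs hi' t2 hlt hn
    have hγ := fun x => h2.gamma ha' (by linarith) hs ho hi' t2 x
    have hO := fun x => h1.odd_le ha ha' ha1 (by linarith) hs ho hi' t1 x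
    have k1 := hs.theta hlt hn ha ha' ha1 le_rfl i1 i2 i3 i4 l1
      (fun x => by linarith [abs_f_le (s := s) ho D1 x, abs_g_le (s := s) ho D1 x, h1.2.1])
      (fun x => by linarith [abs_f_le (s := s) ho D2 x, D2.d_pos, h2.2.1]) hγ hO hp ω
    have hw' : 0 < a lo - a hi := by linarith
    have k2 := window_avg ha' hlt.le (x := 0) (c := 4 * (ε / 8) * (D1.c a * D2.c a))
      (by positivity)
      (z := fun i => A P (i + 1) p (fun x => A P lo (i + 1) (A (T a P 0 (D2.f s o)) 0 lo (D2.g s o)) x *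
          A P lo (i + 1) (Vale.Agent.P168.odd a P lo (D1.f s o) (D1.g s o)) x) ω -
        D1.c a * D2.c a * A P (i + 1) p (fun x => rf a P o D2 (i + 1) x * rf a P o D1 (i + 1) x) ω)
      (fun i hi => by
        simp only [mem_Ico] at hi
        rw [sub_zero, ← A_const_mul]
        refine abs_A_sub_le (fun x => ?_) ω
        rw [← A_rf D1 t1 (by omega), ← A_rf D2 t2 (by omega),
          show ∀ u v : ℝ, D1.c a * D2.c a * (u * v) = (D2.c a * u) * (D1.c a * v) from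
            fun u v => by ring, ← A_const_mul (D2.c a), ← A_const_mul (D1.c a)]
        refine (abs_mul_sub_mul_le (abs_A_le hO x) (c := D2.c a) (abs_A_le (fun y => ?_) x)
          (abs_A_sub_le (h2.2.2.2.2.2 Ω P s o hs ho hi' lo t2) x)
          (abs_A_sub_le (h1.odd ha ha' ha1 hs ho hi' t1) x)).trans ?_
        · simpa using abs_mul_le' (abs_of_pos c2).le (abs_rf_le (a := a) (P := P) ha' ho D2 h2.1 lo y)
        · have := mul_pos c1 c2
          nlinarith) fun _ => rfl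
    simp only [mul_sub, sum_sub_distrib, sub_zero, mul_left_comm _ (D1.c a * D2.c a),
      ← mul_sum] at k2
    rw [abs_div, abs_of_pos hw', div_le_iff₀ hw'] at k2
    simp only [f, g, c, rf]
    have k3 : ∀ S : ℝ, D1.c a * D2.c a * (a lo - a hi) / 4 * (S / (a lo - a hi)) =
        D1.c a * D2.c a * S / 4 := fun S => by field_simp
    rw [k3]
    have := mul_pos c1 c2
    have k4 : 48 * l' * (2 * D2.c a * (2 * D1.c a)) ≤ ε / 2 * (D1.c a * D2.c a * (a lo - a hi) / 4) := by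
      have : l' ≤ ε * (a lo - a hi) / 2000 := e5.trans (by gcongr)
      nlinarith
    rw [abs_le] at k1 k2 ⊢
    constructor <;> nlinarith

end Vale.Agent.P168
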