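import Vale.Agent.P168.Ident

/-!
# P168: the recursive covariance inequality from exchangeable perturbation terms
-/

namespace Vale.Agent.P168

open Finset PW Des Filter
open scoped BigOperators Topology

/-- The system contains many copies of the design `D` whose probe parts concentrate. -/
structure Pert (S : RS) (n : ℕ) (D : Des) (v : ℝ) where
  C : Type
  [fC : Fintype C]
  [nC : Nonempty C]
  s : C → Sgn S.Ω
  site : S.Z → C → S.I
  Pm : S.Z → C → Ch S.Ω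
  mu : S.Z → ℝ
  mu_le : ∀ z, |mu z| ≤ 1
  P_eq : ∀ z c, S.P z = T (al n) (Pm z c) 0 fun ω =>
    D.f (s c) (ob S.sg (site z c)) ω + mu z * D.g (s c) (ob S.sg (site z c)) ω
  sym : ∀ z c, Sym n (s c) (Pm z c)
  sg_inv : ∀ c l i ω, S.sg i ((s c).π l ω) = S.sg i ω
  resample : ∀ c (Φ : Ch S.Ω → S.I → ℝ),
    S.ρ.E (fun z => Φ (Pm z c) (site z c)) = S.ρ.E fun z => 𝔼 i, Φ (Pm z c) i
  var : S.ρ.E (fun z => A (S.P z) 0 n (fun ω => |(𝔼 c, D.g (s c) (ob S.sg (site z c)) ω) -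
    A (S.P z) 0 n (fun x => 𝔼 c, D.g (s c) (ob S.sg (site z c)) x) S.ω0|) S.ω0) ≤ v

attribute [instance] Pert.fC Pert.nC

theorem mor_co {Ω Ω' : Type} [Fintype Ω] [Fintype Ω'] {P : Ch Ω} {P' : Ch Ω'} {π : Ω' → Ω}
    (h : Mor 0 π P' P) (J : ℕ → ℕ) : Mor 0 π (co P' J) (co P J) := fun b _ ω F =>
  congrFun ((h.mono (Nat.zero_le (J b))).A F (J (b + 1))) ω

section one
variable {Ω : Type} [Fintype Ω] {a : ℕ → ℝ} (ha : ∀ i, 0 < a i) (ha' : Antitone a) (ha1 : a 0 ≤ 1)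
  {n jc lo : ℕ} (hn : lo + 1 < n) (hj : jc ≤ lo) {D1 D2 : Des} {ε' ε2 l' : ℝ}
  (g1 : Good a n D1 ε' l') (g2 : Good a n D2 ε2 l') (t1 : D1.top ≤ jc) (t2 : D2.top ≤ jc)
  (hε : ε' ≤ 1 / 2) (e1 : ε2 ≤ ε') (e2 : ε2 ≤ ε' * D1.c a) (hl : l' ≤ 1 / 8)
  {Pm : Ch Ω} {s : Sgn Ω} {o : Bool → Ω → ℝ} (hs : Sym n s Pm)
  (ho : ∀ β ω, 0 ≤ o β ω ∧ o β ω ≤ 1) (hi : ∀ l < n, ∀ β ω, o β (s.π l ω) = o β ω)
  {μ : ℝ} (hμ : |μ| ≤ 1) {P : Ch Ω}
  (hP : P = T a Pm 0 fun ω =>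
    (node D1 D2 lo (lo + 1)).f s o ω + μ * (node D1 D2 lo (lo + 1)).g s o ω)
include ha ha' ha1 g1 g2 hl ho hμ hP

theorem one_near_f : Near 0 (8 * D2.d) P (T a Pm 0 ((node D1 D2 lo (lo + 1)).f s o)) := by
  rw [hP, ← T_T]
  refine near_T ha ha' ha1 (fun ω => ?_) (by linarith [g2.2.1, D2.nf_nonneg])
  simpa [d] using abs_mul_le' hμ (abs_g_le (s := s) ho (node D1 D2 lo (lo + 1)) ω)

omit ha ha' ha1 hl hP in
theorem one_bound (ω : Ω) :
    |(node D1 D2 lo (lo + 1)).f s o ω + μ * (node D1 D2 lo (lo + 1)).g s o ω| ≤ 2 * l' := by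
  have k1 := abs_f_le (s := s) ho (node D1 D2 lo (lo + 1)) ω
  have k2 := abs_mul_le' hμ (abs_g_le (s := s) ho (node D1 D2 lo (lo + 1)) ω)
  simp only [nf, d] at k1 k2
  refine (abs_add_le _ _).trans ?_
  linarith [g1.2.1, g2.2.1]

theorem one_near : Near 0 (16 * l') Pm P := by
  have := near_T (P := Pm) (j := 0) ha ha' ha1 (one_bound (s := s) (lo := lo) g1 g2 ho hμ)
    (by linarith)
  rw [← hP, show 8 * (2 * l') = 16 * l' by ring] at this
  exact this.symm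

theorem one_dom (i p : ℕ) (F : Ω → ℝ) (hF : ∀ x, 0 ≤ F x) (ω : Ω) :
    A Pm i p F ω ≤ 3 * A P i p F ω := by
  have k := A_T_le (P := P) (j := 0) ha ha' ha1 (G := fun ω => -((node D1 D2 lo (lo + 1)).f s o ω +
    μ * (node D1 D2 lo (lo + 1)).g s o ω)) (b := 2 * l')
    (fun ω => by rw [abs_neg]; exact one_bound g1 g2 ho hμ ω) (Nat.zero_le i) hF p ω
  nth_rewrite 1 [hP] at k
  simp only [T_T, add_neg_cancel, T_const ha] at k
  refine k.trans (mul_le_mul_of_nonneg_right ?_ (A_nonneg hF ω))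
  have := Real.exp_one_lt_d9
  exact (Real.exp_le_exp.mpr (by linarith : 2 * (2 * l') ≤ 1)).trans (by linarith)

include hn hj t1 t2 hε e1 e2 hs hi

omit hn hj t1 t2 hε e1 hs hi ha ha' ha1 g1 hl ho hμ hP in
theorem one_dsq : D2.d * D2.d ≤ ε' * (D1.c a * D2.c a) := by
  have := g2.2.2.2.2.1
  nlinarith [g2.2.2.1]

theorem one_mean (ω : Ω) : |A P 0 n ((node D1 D2 lo (lo + 1)).g s o) ω| ≤
    D1.c a * D2.c a * (8 * ε' + (a lo - a (lo + 1)) + 192 * l') := by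
  have hlt := Nat.lt_succ_self lo
  obtain ⟨i1, i2⟩ := g1.inv2 hs hi (t1.trans hj) hlt hn
  obtain ⟨i3, i4⟩ := g2.inv2 hs hi (t2.trans hj) hlt hn
  have hγ := fun x => g2.gamma ha' (by linarith) hs ho hi t2 x
  have hO := fun x => g1.odd_le ha ha' ha1 hε hs ho hi t1 x
  have k1 := hs.theta hlt hn ha ha' ha1 hj i1 i2 i3 i4 (b := l') (by linarith)
    (fun x => by linarith [abs_f_le (s := s) ho D1 x, abs_g_le (s := s) ho D1 x, g1.2.1])
    (fun x => by linarith [abs_f_le (s := s) ho D2 x, D2.d_pos, g2.2.1]) hγ hO hn ω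
  have k2 := one_near_f ha ha' ha1 g1 g2 hl ho hμ hP 0 le_rfl n _ _
    (abs_g_le (s := s) ho (node D1 D2 lo (lo + 1))) ω
  rw [Nat.Ico_succ_singleton, sum_singleton] at k1
  have hδ : 0 ≤ a lo - a (lo + 1) := sub_nonneg.mpr (ha' (Nat.le_succ lo))
  have k3 := abs_mul_le' (abs_of_nonneg hδ).le (abs_A_le (P := Pm) (j := lo + 1) (p := n)
    (fun x => abs_mul_le' (abs_A_le (P := Pm) (j := jc) (p := lo + 1) hγ x)
      (abs_A_le (P := Pm) (j := jc) (p := lo + 1) hO x)) ω)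
  have k4 := one_dsq g2 e2
  simp only [f, g, d] at k1 k2 ⊢
  rw [abs_le] at k1 k2 k3 ⊢
  constructor <;> linarith

theorem one_Q {φ φm : Ω → ℝ} (hφ : ∀ x, |φ x| ≤ 1) (hφm : ∀ x, |φm x| ≤ 1)
    (iφ : ∀ l < n, ∀ x, φm (s.π l x) = φm x) (ω : Ω) :
    D1.c a * D2.c a / 4 * Ex a Pm jc (lo + 1) n (a lo - a (lo + 1)) (D2.rf a Pm o jc)
      (D1.rf a Pm o jc) φm ω ≤
      -Qf P jc (lo + 1) n φ (A P 0 jc ((node D1 D2 lo (lo + 1)).g s o)) ω +
        2 * A P jc n (fun x => |φm x - φ x|) ω + D1.c a * D2.c a * (35 * ε' + 1024 * l') := by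
  have hlt := Nat.lt_succ_self lo
  have h1 : jc ≤ lo + 1 := by omega
  obtain ⟨i1, i2⟩ := g1.inv2 hs hi (t1.trans hj) hlt hn
  obtain ⟨i3, i4⟩ := g2.inv2 hs hi (t2.trans hj) hlt hn
  have hγ := fun x => g2.gamma ha' (by linarith) hs ho hi t2 x
  have hO := fun x => g1.odd_le ha ha' ha1 hε hs ho hi t1 x
  have hg := abs_g_le (s := s) ho (node D1 D2 lo (lo + 1))
  have nr := one_near_f ha ha' ha1 g1 g2 hl ho hμ hP
  have kB := Qf_phi (P := P) h1 hn.le hφm hφ (c := 1)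
    (abs_A_le (P := P) (j := 0) (p := jc) fun x => (hg x).trans (d_le_one _)) ω
  have kC := Qf_near (n := n) h1 (nr.mono (Nat.zero_le jc)) hφm (abs_A_le (j := 0) (p := jc) hg)
    (nr 0 le_rfl jc _ _ hg) ω
  have kD := hs.Q_node hn hj ha ha' ha1 i1 i2 i3 i4 ⟨iφ lo (by omega), iφ _ hn⟩ hφm (b := l')
    (by linarith)
    (fun x => by linarith [abs_f_le (s := s) ho D1 x, abs_g_le (s := s) ho D1 x, g1.2.1])
    (fun x => by linarith [abs_f_le (s := s) ho D2 x, D2.d_pos, g2.2.1]) hγ hO ω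
  have hδ : |a lo - a (lo + 1)| ≤ 1 := by
    rw [abs_of_nonneg (sub_nonneg.mpr (ha' (Nat.le_succ lo)))]
    linarith [ha (lo + 1), (ha' (Nat.zero_le lo)).trans ha1]
  have c1 := g1.2.2.1
  have c2 := g2.2.2.1
  have kE1 := (Ex_left (P := Pm) ha ha' ha1 h1 hn.le hδ
    (γ := A (T a Pm 0 (D2.f s o)) 0 jc (D2.g s o)) (γ' := fun x => D2.c a * D2.rf a Pm o jc x)
    hO hφm ω).trans (mul_le_mul_of_nonneg_left
      (A_le_const (g2.2.2.2.2.2 Ω Pm s o hs ho hi jc t2) ω) (by positivity))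
  have kE2 := (Ex_right (P := Pm) ha ha' ha1 h1 hn.le hδ (c := D2.c a)
    (γ := fun x => D2.c a * D2.rf a Pm o jc x) (O := odd a Pm jc (D1.f s o) (D1.g s o))
    (O' := fun x => D1.c a * D1.rf a Pm o jc x)
    (fun x => by simpa using abs_mul_le' (abs_of_pos c2).le (abs_rf_le ha' ho D2 g2.1 jc x))
    hφm ω).trans (mul_le_mul_of_nonneg_left
      (A_le_const (g1.odd ha ha' ha1 hs ho hi t1) ω) (by positivity))
  rw [Ex_smul] at kE2
  have k4 := one_dsq g2 e2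
  have k5 : ε2 * (D1.c a * D2.c a) ≤ ε' * (D1.c a * D2.c a) := by gcongr
  simp only [f, g, d] at kB kC kD ⊢
  rw [abs_le] at kB kC kD kE1 kE2
  linarith [kB.1, kB.2, kC.1, kC.2, kD.1, kD.2, kE1.1, kE1.2, kE2.1, kE2.2]

end one

theorem gg_ineq {S : RS} {n b lo : ℕ} {J : ℕ → ℕ} (e : Sh Bool b) (hJ : J (b + 1) = lo + 1)
    (hn : lo + 1 < n) (hj : J b ≤ lo) {D1 D2 : Des} {ε' ε2 l' v ρ σ : ℝ}
    (g1 : Good (al n) n D1 ε' l') (g2 : Good (al n) n D2 ε2 l') (t1 : D1.top ≤ J b)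
    (t2 : D2.top ≤ J b) (hε : ε' ≤ 1 / 2) (e1 : ε2 ≤ ε') (e2 : ε2 ≤ ε' * D1.c (al n))
    (hl : l' ≤ 1 / 8) (pt : Pert S n (node D1 D2 lo (lo + 1)) v)
    (r1 : S.Eb n (J b) (fun z i ω => |D1.rf (al n) (S.P z) (ob S.sg i) (J b) ω - S.feat J e z i ω|) ≤ ρ)
    (r2 : S.Eb n (J b) (fun z i ω => |D2.rf (al n) (S.P z) (ob S.sg i) (J b) ω - S.feat J e z i ω|) ≤ ρ)
    (st : ∀ P' : S.Z → Ch S.Ω, (∀ z i p (F : S.Ω → ℝ), (∀ x, 0 ≤ F x) → ∀ ω,
      A (P' z) i p F ω ≤ 3 * A (S.P z) i p F ω) →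
      S.Eb n (J b) (fun z i ω => |ev (co (P' z) J) (ob S.sg i) e ω - S.feat J e z i ω|) ≤ σ) :
    D1.c (al n) * D2.c (al n) / 4 * (al n (J (b + 1)) * S.HS n J e) ≤
      D1.c (al n) * D2.c (al n) / 4 * (5 * (al n lo - al n (lo + 1)) +
        (16 * (14 + 6 * e.nu + 3 * D1.sz + 3 * D2.sz) + 4864) * l' + 172 * ε' + 6 * ρ) +
      (v + 2 * σ) := by
  have ha := al_pos n
  have ha' := al_anti n
  have ha1 := (al_zero n).le
  set a := al n
  set δ := a lo - a (lo + 1) with hδdef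
  set cc := D1.c a * D2.c a with hcc
  have hcc0 : 0 < cc := mul_pos g1.2.2.1 g2.2.2.1
  have l0 : 0 < l' := g1.2.2.1.trans_le g1.2.2.2.1
  have hδ0 : 0 ≤ δ := sub_nonneg.mpr (ha' (Nat.le_succ lo))
  have hδ : |δ| ≤ 1 := by
    rw [abs_of_nonneg hδ0]
    linarith [ha (lo + 1), (ha' (Nat.zero_le lo)).trans ha1]
  have h1 : J b ≤ lo + 1 := by omega
  have oi : ∀ c i, ∀ l < n, ∀ β ω, ob S.sg i β ((pt.s c).π l ω) = ob S.sg i β ω :=
    fun c i l _ β ω => by simp only [ob, pt.sg_inv]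
  have bev : ∀ (P : Ch S.Ω) i x, |ev (co P J) (ob S.sg i) e x| ≤ 1 := fun P i x =>
    abs_le_one_of_mem (ev_mem (ob_mem S.sg i) e x)
  set Φ : Ch S.Ω → S.I → ℝ := fun P i => 𝔼 i', Ex a P (J b) (lo + 1) n δ
    (D2.rf a P (ob S.sg i) (J b)) (D1.rf a P (ob S.sg i) (J b)) (ev (co P J) (ob S.sg i') e) S.ω0
    with hΦ
  set Q : S.Z → pt.C → ℝ := fun z c => 𝔼 i', Qf (S.P z) (J b) (lo + 1) n (S.feat J e z i')
    (A (S.P z) 0 (J b) ((node D1 D2 lo (lo + 1)).g (pt.s c) (ob S.sg (pt.site z c)))) S.ω0 with hQ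
  -- upper bound for each copy
  have kU : ∀ c, cc / 4 * S.ρ.E (fun z => Φ (pt.Pm z c) (pt.site z c)) ≤
      -S.ρ.E (fun z => Q z c) + 2 * σ + cc * (35 * ε' + 1024 * l') := fun c => by
    have k := st (fun z => pt.Pm z c) fun z =>
      one_dom ha ha' ha1 g1 g2 hl (ob_mem _ _) (pt.mu_le z) (pt.P_eq z c)
    rw [RS.Eb_eq, RS.Eh] at k
    simp only [A_expect] at k
    have k' := E_mono S.ρ fun z => E_mono (unif S.I) fun i' =>
      one_Q ha ha' ha1 hn hj g1 g2 t1 t2 hε e1 e2 hl (pt.sym z c) (ob_mem _ _) (oi c _)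
        (pt.mu_le z) (pt.P_eq z c) (bev (S.P z) i') (bev (pt.Pm z c) i') (fun l hl x => by
          have := (mor_co ((pt.sym z c).mor l hl) J).ev (ob S.sg i') e
          simp only [oi c i' l hl] at this
          exact (congrFun this x).symm) S.ω0
    simp only [E_add, E_const, E_const_mul, E_neg, E_unif] at k'
    simp only [hΦ, hQ, RS.feat] at k ⊢
    linarith
  -- lower bound for each copy
  have kL : ∀ c, a (lo + 1) * S.HS n J e - δ - 6 * ρ -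
      16 * (14 + 6 * e.nu + 3 * D1.sz + 3 * D2.sz) * l' ≤
      S.ρ.E (fun z => Φ (pt.Pm z c) (pt.site z c)) := fun c => by
    rw [pt.resample c Φ]
    rw [RS.Eb_eq, RS.Eh] at r1 r2
    simp only [A_expect] at r1 r2
    have k : ∀ z, a (lo + 1) * A (S.P z) (lo + 1) n
        (fun x => hs (B (S.P z) (J b) (lo + 1) x) (S.feat J e z)) S.ω0 - δ -
        3 * (𝔼 i, A (S.P z) (J b) n
          (fun ω => |D1.rf a (S.P z) (ob S.sg i) (J b) ω - S.feat J e z i ω|) S.ω0) -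
        3 * (𝔼 i, A (S.P z) (J b) n
          (fun ω => |D2.rf a (S.P z) (ob S.sg i) (J b) ω - S.feat J e z i ω|) S.ω0) -
        16 * (14 + 6 * e.nu + 3 * D1.sz + 3 * D2.sz) * l' ≤ 𝔼 i, Φ (pt.Pm z c) i := fun z => by
      have nr := one_near ha ha' ha1 g1 g2 hl (ob_mem _ _) (pt.mu_le z) (pt.P_eq z c)
      have k0 := Ex_psd (P := S.P z) (n := n) ha ha' h1 hδ0 (φ := S.feat J e z) (bev _) S.ω0
      suffices hh : ∀ i i', Ex a (S.P z) (J b) (lo + 1) n δ (S.feat J e z i) (S.feat J e z i)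
          (S.feat J e z i') S.ω0 - 3 * A (S.P z) (J b) n
          (fun ω => |D1.rf a (S.P z) (ob S.sg i) (J b) ω - S.feat J e z i ω|) S.ω0 -
          3 * A (S.P z) (J b) n
          (fun ω => |D2.rf a (S.P z) (ob S.sg i) (J b) ω - S.feat J e z i ω|) S.ω0 -
          16 * (14 + 6 * e.nu + 3 * D1.sz + 3 * D2.sz) * l' ≤ Ex a (pt.Pm z c) (J b) (lo + 1) n δ
          (D2.rf a (pt.Pm z c) (ob S.sg i) (J b)) (D1.rf a (pt.Pm z c) (ob S.sg i) (J b))
          (ev (co (pt.Pm z c) J) (ob S.sg i') e) S.ω0 by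
        have k' := E_mono (unif S.I) fun i => E_mono (unif S.I) fun i' => hh i i'
        simp only [E_sub, E_const, E_const_mul, E_unif] at k'
        simp only [hΦ]
        linarith
      intro i i'
      have b1 := abs_rf_le (a := a) (P := S.P z) ha' (ob_mem S.sg i) D1 g1.1 (J b)
      have b2 := abs_rf_le (a := a) (P := S.P z) ha' (ob_mem S.sg i) D2 g2.1 (J b)
      have k1 := Ex_near (n := n) ha ha' ha1 h1 hδ (nr.mono (Nat.zero_le _)) (by positivity)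
        (abs_rf_le ha' (ob_mem S.sg i) D2 g2.1 (J b)) b2 b1
        (abs_rf_le ha' (ob_mem S.sg i) D1 g1.1 (J b)) (bev _ i') (bev _ i')
        (ev_near nr J (ob_mem S.sg i') e)
        (rf_near ha' (ob_mem S.sg i) (by positivity) nr D2 g2.1 (J b))
        (rf_near ha' (ob_mem S.sg i) (by positivity) nr D1 g1.1 (J b)) S.ω0
      have k2 := Ex_left (P := S.P z) ha ha' ha1 h1 hn.le hδ (γ := D2.rf a (S.P z) (ob S.sg i) (J b))
        (γ' := S.feat J e z i) b1 (bev (S.P z) i') S.ω0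
      have k3 := Ex_right (P := S.P z) ha ha' ha1 h1 hn.le hδ (O := D1.rf a (S.P z) (ob S.sg i) (J b))
        (O' := S.feat J e z i) (bev (S.P z) i) (bev (S.P z) i') S.ω0
      simp only [RS.feat] at k1 k2 k3 ⊢
      linarith [(abs_le.mp k1).1, (abs_le.mp k2).1, (abs_le.mp k3).1]
    refine le_trans ?_ (E_mono _ k)
    rw [E_sub_const, E_sub, E_sub, E_sub_const, E_const_mul, E_const_mul, E_const_mul, RS.HS, RS.Eh,
      hJ]
    simp only [co, hJ]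
    linarith
  -- concentration
  have kQ : ∀ z, -(𝔼 c, Q z c) ≤ A (S.P z) 0 n (fun ω =>
      |(𝔼 c, (node D1 D2 lo (lo + 1)).g (pt.s c) (ob S.sg (pt.site z c)) ω) -
      A (S.P z) 0 n (fun x => 𝔼 c, (node D1 D2 lo (lo + 1)).g (pt.s c) (ob S.sg (pt.site z c)) x)
        S.ω0|) S.ω0 + cc * (8 * ε' + δ + 192 * l') := fun z => by
    simp only [hQ]
    rw [expect_comm]
    simp only [← Qf_expect]
    rw [← E_unif, ← E_neg]
    refine E_le_const _ fun i' => (neg_le_abs _).trans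
      ((abs_Qf_le h1 hn.le (bev _ i') _ _ _).trans (add_le_add_right ?_ _))
    rw [A_expect, ← E_unif]
    exact abs_E_le_const _ fun c => one_mean ha ha' ha1 hn hj g1 g2 t1 t2 hε e1 e2 hl (pt.sym z c)
      (ob_mem _ _) (oi c _) (pt.mu_le z) (pt.P_eq z c) S.ω0
  have k1 := E_mono S.ρ kQ
  rw [E_add_const, E_neg] at k1
  have k2 := const_le_E (unif pt.C) fun c =>
    (mul_le_mul_of_nonneg_left (kL c) (by positivity : 0 ≤ cc / 4)).trans (kU c)
  rw [E_add_const, E_add_const, E_neg, E_comm] at k2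
  simp only [E_unif] at k2
  have k3 := pt.var
  rw [hJ]
  nlinarith

end Vale.Agent.P168
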