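import Vale.Agent.P168.GG

/-!
# P168: quantifier bookkeeping for the covariance inequality
-/

namespace Vale.Agent.P168

open Finset PW Des Filter
open scoped BigOperators Topology

theorem AllUp.imp {Λ : Type} {p q : ∀ b, Sh Λ b → Prop} (h : ∀ b e, p b e → q b e) {b : ℕ}
    (e : Sh Λ b) (he : AllUp p e) : AllUp q e := by
  induction e with
  | leaf x => trivial
  | up e ih => exact ⟨h _ _ he.1, ih he.2⟩
  | node e1 e2 ih1 ih2 => exact ⟨ih1 he.1, ih2 he.2⟩

theorem al_sub {n lo k : ℕ} (h : lo + k ≤ n) : al n lo - al n (lo + k) = k / ((n : ℝ) + 1) := by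
  rw [al_of_le h, al_of_le (by omega)]; push_cast; ring

theorem window_ok {w : ℝ} {L n W : ℕ} (hw : 0 < w) (hL : 0 < L) (hn : 4 * L / w ≤ n) (hn1 : 1 ≤ n)
    (hW : w * n ≤ W) : L * (W / L - 1 + 1) ≤ W ∧
      w / (4 * L) ≤ ((W / L - 1 : ℕ) : ℝ) / ((n : ℝ) + 1) := by
  have hL' : (0 : ℝ) < L := by exact_mod_cast hL
  have hn' : (1 : ℝ) ≤ n := by exact_mod_cast hn1
  rw [div_le_iff₀ hw] at hn
  have h1 : W < L * (W / L + 1) := Nat.lt_mul_div_succ W hL
  have h2 : (W : ℝ) < L * ((W / L : ℕ) + 1) := by exact_mod_cast h1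
  have h3 : (3 : ℝ) < (W / L : ℕ) := by nlinarith
  have h4 : 3 < W / L := by exact_mod_cast h3
  constructor
  · rw [Nat.sub_add_cancel (by omega)]; exact Nat.mul_div_le W L
  · rw [Nat.cast_sub (by omega), div_le_div_iff₀ (by positivity) (by positivity)]
    push_cast
    nlinarith

theorem ggfam_of_pert {α : Type} (sys : ℕ → α → RS) (v : ℕ → ℝ) (hv : Tendsto v atTop (𝓝 0))
    (h : ∀ n, 0 < n → ∀ s, ∀ D ∈ Des.all n n, Nonempty (Pert (sys n s) n D (v n))) :
    GGfam sys := by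
  intro b e ε hε
  set ε0 := min ε 1 with hε0
  have p0 : 0 < ε0 := lt_min hε one_pos
  have p1 : ε0 ≤ 1 := min_le_right _ _
  set κ : ℝ := 16 * (14 + 6 * e.nu + 12 * e.nl) + 4864 with hκ
  have κ0 : 4864 ≤ κ := by rw [hκ]; have : (0 : ℝ) ≤ 16 * (14 + 6 * e.nu + 12 * e.nl) := by positivity
                           linarith
  set ξ : ℝ := ε0 / (36 * (RS.dc e + 1)) with hξ
  have ξ0 : 0 < ξ := by positivity
  refine ⟨ξ ^ 2, by positivity, fun w hw => ?_⟩
  have hL := e.nl_pos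
  have hw0 : 0 < w / (4 * e.nl) := by positivity
  have hl : 0 < ε0 / (6 * κ) := by positivity
  obtain ⟨c1, hc1, K1, h1⟩ := exists_des hw0 e (ε0 / 2000) (by positivity) (by linarith) _ hl
  obtain ⟨c2, hc2, K2, h2⟩ := exists_des hw0 e (min (ε0 / 2000) (ε0 / 2000 * c1))
    (lt_min (by positivity) (by positivity)) ((min_le_left _ _).trans (by linarith)) _ hl
  set ζ : ℝ := ε0 * (c1 * c2) / (48 * (RS.sc e + 1)) with hζ
  have ζ0 : 0 < ζ := by positivity
  have ev1 : ∀ᶠ n : ℕ in atTop, v n ≤ ε0 * (c1 * c2) / 24 :=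
    hv.eventually (ge_mem_nhds (by positivity))
  have ev2 : ∀ᶠ n : ℕ in atTop, 30 / ε0 ≤ (n : ℝ) :=
    tendsto_natCast_atTop_atTop.eventually_ge_atTop _
  have ev3 : ∀ᶠ n : ℕ in atTop, 4 * e.nl / w ≤ (n : ℝ) :=
    tendsto_natCast_atTop_atTop.eventually_ge_atTop _
  obtain ⟨n0, hn0⟩ := eventually_atTop.mp (ev1.and (ev2.and (ev3.and
    (eventually_ge_atTop (K1 + K2 + e.nl + 1)))))
  refine ⟨ζ ^ 4, by positivity, n0, fun n hn s J W J0 hJ hJn hW hA => ?_⟩
  obtain ⟨q1, q2, q3, q4⟩ := hn0 n hn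
  obtain ⟨w1, w2⟩ := window_ok hw hL q3 (by omega) hW
  set s' := W / e.nl - 1 with hs'
  have hs1 : 1 ≤ s' := by
    by_contra hc
    have : s' = 0 := by omega
    rw [this] at w2
    simp at w2
    linarith
  have hwin : ∀ lo, lo + s' ≤ n → w / (4 * e.nl) ≤ al n lo - al n (lo + s') := fun lo hlo => by
    rw [al_sub hlo]; exact w2
  have hJb := hJ b le_rfl
  have hWpos : 1 ≤ W := le_trans (Nat.le_mul_of_pos_left _ hL |>.trans' (by omega)) w1
  have hJ' : ∀ b' < b, J b' + W ≤ J (b' + 1) := fun b' hb' => hJ b' hb'.le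
  obtain ⟨D1, g1, a1, a2, a3, a4, a5, a6⟩ := h1 (al n) n (al_pos n) (al_anti n) (al_zero n).le J W s'
    hs1 hwin hJ' (by omega) (J b) le_rfl (by omega)
  obtain ⟨D2, g2, b1, b2, b3, b4, b5, b6⟩ := h2 (al n) n (al_pos n) (al_anti n) (al_zero n).le J W s'
    hs1 hwin hJ' (by omega) (J b) le_rfl (by omega)
  set lo := J (b + 1) - 1 with hlo
  have hJ1 : J (b + 1) = lo + 1 := by omega
  obtain ⟨pt⟩ := h n (by omega) s (node D1 D2 lo (lo + 1)) (mem_all _ n
    (by simp only [depth]; omega) (by simp only [kb]; omega) (by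
      have := D1.hb_le_top g1.1
      have := D2.hb_le_top g2.1
      simp only [hb]; omega))
  have dist := fun (D : Des) (hD : D.WF) (hT : D.top ≤ J b) (hS : Skel J s' e (J b) D) =>
    RS.rf_dist (S := sys n s) (n := n) (al_anti n) ξ0.le J0
      (fun lo hlo => hw0.trans_le (hwin lo hlo)) e hJ' (by omega)
      (AllUp.imp (fun _ _ hh => hh.1) e hA) (J b) D le_rfl (by omega) hD hT hS
  simp only [evl_top] at dist
  have key := gg_ineq e hJ1 (by omega) (by omega) g1 g2 a4 b4 (by linarith) (min_le_left _ _)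
    ((min_le_right _ _).trans (by gcongr))
    (by rw [div_le_div_iff₀ (by positivity) (by norm_num)]; linarith) pt
    (dist D1 g1.1 a4 a6) (dist D2 g2.1 b4 b6) fun P' hd => RS.stab hd ζ0.le e
      (fun b' hb' => (Nat.le_add_right _ _).trans (hJ' b' hb')) (by omega)
      (AllUp.imp (fun _ _ hh => hh.2) e hA)
  have hcc : c1 * c2 ≤ D1.c (al n) * D2.c (al n) := mul_le_mul a1 b1 hc2.le g1.2.2.1.le
  have hc0 : 0 < c1 * c2 := mul_pos hc1 hc2
  set cc := D1.c (al n) * D2.c (al n)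
  have r1 : 5 * (al n lo - al n (lo + 1)) ≤ ε0 / 6 := by
    rw [al_sub (by omega), ← mul_div_assoc, div_le_div_iff₀ (by positivity) (by norm_num)]
    rw [div_le_iff₀ p0] at q2
    push_cast; nlinarith
  have r2 : (16 * (14 + 6 * e.nu + 3 * D1.sz + 3 * D2.sz) + 4864 : ℝ) * (ε0 / (6 * κ)) ≤ ε0 / 6 := by
    have s1 : (D1.sz : ℝ) ≤ 2 * e.nl := by exact_mod_cast (by omega : D1.sz ≤ 2 * e.nl)
    have s2 : (D2.sz : ℝ) ≤ 2 * e.nl := by exact_mod_cast (by omega : D2.sz ≤ 2 * e.nl)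
    calc _ ≤ κ * (ε0 / (6 * κ)) := by gcongr; rw [hκ]; linarith
      _ = _ := by field_simp
  have r3 : 6 * (RS.dc e * ξ) ≤ ε0 / 6 := by
    calc _ ≤ 6 * ((RS.dc e + 1) * ξ) := by gcongr; linarith
      _ = _ := by rw [hξ]; field_simp; norm_num
  have r4 : 2 * (RS.sc e * ζ) ≤ ε0 * (c1 * c2) / 24 := by
    calc _ ≤ 2 * ((RS.sc e + 1) * ζ) := by gcongr; linarith
      _ = _ := by rw [hζ]; field_simp; norm_num
  have r5 : ε0 * (c1 * c2) ≤ ε0 * cc := by gcongr
  have r6 : cc / 4 * (al n (J (b + 1)) * (sys n s).HS n J e) ≤ cc / 4 * ε0 := by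
    refine key.trans ?_
    have : cc / 4 * (5 * (al n lo - al n (lo + 1)) +
        (16 * (14 + 6 * e.nu + 3 * D1.sz + 3 * D2.sz) + 4864) * (ε0 / (6 * κ)) +
        172 * (ε0 / 2000) + 6 * (RS.dc e * ξ)) ≤ cc / 4 * (2 / 3 * ε0) := by
      have : 0 ≤ cc / 4 := by linarith
      gcongr
      linarith
    linarith
  exact (le_of_mul_le_mul_left r6 (by linarith)).trans (min_le_left _ _)

end Vale.Agent.P168
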