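import Vale.Agent.P168.Skel

/-!
# P168: the two-branch response identity
-/

namespace Vale.Agent.P168

open Finset PW Des
open scoped BigOperators

variable {Ω : Type} [Fintype Ω]

/-- Two branches carrying `φ`, one of them also carrying `h`. -/
noncomputable def Qf (P : Ch Ω) (jc jb n : ℕ) (φ h : Ω → ℝ) (ω : Ω) : ℝ :=
  A P jb n (fun x => A P jc jb (fun y => φ y * h y) x * A P jc jb φ x) ω

noncomputable def Ex (a : ℕ → ℝ) (P : Ch Ω) (jc jb n : ℕ) (δ : ℝ) (γ O φ : Ω → ℝ) (ω : Ω) : ℝ :=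
  A P jb n (fun x => A P jc jb (fun y => φ y * γ y) x *
    (Rs a P jc φ O jb x - δ * (A P jc jb φ x * A P jc jb O x))) ω

noncomputable def DQ (a : ℕ → ℝ) (P : Ch Ω) (jc jb n : ℕ) (Γ O φ : Ω → ℝ) (ω : Ω) : ℝ :=
  A P jb n (fun x => Rs a P jc (fun y => φ y * Γ y) O jb x * A P jc jb φ x +
    A P jc jb (fun y => φ y * Γ y) x * Rs a P jc φ O jb x) ω +
  Rs a P jb (fun x => A P jc jb (fun y => φ y * Γ y) x * A P jc jb φ x) (A P jc jb O) n ω

variable {a : ℕ → ℝ} {P P' : Ch Ω} {jc jb n : ℕ}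

theorem hasDerivAt_Qf (ha : ∀ i, 0 < a i) (h1 : jc ≤ jb) (h2 : jb ≤ n) {ψ : ℝ → Ω → ℝ}
    {ψ' : Ω → ℝ} {t : ℝ} (h : ∀ x, HasDerivAt (fun t => ψ t x) (ψ' x) t) (Γ φ : Ω → ℝ) (ω : Ω) :
    HasDerivAt (fun t => Qf (T a P jc (ψ t)) jc jb n φ Γ ω)
      (DQ a (T a P jc (ψ t)) jc jb n Γ ψ' φ ω) t := by
  have key := fun F : Ω → ℝ => hasDerivAt_A_T (P := P) (j := jc) ha h (G := fun _ => F)
    (G' := fun _ => 0) (fun x => hasDerivAt_const _ _) le_rfl jb h1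
  simp only [A_const', zero_add, A_of_le (le_refl jc)] at key
  exact hasDerivAt_A_T (P := P) (j := jc) ha h
    (G := fun t x => A (T a P jc (ψ t)) jc jb (fun y => φ y * Γ y) x * A (T a P jc (ψ t)) jc jb φ x)
    (fun x => (key _ x).mul (key _ x)) h1 n h2 ω

theorem DQ_near (ha : ∀ i, 0 < a i) (ha' : Antitone a) (ha1 : a 0 ≤ 1) (h1 : jc ≤ jb) (h2 : jb ≤ n)
    {b c c' : ℝ} (hn : Near jc b P' P) (hb : 0 ≤ b) {Γ O φ : Ω → ℝ} (hΓ : ∀ x, |Γ x| ≤ c)
    (hO : ∀ x, |O x| ≤ c') (hφ : ∀ x, |φ x| ≤ 1) (ω : Ω) :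
    |DQ a P' jc jb n Γ O φ ω - DQ a P jc jb n Γ O φ ω| ≤ 32 * b * (c * c') := by
  have hG : ∀ x, |φ x * Γ x| ≤ c := fun x => by simpa using abs_mul_le' (hφ x) (hΓ x)
  have z : ∀ (F : Ω → ℝ) x, |F x - F x| ≤ 0 := by simp
  have k1 := fun x => hn.Rs ha ha' ha1 hb h1 hG hO hO (z _) (z _) x
  have k2 := fun x => hn.Rs ha ha' ha1 hb h1 hφ hO hO (z _) (z _) x
  have k3 := fun x => hn.A le_rfl jb hG (z _) x
  have k4 := fun x => hn.A le_rfl jb hφ (z _) x
  have k5 := fun x => hn.A le_rfl jb hO (z _) x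
  have b1 := fun Q x => abs_Rs_le (P := Q) ha ha' ha1 h1 hG hO x
  have b2 := fun Q x => abs_Rs_le (P := Q) ha ha' ha1 h1 hφ hO x
  have b3 := fun Q x => abs_A_le (P := Q) (j := jc) (p := jb) hG x
  have b4 := fun Q x => abs_A_le (P := Q) (j := jc) (p := jb) hφ x
  have b5 := fun Q x => abs_A_le (P := Q) (j := jc) (p := jb) hO x
  have m1 := hn.A h1 n (c := 2 * (c * c') * 1 + c * (2 * (1 * c')))
    (F := fun x => Rs a P jc (fun y => φ y * Γ y) O jb x * A P jc jb φ x +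
      A P jc jb (fun y => φ y * Γ y) x * Rs a P jc φ O jb x)
    (F' := fun x => Rs a P' jc (fun y => φ y * Γ y) O jb x * A P' jc jb φ x +
      A P' jc jb (fun y => φ y * Γ y) x * Rs a P' jc φ O jb x)
    (fun x => (abs_add_le _ _).trans
      (add_le_add (abs_mul_le' (b1 _ x) (b4 _ x)) (abs_mul_le' (b3 _ x) (b2 _ x))))
    (fun x => by
      rw [add_sub_add_comm]
      exact (abs_add_le _ _).trans (add_le_add
        (abs_mul_sub_mul_le (b4 _ x) (b1 _ x) (k1 x) (k4 x))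
        (abs_mul_sub_mul_le (b2 _ x) (b3 _ x) (k3 x) (k2 x)))) ω
  have m2 := (hn.mono h1).Rs ha ha' ha1 hb h2 (fun x => abs_mul_le' (b3 P x) (b4 P x)) (b5 P)
    (b5 P') (fun x => abs_mul_sub_mul_le (b4 P' x) (b3 P x) (k3 x) (k4 x)) k5 ω
  unfold DQ
  rw [add_sub_add_comm]
  exact (abs_add_le _ _).trans ((add_le_add m1 m2).trans (le_of_eq (by ring)))

section sym
variable {s : Sgn Ω} {lo : ℕ} (h : Sym n s P) (hn : lo + 1 < n) (hj : jc ≤ lo)
include h hn hj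

theorem Sym.DQ_sign {γ O φ : Ω → ℝ} (hγ : Inv2 s lo (lo + 1) γ) (hO : Inv2 s lo (lo + 1) O)
    (hφ : Inv2 s lo (lo + 1) φ) (ω : Ω) :
    DQ a P jc (lo + 1) n (fun x => em s lo (lo + 1) x * -γ x) (fun x => ep s lo (lo + 1) x * O x) φ ω =
      -Ex a P jc (lo + 1) n (a lo - a (lo + 1)) γ O φ ω / 4 := by
  have hlt : lo < lo + 1 := Nat.lt_succ_self lo
  have e0 : (fun y => φ y * (em s lo (lo + 1) y * -γ y)) =
      fun y => em s lo (lo + 1) y * -(φ y * γ y) := by funext y; ring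
  have i1 := (hφ.mul hγ).neg
  have m1 : ∀ x, A P jc (lo + 1) (fun y => em s lo (lo + 1) y * -(φ y * γ y)) x =
      sp (s.τ (lo + 1) x) * (-A P jc (lo + 1) (fun y => φ y * γ y) x / 2) := fun x => by
    rw [h.A_em_mid hlt hn hj le_rfl le_rfl i1.1, A_neg]; ring
  have m2 : ∀ {i : ℕ} {F : Ω → ℝ}, i ≤ lo → Inv2 s lo (lo + 1) F → ∀ x,
      A P i (lo + 1) (fun y => ep s lo (lo + 1) y * F y) x =
      sp (s.τ (lo + 1) x) * (A P i (lo + 1) F x / 2) := fun hi hF x => by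
    rw [h.A_ep_mid hlt hn hi le_rfl le_rfl hF.1]; ring
  have r1 : ∀ x, Rs a P jc (fun y => em s lo (lo + 1) y * -(φ y * γ y))
      (fun y => ep s lo (lo + 1) y * O y) (lo + 1) x =
      a lo * (A P jc (lo + 1) (fun y => φ y * γ y) x * A P jc (lo + 1) O x) / 4 := fun x => by
    have z : ∀ y, em s lo (lo + 1) y * -(φ y * γ y) * (ep s lo (lo + 1) y * O y) = 0 := fun y => by
      linear_combination (-(φ y * γ y) * O y) * ep_mul_em (s := s) lo (lo + 1) y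
    unfold Rs
    simp only [z, A_const']
    rw [sum_Ico_succ_top hj, sum_eq_zero, A_of_le (le_refl (lo + 1)), m1, m2 hj hO]
    · linear_combination (a lo * (A P jc (lo + 1) (fun y => φ y * γ y) x * A P jc (lo + 1) O x) / 4) *
        sp_sq (s.τ (lo + 1) x)
    · intro i hi'
      simp only [mem_Ico] at hi'
      rw [A_fun_congr (G := fun _ => 0), A_const', mul_zero]
      intro x
      rw [h.A_em_low hlt hn (by omega), h.A_ep_low hlt hn (by omega)]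
      linear_combination (A P jc (i + 1) (fun y => -(φ y * γ y)) x * A P jc (i + 1) O x) *
        ep_mul_em (s := s) lo (lo + 1) x
  have r2 : ∀ x, Rs a P jc φ (fun y => ep s lo (lo + 1) y * O y) (lo + 1) x =
      sp (s.τ (lo + 1) x) * (Rs a P jc φ O (lo + 1) x / 2) := fun x => by
    unfold Rs
    rw [A_fun_congr (G := fun y => ep s lo (lo + 1) y * (φ y * O y)) (fun y => by ring),
      m2 hj (hφ.mul hO), m2 hj hO, sum_Ico_succ_top hj, sum_Ico_succ_top hj,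
      A_of_le (le_refl (lo + 1)), A_of_le (le_refl (lo + 1)), m2 hj hO,
      sum_congr rfl (g := fun i => sp (s.τ (lo + 1) x) / 2 * ((a i - a (i + 1)) *
        A P (i + 1) (lo + 1) (fun y => A P jc (i + 1) φ y * A P jc (i + 1) O y) x)), ← mul_sum]
    · ring
    · intro i hi'
      simp only [mem_Ico] at hi'
      rw [A_fun_congr (G := fun y => ep s lo (lo + 1) y * (A P jc (i + 1) φ y * A P jc (i + 1) O y))
        (fun y => by rw [h.A_ep_low hlt hn (by omega)]; ring),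
        m2 (by omega) ((h.inv_A hlt hn hφ _ _).mul (h.inv_A hlt hn hO _ _))]
      ring
  have iO : ∀ x, A P jc (lo + 1) O (s.π (lo + 1) x) / 2 = A P jc (lo + 1) O x / 2 := fun x => by
    rw [(h.inv_A hlt hn hO _ _).2]
  have r3 : Rs a P (lo + 1) (fun x => A P jc (lo + 1) (fun y => em s lo (lo + 1) y * -(φ y * γ y)) x *
      A P jc (lo + 1) φ x) (A P jc (lo + 1) fun y => ep s lo (lo + 1) y * O y) n ω =
      A P (lo + 1) n (fun x => a (lo + 1) * (-(A P jc (lo + 1) (fun y => φ y * γ y) x *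
        A P jc (lo + 1) φ x * A P jc (lo + 1) O x) / 4)) ω := by
    rw [funext (m2 hj hO)]
    unfold Rs
    rw [h.A_kill hn le_rfl hn iO, sum_eq_zero, A_const_mul]
    · simp only [mul_zero, sub_zero]
      congr 1
      refine A_fun_congr (fun x => ?_) ω
      rw [m1]
      linear_combination (-(A P jc (lo + 1) (fun y => φ y * γ y) x *
        A P jc (lo + 1) φ x * A P jc (lo + 1) O x) / 4) * sp_sq (s.τ (lo + 1) x)
    · intro i hi'
      simp only [mem_Ico] at hi'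
      simp only [h.A_kill (F := fun x => A P jc (lo + 1) O x / 2) hn le_rfl
        (by omega : lo + 1 + 1 ≤ i + 1) iO, mul_zero, A_const']
  unfold DQ Ex
  rw [e0, r3, ← A_add, ← A_neg, div_eq_mul_inv, ← A_mul_const]
  refine A_fun_congr (fun x => ?_) ω
  rw [r1, r2, m1]
  linear_combination (-A P jc (lo + 1) (fun y => φ y * γ y) x * Rs a P jc φ O (lo + 1) x / 4) *
    sp_sq (s.τ (lo + 1) x)

theorem Sym.Q_node (ha : ∀ i, 0 < a i) (ha' : Antitone a) (ha1 : a 0 ≤ 1) {f1 g1 f2 g2 φ : Ω → ℝ}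
    (i1 : Inv2 s lo (lo + 1) f1) (i2 : Inv2 s lo (lo + 1) g1) (i3 : Inv2 s lo (lo + 1) f2)
    (i4 : Inv2 s lo (lo + 1) g2) (iφ : Inv2 s lo (lo + 1) φ) (hφ : ∀ x, |φ x| ≤ 1)
    {b c c' : ℝ} (hb : b ≤ 1 / 2) (h1 : ∀ x, |f1 x| + |g1 x| ≤ b) (h2 : ∀ x, |f2 x| ≤ b)
    (hc : ∀ x, |A (Vale.Agent.P168.T a P 0 f2) 0 jc g2 x| ≤ c)
    (hc' : ∀ x, |odd a P jc f1 g1 x| ≤ c') (ω : Ω) :
    |Qf (Vale.Agent.P168.T a P 0 (nodeF s lo (lo + 1) f1 g1 f2)) jc (lo + 1) n φ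
        (A (Vale.Agent.P168.T a P 0 (nodeF s lo (lo + 1) f1 g1 f2)) 0 jc (nodeG s lo (lo + 1) g2)) ω +
      Ex a P jc (lo + 1) n (a lo - a (lo + 1)) (A (Vale.Agent.P168.T a P 0 f2) 0 jc g2)
        (odd a P jc f1 g1) φ ω / 4| ≤ 256 * b * (c * c') := by
  have hlt : lo < lo + 1 := Nat.lt_succ_self lo
  set γ := A (Vale.Agent.P168.T a P 0 f2) 0 jc g2 with hγ
  have iγ : Inv2 s lo (lo + 1) γ := h.inv_A_T hlt hn i3 i4 0 jc
  have iO := h.inv_odd (a := a) (j := jc) hlt hn i1 i2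
  set ψ := psi a P s lo (lo + 1) jc f1 g1 f2 with hψ
  set Θ : ℝ → ℝ := fun t => Qf (Vale.Agent.P168.T a P jc (ψ t)) jc (lo + 1) n φ
    (fun x => em s lo (lo + 1) x * -γ x) ω with hΘ
  have e1 : Qf (Vale.Agent.P168.T a P 0 (nodeF s lo (lo + 1) f1 g1 f2)) jc (lo + 1) n φ
      (A (Vale.Agent.P168.T a P 0 (nodeF s lo (lo + 1) f1 g1 f2)) 0 jc (nodeG s lo (lo + 1) g2)) ω =
      Θ 1 := by
    rw [h.A_nodeG hlt hn hj, hΘ, hψ]
    simp only [Qf]
    rw [← h.X_nodeF hlt hn hj]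
    simp only [A_congr (lo + 1) fun i hi _ => T_X (a := a) (P := P) (Nat.zero_le jc) _ i hi]
    rw [A_congr n fun i hi _ => T_X (a := a) (P := P) (Nat.zero_le jc) _ i (by omega)]
  have hodd : Θ (-1) = -Θ 1 := by
    have k1 := congrFun (A_T_resample (a := a) (h.mor2 hlt hn) (h.res2 hlt hn)
      (show jc ≤ lo + 1 by omega) le_rfl (ψ 1) (fun x => A (Vale.Agent.P168.T a P jc (ψ 1)) jc (lo + 1)
        (fun y => φ y * (em s lo (lo + 1) y * -γ y)) x *
        A (Vale.Agent.P168.T a P jc (ψ 1)) jc (lo + 1) φ x) n hn) ω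
    have k2 := fun F => ((((h.mor2 hlt hn).T (a := a) (Nat.zero_le jc) (ψ 1))).mono
      (Nat.zero_le jc)).A F (lo + 1)
    simp only [← congrFun (k2 _)] at k1
    simp only [hψ, h.psi_flip hlt hn i1 i2 i3, h.em_flip hlt hn, iγ.1, iγ.2, iφ.1, iφ.2, neg_mul,
      mul_neg, neg_neg] at k1
    simp only [hΘ, hψ, Qf, mul_neg, A_neg, neg_mul] at k1 ⊢
    rw [k1, neg_neg]
  have hder := fun t => hasDerivAt_Qf (P := P) (n := n) ha (show jc ≤ lo + 1 by omega) hn.le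
    (hasDerivAt_psi (a := a) (P := P) (s := s) (lo := lo) (hi := lo + 1) (j := jc) (f1 := f1)
      (g1 := g1) (f2 := f2) t) (fun x => em s lo (lo + 1) x * -γ x) φ ω
  obtain ⟨t, ht, e2⟩ := exists_deriv_of_odd hder hodd
  have e3 := h.DQ_sign (a := a) hn hj iγ iO iφ ω
  rw [e1, ← sub_neg_eq_add, ← neg_div, ← e3]
  simp only [hΘ, hψ]
  rw [e2]
  have hb0 : 0 ≤ b := (abs_nonneg _).trans (h2 ω)
  have hG : ∀ x, |em s lo (lo + 1) x * -γ x| ≤ c := fun x => by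
    simpa using abs_mul_le' (abs_em_le lo (lo + 1) x) (show |-γ x| ≤ c by simpa using hc x)
  have hO : ∀ x, |ep s lo (lo + 1) x * odd a P jc f1 g1 x| ≤ c' := fun x => by
    simpa using abs_mul_le' (abs_ep_le lo (lo + 1) x) (hc' x)
  exact (DQ_near ha ha' ha1 (by omega) hn.le (near_T ha ha' ha1 (abs_psi_le ha h1 h2 ht) hb)
    (by positivity) hG hO hφ ω).trans (le_of_eq (by ring))

end sym

section bounds
variable (ha : ∀ i, 0 < a i) (ha' : Antitone a) (ha1 : a 0 ≤ 1) (h1 : jc ≤ jb) (h2 : jb ≤ n)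
  {δ : ℝ} (hδ : |δ| ≤ 1)
include ha ha' ha1 h1 hδ

theorem abs_bracket_le {O φ : Ω → ℝ} (hφ : ∀ x, |φ x| ≤ 1) (x : Ω) :
    |Rs a P jc φ O jb x - δ * (A P jc jb φ x * A P jc jb O x)| ≤
      3 * A P jc jb (fun y => |O y|) x := by
  have k1 := abs_Rs_le_A (P := P) ha ha' ha1 h1 hφ O x
  have k2 := abs_mul_le' hδ (abs_mul_le' (abs_A_le (P := P) (j := jc) (p := jb) hφ x)
    (abs_A_le_A (P := P) (j := jc) (p := jb) O x))
  refine (abs_sub _ _).trans ?_
  linarith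

include h2

theorem Ex_left {γ γ' O φ : Ω → ℝ} {c' : ℝ} (hO : ∀ x, |O x| ≤ c') (hφ : ∀ x, |φ x| ≤ 1) (ω : Ω) :
    |Ex a P jc jb n δ γ O φ ω - Ex a P jc jb n δ γ' O φ ω| ≤
      3 * c' * A P jc n (fun x => |γ x - γ' x|) ω := by
  rw [← A_A' h1 h2, ← A_const_mul]
  refine (abs_A_sub_le_A _ _ _).trans (A_mono (fun x => ?_) ω)
  rw [← sub_mul, mul_comm (3 * c')]
  refine abs_mul_le' ((abs_A_sub_le_A _ _ _).trans (A_mono (fun y => ?_) x))
    ((abs_bracket_le ha ha' ha1 h1 hδ hφ x).trans (by gcongr; exact A_le_const hO x))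
  rw [← mul_sub]
  simpa using abs_mul_le' (hφ y) (le_refl |γ y - γ' y|)

theorem Ex_right {γ O O' φ : Ω → ℝ} {c : ℝ} (hγ : ∀ x, |γ x| ≤ c) (hφ : ∀ x, |φ x| ≤ 1) (ω : Ω) :
    |Ex a P jc jb n δ γ O φ ω - Ex a P jc jb n δ γ O' φ ω| ≤
      3 * c * A P jc n (fun x => |O x - O' x|) ω := by
  rw [← A_A' h1 h2, ← A_const_mul]
  refine (abs_A_sub_le_A _ _ _).trans (A_mono (fun x => ?_) ω)
  have k := abs_bracket_le (P := P) (O := fun y => O y - O' y) ha ha' ha1 h1 hδ hφ x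
  rw [Rs_sub_right, A_sub] at k
  rw [← mul_sub, mul_comm 3 c, mul_assoc]
  refine abs_mul_le' (abs_A_le (fun y => by simpa using abs_mul_le' (hφ y) (hγ y)) x) ?_
  convert k using 2
  ring

omit h2 in
theorem Ex_near {b d d1 d2 : ℝ} (hn : Near jc b P' P) (hb : 0 ≤ b) {γ γ' O O' φ φ' : Ω → ℝ}
    (hγ' : ∀ x, |γ' x| ≤ 1) (hγ : ∀ x, |γ x| ≤ 1) (hO : ∀ x, |O x| ≤ 1) (hO' : ∀ x, |O' x| ≤ 1)
    (hφ : ∀ x, |φ x| ≤ 1) (hφ' : ∀ x, |φ' x| ≤ 1) (e0 : ∀ x, |φ' x - φ x| ≤ d)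
    (e1 : ∀ x, |γ' x - γ x| ≤ d1) (e2 : ∀ x, |O' x - O x| ≤ d2) (ω : Ω) :
    |Ex a P' jc jb n δ γ' O' φ' ω - Ex a P jc jb n δ γ O φ ω| ≤
      14 * b + 6 * d + 3 * d1 + 3 * d2 := by
  have b0 : ∀ x, |φ x * γ x| ≤ 1 := fun x => by simpa using abs_mul_le' (hφ x) (hγ x)
  have k1 := fun x => hn.A le_rfl jb b0
    (fun y => abs_mul_sub_mul_le (hγ' y) (hφ y) (e0 y) (e1 y)) x
  have k2 := fun x => hn.Rs ha ha' ha1 hb h1 hφ hO hO' e0 e2 x
  have k3 := fun x => abs_mul_le' hδ (abs_mul_sub_mul_le (abs_A_le hO' x) (abs_A_le hφ x)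
    (hn.A le_rfl jb hφ e0 x) (hn.A le_rfl jb hO e2 x))
  have b1 : ∀ x, |Rs a P jc φ O jb x - δ * (A P jc jb φ x * A P jc jb O x)| ≤ 3 * 1 := fun x =>
    (abs_bracket_le ha ha' ha1 h1 hδ hφ x).trans (by gcongr; exact A_le_const hO x)
  have b2 : ∀ x, |Rs a P' jc φ' O' jb x - δ * (A P' jc jb φ' x * A P' jc jb O' x)| ≤ 3 * 1 :=
    fun x => (abs_bracket_le ha ha' ha1 h1 hδ hφ' x).trans (by gcongr; exact A_le_const hO' x)
  refine (hn.A h1 n (fun x => abs_mul_le' (abs_A_le b0 x) (b1 x))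
    (fun x => abs_mul_sub_mul_le (b2 x) (abs_A_le b0 x) (k1 x)
      (d' := 8 * b + 3 * d + 3 * d2) ?_) ω).trans (le_of_eq (by ring))
  have := abs_le.mp (k2 x)
  have := abs_le.mp (k3 x)
  rw [abs_le]; constructor <;> linarith

end bounds

theorem Ex_smul (c c' δ : ℝ) (γ O φ : Ω → ℝ) (ω : Ω) :
    Ex a P jc jb n δ (fun x => c * γ x) (fun x => c' * O x) φ ω =
      c * c' * Ex a P jc jb n δ γ O φ ω := by
  unfold Ex
  rw [← A_const_mul]
  refine A_fun_congr (fun x => ?_) ω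
  rw [Rs_const_mul_right, A_const_mul,
    A_fun_congr (G := fun y => c * (φ y * γ y)) (fun y => by ring), A_const_mul]
  ring

section psd
variable {α I : Type} [Fintype α] [Fintype I] [Nonempty I]

theorem cov_form_nonneg (μ : PW α) (φ : I → α → ℝ) (v : I → ℝ) :
    0 ≤ (unif I).E fun i => (unif I).E fun i' => v i * v i' * cov μ (φ i') (φ i) := by
  have e : ((unif I).E fun i => (unif I).E fun i' => v i * v i' * cov μ (φ i') (φ i)) =
      μ.E (fun x => (unif I).E (fun i => v i * φ i x) ^ 2) -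
        μ.E (fun x => (unif I).E fun i => v i * φ i x) ^ 2 := by
    have sq' : ∀ F : I → ℝ, (unif I).E F ^ 2 = (unif I).E fun i => (unif I).E fun i' => F i * F i' :=
      fun F => by simp only [E_const_mul, E_mul_const, sq]
    rw [μ.E_comm (unif I) fun x i => v i * φ i x]
    simp only [sq']
    rw [μ.E_comm, ← E_sub]
    refine E_congr _ fun i => ?_
    rw [μ.E_comm, ← E_sub]
    refine E_congr _ fun i' => ?_
    rw [μ.E_congr (G := fun x => v i * v i' * (φ i' x * φ i x)) fun x => by ring]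
    simp only [E_const_mul, cov]
    ring
  rw [e]
  exact sub_nonneg.mpr (E_sq_le _ _)

theorem Ex_psd (ha : ∀ i, 0 < a i) (ha' : Antitone a) (h1 : jc ≤ jb) {δ : ℝ} (hδ : 0 ≤ δ)
    {φ : I → Ω → ℝ} (hφ : ∀ i x, |φ i x| ≤ 1) (ω : Ω) :
    a jb * A P jb n (fun x => hs (B P jc jb x) φ) ω - δ ≤
      𝔼 i, 𝔼 i', Ex a P jc jb n δ (φ i) (φ i) (φ i') ω := by
  simp only [Ex, ← A_expect]
  rw [← A_const_mul, ← A_const' (P := P) (j := jb) (p := n) δ ω, ← A_sub]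
  refine A_mono (fun x => ?_) ω
  simp only [A_const', hs, ← E_unif]
  set M : I → I → ℝ := fun i i' => A P jc jb (fun y => φ i' y * φ i y) x with hM
  have k0 : ∀ p, jc ≤ p → p ≤ jb → 0 ≤ (unif I).E fun i => (unif I).E fun i' => M i i' *
      (M i i' - A P p jb (fun y => A P jc p (φ i') y * A P jc p (φ i) y) x) := fun p p1 p2 => by
    have : ∀ i i', M i i' * (M i i' - A P p jb (fun y => A P jc p (φ i') y * A P jc p (φ i) y) x) =
        (B P jc jb x).E fun y => (B P p jb x).E fun z =>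
          φ i y * φ i' y * cov (B P jc p z) (φ i') (φ i) := fun i i' => by
      simp only [E_const_mul, E_mul_const, cov, E_sub]
      have e1 : (B P jc jb x).E (fun y => φ i y * φ i' y) = M i i' :=
        A_fun_congr (fun y => mul_comm _ _) x
      have e2 : ((B P p jb x).E fun z => (B P jc p z).E fun y => φ i' y * φ i y) = M i i' :=
        A_A' p1 p2 (fun y => φ i' y * φ i y) x
      rw [e1, e2]
      rfl
    simp only [this]
    rw [E_congr _ fun i => E_comm _ _ _, E_comm]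
    refine E_nonneg _ fun y => ?_
    rw [E_congr _ fun i => E_comm _ _ _, E_comm]
    exact E_nonneg _ fun z => cov_form_nonneg _ φ fun i => φ i y
  have k1 := cov_form_nonneg (B P jc jb x) φ fun i => A P jc jb (φ i) x
  have k2 : (unif I).E (fun i => (unif I).E fun i' => M i i' * Rs a P jc (φ i') (φ i) jb x) =
      ∑ p ∈ Ico jc jb, (a p - a (p + 1)) * ((unif I).E fun i => (unif I).E fun i' => M i i' *
        (M i i' - A P (p + 1) jb (fun y => A P jc (p + 1) (φ i') y * A P jc (p + 1) (φ i) y) x)) +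
      a jb * ((unif I).E (fun i => (unif I).E fun i' => cov (B P jc jb x) (φ i) (φ i') ^ 2) +
        (unif I).E fun i => (unif I).E fun i' =>
          A P jc jb (φ i) x * A P jc jb (φ i') x * cov (B P jc jb x) (φ i') (φ i)) := by
    simp only [← E_const_mul, ← E_sum, ← E_add]
    refine E_congr _ fun i => E_congr _ fun i' => ?_
    have t := sum_Ico_tele a h1
    simp only [Rs, mul_sub, sum_sub_distrib, ← sum_mul, mul_sum, mul_left_comm (M i i'), t, cov]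
    simp only [hM, A, mul_comm (φ i _)]
    ring
  have k3 : (unif I).E (fun i => (unif I).E fun i' =>
      M i i' * (δ * (A P jc jb (φ i') x * A P jc jb (φ i) x))) ≤ δ := by
    refine E_le_const _ fun i => E_le_const _ fun i' => (le_abs_self _).trans ?_
    simpa using abs_mul_le' (abs_A_le (c := 1) (fun y => by simpa using abs_mul_le' (hφ i' y) (hφ i y)) x)
      (abs_mul_le' (abs_of_nonneg hδ).le (abs_mul_le' (abs_A_le (hφ i') x) (abs_A_le (hφ i) x)))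
  have k4 : 0 ≤ ∑ p ∈ Ico jc jb, (a p - a (p + 1)) * ((unif I).E fun i => (unif I).E fun i' =>
      M i i' * (M i i' - A P (p + 1) jb
        (fun y => A P jc (p + 1) (φ i') y * A P jc (p + 1) (φ i) y) x)) :=
    sum_nonneg fun p hp => by
      simp only [mem_Ico] at hp
      exact mul_nonneg (sub_nonneg.mpr (ha' (Nat.le_succ p))) (k0 _ (by omega) (by omega))
  simp only [mul_sub, E_sub]
  have k5 := mul_nonneg (ha jb).le k1
  simp only [hM] at k2 k3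
  rw [k2]
  linarith

end psd

theorem Qf_phi (h1 : jc ≤ jb) (h2 : jb ≤ n) {φ φ' h : Ω → ℝ} {c : ℝ} (hφ : ∀ x, |φ x| ≤ 1)
    (hφ' : ∀ x, |φ' x| ≤ 1) (hh : ∀ x, |h x| ≤ c) (ω : Ω) :
    |Qf P jc jb n φ h ω - Qf P jc jb n φ' h ω| ≤ 2 * c * A P jc n (fun x => |φ x - φ' x|) ω := by
  rw [← A_A' h1 h2, ← A_const_mul]
  refine (abs_A_sub_le_A _ _ _).trans (A_mono (fun x => ?_) ω)
  refine (abs_mul_sub_mul_le (abs_A_le hφ x) (c := c)
    (abs_A_le (fun y => by simpa using abs_mul_le' (hφ' y) (hh y)) x)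
    (d := c * A P jc jb (fun x => |φ x - φ' x|) x) ?_ (abs_A_sub_le_A _ _ _)).trans
    (le_of_eq (by ring))
  rw [← A_const_mul]
  refine (abs_A_sub_le_A _ _ _).trans (A_mono (fun y => ?_) x)
  rw [← sub_mul, mul_comm c]
  exact abs_mul_le' le_rfl (hh y)

theorem Qf_near (h1 : jc ≤ jb) {b c d : ℝ} (hn : Near jc b P' P) {φ h h' : Ω → ℝ}
    (hφ : ∀ x, |φ x| ≤ 1) (hh : ∀ x, |h x| ≤ c) (hd : ∀ x, |h' x - h x| ≤ d) (ω : Ω) :
    |Qf P' jc jb n φ h' ω - Qf P jc jb n φ h ω| ≤ 3 * b * c + d := by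
  have b0 : ∀ x, |φ x * h x| ≤ c := fun x => by simpa using abs_mul_le' (hφ x) (hh x)
  refine (hn.A h1 n (fun x => abs_mul_le' (abs_A_le b0 x) (abs_A_le hφ x))
    (fun x => abs_mul_sub_mul_le (abs_A_le hφ x) (abs_A_le b0 x) (hn.A le_rfl jb b0 (d := d)
      (fun y => ?_) x) (hn jc le_rfl jb φ 1 hφ x)) ω).trans (le_of_eq (by ring))
  rw [← mul_sub]
  simpa using abs_mul_le' (hφ y) (hd y)

theorem abs_Qf_le (h1 : jc ≤ jb) (h2 : jb ≤ n) {φ : Ω → ℝ} (hφ : ∀ x, |φ x| ≤ 1) (g : Ω → ℝ)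
    (m : ℝ) (ω : Ω) : |Qf P jc jb n φ (A P 0 jc g) ω| ≤ A P 0 n (fun x => |g x - m|) ω + |m| := by
  have k : |Qf P jc jb n φ (A P 0 jc g) ω| ≤ A P 0 n (fun x => |g x|) ω := by
    rw [← A_A' (Nat.zero_le jc) (h1.trans h2), ← A_A' h1 h2]
    refine (abs_A_le_A _ _).trans (A_mono (fun x => ?_) ω)
    rw [← mul_one (A P jc jb (fun x => A P 0 jc _ x) x)]
    refine abs_mul_le' ((abs_A_le_A _ _).trans (A_mono (fun y => ?_) x)) (abs_A_le hφ x)
    simpa using abs_mul_le' (hφ y) (abs_A_le_A (P := P) (j := 0) (p := jc) g y)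
  refine k.trans ((A_mono (G := fun x => |g x - m| + |m|) (fun x => ?_) ω).trans (le_of_eq ?_))
  · simpa using abs_add_le (g x - m) m
  · rw [A_add, A_const']

theorem Qf_expect {C : Type} [Fintype C] [Nonempty C] (φ : Ω → ℝ) (g : C → Ω → ℝ) (ω : Ω) :
    Qf P jc jb n φ (A P 0 jc fun x => 𝔼 c, g c x) ω = 𝔼 c, Qf P jc jb n φ (A P 0 jc (g c)) ω := by
  simp only [Qf, A_expect, mul_expect, expect_mul]

end Vale.Agent.P168
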