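import Vale.Agent.P168.Chain

/-!
# P168: finite models, finite trial data, random systems
-/

namespace Vale.Agent.P168

open Finset PW
open scoped BigOperators

/-- A model whose clause function and field take finitely many values. -/
structure FM (K : ℕ) where
  Θ : Type
  [fΘ : Fintype Θ]
  p : PW Θ
  th : Θ → (Fin K → Bool) → ℝ
  Hh : Type
  [fH : Fintype Hh]
  q : PW Hh
  hv : Hh → ℝ

attribute [instance] FM.fΘ FM.fH

variable {K : ℕ}

/-- Pressure of a finite model. -/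
noncomputable def fpress (M : FM K) (lam : ℝ) (N : ℕ) : ℝ :=
  (1 / (N : ℝ)) * pois (lam * N) fun k => (PW.pi fun _ : Fin k => M.p).E fun c =>
    (PW.pi fun _ : Fin N => M.q).E fun h =>
      𝔼 idx : Fin k → Fin K → Fin N, logZ (fun l => M.th (c l)) idx fun i => M.hv (h i)

/-- Functionals acting on functions of messages. -/
abbrev Fn (K : ℕ) := (k : ℕ) → ((Fin k × Fin K → ℝ) → ℝ) → ℝ

noncomputable def fTU (M : FM K) (lam : ℝ) (τ : Fn K) : ℝ :=
  pois (K * lam) fun k => (PW.pi fun _ : Fin k => M.p).E fun c => M.q.E fun h =>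
    𝔼 ell : Fin k → Fin K, τ k (Uf (fun l => M.th (c l)) ell (M.hv h))

noncomputable def fTV (M : FM K) (lam : ℝ) (τ : Fn K) : ℝ :=
  pois ((K - 1) * lam) fun k => (PW.pi fun _ : Fin k => M.p).E fun c =>
    τ k (Vf fun l => M.th (c l))

/-- Finite trial data: a message is `xb i ω` with `i` of law `μ` (level `0` variable) and `ω` the
end point of the chain `Q` run from height `r` and state `st` down to height `0`. -/
structure FT where
  r : ℕ
  m : ℕ → ℝ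
  I : Type
  [fI : Fintype I]
  μ : PW I
  Ω : Type
  [fΩ : Fintype Ω]
  st : Ω
  Q : Ch Ω
  xb : I → Ω → ℝ
  m_pos : ∀ j, 0 < m j
  m_lt : ∀ j, m j < 1
  m_anti : Antitone m
  m_strict : ∀ j, j + 1 < r → m (j + 1) < m j
  xb_mem : ∀ i ω, -1 ≤ xb i ω ∧ xb i ω ≤ 1

attribute [instance] FT.fI FT.fΩ

/-- The finite trial functional. -/
noncomputable def TF (y : FT) {ι : Type} [Fintype ι] [DecidableEq ι] (Y : (ι → ℝ) → ℝ) : ℝ :=
  (PW.pi fun _ : ι => y.μ).E fun i => X y.m (piCh fun _ : ι => y.Q) 0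
    (fun ω => Real.log (Y fun l => y.xb (i l) (ω l))) y.r fun _ => y.st

/-- Average of `exp G` over independent spins with means `y`. -/
noncomputable def YG {ι : Type} [Fintype ι] [DecidableEq ι] (G : (ι → Bool) → ℝ) (y : ι → ℝ) : ℝ :=
  ∑ c : ι → Bool, Real.exp (G c) * ∏ l, (1 + y l * sp (c l)) / 2

/-! ### The interpolation increments -/

/-- Exponents with the spin level added at the bottom. -/
def FT.a (y : FT) : ℕ → ℝ
  | 0 => 1
  | j + 1 => y.m j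

/-- The message chain with a trivial step added at the bottom. -/
noncomputable def FT.Qs (y : FT) : Ch y.Ω
  | 0 => PW.pure
  | j + 1 => y.Q j

section incr
variable (y : FT) {Ωb : Type} [Fintype Ωb] (Pb : Ch Ωb) (ωb : Ωb) {S : Type} [Fintype S]
  (sg : S → Ωb → Bool)

noncomputable def D1 (ϑ : (Fin K → Bool) → ℝ) : ℝ :=
  𝔼 i : Fin K → S, X y.a Pb 0 (fun ω => ϑ fun j => sg (i j) ω) (y.r + 1) ωb

noncomputable def D2 (ϑ : (Fin K → Bool) → ℝ) : ℝ :=
  𝔼 l : Fin K, 𝔼 i : S, (PW.pi fun _ : Fin K => y.μ).E fun t =>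
    X y.a (prodCh Pb (piCh fun _ : Fin K => y.Qs)) 0
      (fun x => Real.log (∑ σ : Fin K → Bool with σ l = sg i x.1,
        Real.exp (ϑ σ) * ∏ j ∈ univ.erase l, (1 + y.xb (t j) (x.2 j) * sp (σ j)) / 2))
      (y.r + 1) (ωb, fun _ => y.st)

noncomputable def D3 (ϑ : (Fin K → Bool) → ℝ) : ℝ := TF y (YG ϑ)

noncomputable def DD (ϑ : (Fin K → Bool) → ℝ) : ℝ :=
  D1 y Pb ωb sg ϑ + (K - 1) * D3 y ϑ - K * D2 y Pb ωb sg ϑ

end incr

/-! ### Poisson operators -/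

section pop
variable {𝓜 : Type*} [AddCommMonoid 𝓜] {J : Type} [Fintype J]

/-- Adding one random term. -/
def Mop (μ : PW J) (ψ : J → 𝓜) (V : 𝓜 → ℝ) : 𝓜 → ℝ := fun x => μ.E fun j => V (x + ψ j)

/-- Adding a Poisson number of random terms. -/
noncomputable def Pop (t : ℝ) (μ : PW J) (ψ : J → 𝓜) (V : 𝓜 → ℝ) : 𝓜 → ℝ := fun x =>
  pois t fun k => (Mop μ ψ)^[k] V x

/-- Bounded increments. -/
def Inc (ψ : J → 𝓜) (V : 𝓜 → ℝ) (c : ℝ) : Prop := ∀ x j, |V (x + ψ j) - V x| ≤ c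

end pop

/-! ### Random hierarchical systems -/

/-- Equally spaced exponents. -/
noncomputable def al (n j : ℕ) : ℝ := 1 - (min j n : ℕ) / ((n : ℝ) + 1)

theorem al_zero (n : ℕ) : al n 0 = 1 := by simp [al]

theorem al_ge (n j : ℕ) : 1 / ((n : ℝ) + 1) ≤ al n j := by
  have h : ((min j n : ℕ) : ℝ) ≤ n := by exact_mod_cast min_le_right j n
  rw [al, le_sub_iff_add_le, ← add_div, div_le_one (by positivity)]
  linarith

theorem al_pos (n j : ℕ) : 0 < al n j := lt_of_lt_of_le (by positivity) (al_ge n j)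

theorem al_anti (n : ℕ) : Antitone (al n) := fun i j h => by
  have : ((min i n : ℕ) : ℝ) ≤ (min j n : ℕ) := by exact_mod_cast min_le_min_right n h
  simp only [al]
  gcongr

theorem al_of_le {n j : ℕ} (h : j ≤ n) : al n j = 1 - (j : ℝ) / ((n : ℝ) + 1) := by
  rw [al, min_eq_left h]

/-- Covariance. -/
def cov {α : Type} [Fintype α] (μ : PW α) (F G : α → ℝ) : ℝ :=
  μ.E (fun x => F x * G x) - μ.E F * μ.E G

/-- Squared Hilbert-Schmidt norm of the covariance matrix of a family of functions. -/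
noncomputable def hs {α I : Type} [Fintype α] [Fintype I] (μ : PW α) (φ : I → α → ℝ) : ℝ :=
  𝔼 i, 𝔼 i', cov μ (φ i) (φ i') ^ 2

/-- A random chain with spins. -/
structure RS where
  Z : Type
  [fZ : Fintype Z]
  ρ : PW Z
  Ω : Type
  [fΩ : Fintype Ω]
  P : Z → Ch Ω
  ω0 : Ω
  I : Type
  [fI : Fintype I]
  [nI : Nonempty I]
  sg : I → Ω → Bool

attribute [instance] RS.fZ RS.fΩ RS.fI RS.nI

/-- Indicator of a spin value. -/
noncomputable def ob {I Ω : Type} (sg : I → Ω → Bool) (i : I) (β : Bool) (ω : Ω) : ℝ :=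
  if sg i ω = β then 1 else 0

theorem ob_mem {I Ω : Type} (sg : I → Ω → Bool) (i : I) (β : Bool) (ω : Ω) :
    0 ≤ ob sg i β ω ∧ ob sg i β ω ≤ 1 := by
  unfold ob; split_ifs <;> norm_num

namespace RS
variable (S : RS)

/-- Average over the disorder and over the state at height `j` of the chain started at height `n`. -/
noncomputable def Eh (n j : ℕ) (F : S.Z → S.Ω → ℝ) : ℝ :=
  S.ρ.E fun z => A (S.P z) j n (F z) S.ω0

/-- The single-site feature attached to a tree. -/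
noncomputable def feat (J : ℕ → ℕ) {b : ℕ} (e : Sh Bool b) (z : S.Z) (i : S.I) : S.Ω → ℝ :=
  ev (co (S.P z) J) (ob S.sg i) e

noncomputable def HS (n : ℕ) (J : ℕ → ℕ) {b : ℕ} (e : Sh Bool b) : ℝ :=
  S.Eh n (J (b + 1)) fun z ω => hs (co (S.P z) J b ω) (S.feat J e z)

noncomputable def qq (n : ℕ) (J : ℕ → ℕ) {b : ℕ} (e : Sh Bool b) (j : ℕ) : ℝ :=
  S.Eh n j fun z ω => 𝔼 i, A (S.P z) (J b) j (S.feat J e z i) ω ^ 2

end RS

/-- `p` holds for every tree hanging below an edge of the given tree. -/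
def AllUp {Λ : Type} (p : ∀ b, Sh Λ b → Prop) : {b : ℕ} → Sh Λ b → Prop
  | _, .leaf _ => True
  | _, .up e => p _ e ∧ AllUp p e
  | _, .node e1 e2 => AllUp p e1 ∧ AllUp p e2

/-- The recursive covariance inequality for a family of random systems. -/
def GGfam {α : Type} (sys : ℕ → α → RS) : Prop :=
  ∀ (b : ℕ) (e : Sh Bool b) (ε : ℝ), 0 < ε → ∃ ξ : ℝ, 0 < ξ ∧ ∀ w : ℝ, 0 < w →
    ∃ ζ : ℝ, 0 < ζ ∧ ∃ n0 : ℕ, ∀ n, n0 ≤ n → ∀ (s : α) (J : ℕ → ℕ) (W : ℕ), J 0 = 0 →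
      (∀ b', b' ≤ b → J b' + W ≤ J (b' + 1)) → J (b + 1) < n → w * n ≤ W →
      AllUp (fun b' e' => (sys n s).qq n J e' (J (b' + 1) - W) - (sys n s).qq n J e' (J (b' + 1)) ≤ ξ
        ∧ (sys n s).HS n J e' ≤ ζ) e →
      al n (J (b + 1)) * (sys n s).HS n J e ≤ ε

/-- The perturbed free energy functional and its four properties. -/
def CoreProp {M : Type} (ι : M → Type) [∀ m, Fintype (ι m)] [∀ m, DecidableEq (ι m)]
    (G : ∀ m, (ι m → Bool) → ℝ) (ε : ℝ) (Ξ : ∀ N : ℕ, ((Fin N → Bool) → ℝ) → ℝ) : Prop :=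
  (∃ C : ℝ, ∀ N H, |Ξ N H - Real.log (∑ σ, Real.exp (H σ))| ≤ C) ∧
  (∀ N H H' (c : ℝ), (∀ σ, |H σ - H' σ| ≤ c) → |Ξ N H - Ξ N H'| ≤ c) ∧
  (∃ η : ℕ → ℝ, Filter.Tendsto η Filter.atTop (nhds 0) ∧ ∀ N, 0 < N → ∀ H' : (Fin (N + 1) → Bool) → ℝ,
    |Ξ (N + 1) H' - Ξ N fun σ => Real.log (∑ e : Bool, Real.exp (H' (Fin.cons e σ)))| ≤ η N) ∧
  ∀ N, 0 < N → ∀ H : (Fin N → Bool) → ℝ, ∃ (Y : Type) (_ : Fintype Y) (π : PW Y) (y : Y → FT),
    ∀ m, |(𝔼 i : ι m → Fin N, (Ξ N (fun σ => H σ + G m fun l => σ (i l)) - Ξ N H)) -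
      π.E fun t => TF (y t) (YG (G m))| ≤ ε

end Vale.Agent.P168
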