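import Vale.Agent.P168.KeyB

/-!
# P168: the key interpolation inequality
-/

namespace Vale.Agent.P168

open Finset PW MeasureTheory ProbabilityTheory
open scoped BigOperators

variable {K : ℕ} (y : FT) {Ωb : Type} [Fintype Ωb] (Pb : Ch Ωb) (ωb : Ωb) {S : Type} [Fintype S]
  [Nonempty S] (sg : S → Ωb → Bool)

theorem DD_lip (hK : 1 ≤ K) (u v : (Fin K → Bool) → ℝ) :
    |DD y Pb ωb sg u - DD y Pb ωb sg v| ≤ 2 * K * ‖u - v‖ :=
  DD_lipK y Pb ωb sg hK u v (norm_nonneg _) fun σ => norm_le_pi_norm (u - v) σ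

theorem continuous_DDK (hK : 1 ≤ K) : Continuous (DD (K := K) y Pb ωb sg) := by
  refine (LipschitzWith.of_dist_le_mul (K := 2 * K) fun u v => ?_).continuous
  rw [Real.dist_eq, dist_eq_norm]
  simpa using DD_lip y Pb ωb sg hK u v

theorem integral_EK {Ω : Type*} [MeasurableSpace Ω] (P : Measure Ω) {α : Type} [Fintype α]
    (μ : PW α) {F : α → Ω → ℝ} (h : ∀ a, Integrable (F a) P) :
    Integrable (fun ω => μ.E fun a => F a ω) P ∧
      ∫ ω, μ.E (fun a => F a ω) ∂P = μ.E fun a => ∫ ω, F a ω ∂P := by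
  unfold PW.E
  refine ⟨integrable_finsetSum _ fun a _ => (h a).const_mul _, ?_⟩
  rw [integral_finsetSum _ fun a _ => (h a).const_mul _]
  exact sum_congr rfl fun a _ => integral_const_mul _ _

section int
variable {Ω : Type*} [MeasurableSpace Ω] (P : Measure Ω) [IsProbabilityMeasure P] {b : Ω → ℝ}
  {f : Fin K → Ω → Bool → ℝ} (hbm : Measurable b) (hfm : ∀ j, Measurable (f j))
  (hb : ∀ ω, |b ω| ≤ 1) (hf : ∀ j ω s, |f j ω s| ≤ 1) (hind : iIndepFun f P)
  (hid : ∀ j j', IdentDistrib (f j) (f j') P P) (hbf : IndepFun b (fun ω j => f j ω) P)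

include hbm hfm hb hf hind hid hbf

theorem int_prodK (n : ℕ) (j0 : Fin K) (F : Fin K → (Bool → ℝ) → ℝ) (hF : ∀ j, Continuous (F j))
    (hF1 : ∀ j g, (∀ c, |g c| ≤ 1) → |F j g| ≤ 1) :
    Integrable (fun ω => (-b ω) ^ n * ∏ j, F j (f j ω)) P ∧
      ∫ ω, (-b ω) ^ n * ∏ j, F j (f j ω) ∂P =
        (∫ ω, (-b ω) ^ n ∂P) * ∏ j, ∫ ω, F j (f j0 ω) ∂P := by
  have hm : Measurable fun z : Fin K → Bool → ℝ => ∏ j, F j (z j) :=
    Finset.measurable_prod _ fun j _ => (hF j).measurable.comp (measurable_pi_apply j)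
  have hfm' : Measurable fun ω j => f j ω := measurable_pi_lambda _ hfm
  constructor
  · refine Integrable.of_bound (C := 1) ?_ (Filter.Eventually.of_forall fun ω => ?_)
    · exact ((hbm.neg.pow_const n).mul (hm.comp hfm')).aestronglyMeasurable
    · rw [Real.norm_eq_abs, abs_mul, abs_pow, abs_neg, abs_prod]
      exact mul_le_one₀ (pow_le_one₀ (abs_nonneg _) (hb ω))
        (prod_nonneg fun j _ => abs_nonneg _)
        (prod_le_one (fun j _ => abs_nonneg _) fun j _ => hF1 j _ (hf j ω))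
  · rw [hbf.integral_fun_comp_mul_comp (f := fun x : ℝ => (-x) ^ n)
      (g := fun z : Fin K → Bool → ℝ => ∏ j, F j (z j)) hbm.aemeasurable hfm'.aemeasurable
      (measurable_neg.pow_const n).aestronglyMeasurable hm.aestronglyMeasurable,
      hind.integral_fun_prod_comp (f := F) (fun j => (hfm j).aemeasurable)
        fun j => (hF j).measurable.aestronglyMeasurable]
    congr 1
    exact prod_congr rfl fun j _ => ((hid j j0).comp (hF j).measurable).integral_eq

theorem int_WK (hK : 2 ≤ K) (hKe : Even K) [Nonempty (Fin K)]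
    (hpos : ∀ n, 1 ≤ n → 0 ≤ ∫ ω, (-b ω) ^ n ∂P) {r : ℕ} (e : Sh Unit r) :
    Integrable (fun ω => W1K Pb ωb sg (b ω) (fun j => f j ω) e +
      (K - 1) * W3K y (b ω) (fun j => f j ω) e - K * W2K y Pb ωb sg (b ω) (fun j => f j ω) e) P ∧
    0 ≤ ∫ ω, (W1K Pb ωb sg (b ω) (fun j => f j ω) e +
      (K - 1) * W3K y (b ω) (fun j => f j ω) e -
        K * W2K y Pb ωb sg (b ω) (fun j => f j ω) e) ∂P := by
  obtain ⟨C, _, μ, lv, hrep⟩ := tree_repK Pb e
  have j0 : Fin K := ⟨0, by omega⟩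
  have e1 : (fun ω => W1K Pb ωb sg (b ω) (fun j => f j ω) e +
      (K - 1) * W3K y (b ω) (fun j => f j ω) e - K * W2K y Pb ωb sg (b ω) (fun j => f j ω) e) =
      fun ω => (unif (Fin K)).E fun l => (μ ωb).E fun c =>
        (-b ω) ^ e.nl * ∏ j, RK sg (lv c) (f j ω) +
          (K - 1) * ((-b ω) ^ e.nl * ∏ j, qK y e (f j ω)) -
          K * ((-b ω) ^ e.nl * ∏ j, if j = l then RK sg (lv c) (f j ω) else qK y e (f j ω)) := by
    funext ω
    rw [W1K_eq Pb ωb sg e (μ ωb) lv fun u => hrep u ωb, W3K_eq,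
      W2K_eq y Pb ωb sg e (μ ωb) lv fun u => hrep u ωb]
    simp only [E_sub, E_add, E_const, E_const_mul]
  have h1 := fun c => int_prodK P hbm hfm hb hf hind hid hbf e.nl j0 (fun _ => RK sg (lv c))
    (fun _ => continuous_RK sg _) fun _ g hg => abs_RK_le sg _ hg
  have h3 := int_prodK P hbm hfm hb hf hind hid hbf e.nl j0 (fun _ => qK y e)
    (fun _ => continuous_qK y e) fun _ g hg => abs_qK_le y e hg
  have h2 := fun c l => int_prodK P hbm hfm hb hf hind hid hbf e.nl j0
    (fun j g => if j = l then RK sg (lv c) g else qK y e g)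
    (fun j => by
      split_ifs
      exacts [continuous_RK sg _, continuous_qK y e])
    fun j g hg => by
      split_ifs
      exacts [abs_RK_le sg _ hg, abs_qK_le y e hg]
  have hi : ∀ (l : Fin K) c, Integrable (fun ω => (-b ω) ^ e.nl * ∏ j, RK sg (lv c) (f j ω) +
      (K - 1) * ((-b ω) ^ e.nl * ∏ j, qK y e (f j ω)) -
      K * ((-b ω) ^ e.nl * ∏ j, if j = l then RK sg (lv c) (f j ω) else qK y e (f j ω))) P :=
    fun l c => ((h1 c).1.add (h3.1.const_mul _)).sub ((h2 c l).1.const_mul _)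
  have h4 := fun l => integral_EK P (μ ωb) (hi l)
  have h5 := integral_EK P (unif (Fin K)) fun l => (h4 l).1
  rw [e1]
  refine ⟨h5.1, ?_⟩
  rw [h5.2]
  refine E_nonneg _ fun l => ?_
  rw [(h4 l).2]
  refine E_nonneg _ fun c => ?_
  rw [integral_sub ((h1 c).1.fun_add (h3.1.const_mul _)) ((h2 c l).1.const_mul _),
    integral_add (h1 c).1 (h3.1.const_mul _), integral_const_mul, integral_const_mul,
    (h1 c).2, h3.2, (h2 c l).2]
  have h6 : (∏ j, ∫ ω, (if j = l then RK sg (lv c) (f j0 ω) else qK y e (f j0 ω)) ∂P) =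
      (∫ ω, RK sg (lv c) (f j0 ω) ∂P) * (∫ ω, qK y e (f j0 ω) ∂P) ^ (K - 1) := by
    rw [← mul_prod_erase _ _ (mem_univ l)]
    simp only [if_true]
    congr 1
    rw [prod_congr rfl fun j hj => by simp only [if_neg (ne_of_mem_erase hj)]; rfl, prod_const,
      card_erase_of_mem (mem_univ l), card_univ, Fintype.card_fin]
  rw [h6, prod_const, prod_const, card_univ, Fintype.card_fin]
  have h7 := mul_nonneg (hpos e.nl e.nl_pos)
    (pow_tangentK hK hKe (∫ ω, RK sg (lv c) (f j0 ω) ∂P) (∫ ω, qK y e (f j0 ω) ∂P))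
  linarith

theorem key_bdK (hK : 2 ≤ K) (hKe : Even K) (hpos : ∀ n, 1 ≤ n → 0 ≤ ∫ ω, (-b ω) ^ n ∂P)
    {a : Ω → ℝ} (ha : ∀ ω, 0 < a ω) {s : ℝ} (hs0 : 0 ≤ s) (hs : s < 1) (hbs : ∀ ω, |b ω| ≤ s) :
    ∫ ω, DD y Pb ωb sg (clause a b f ω) ∂P ≤ 0 := by
  haveI : Nonempty (Fin K) := ⟨⟨0, by omega⟩⟩
  by_cases hint : Integrable (fun ω => DD y Pb ωb sg (clause a b f ω)) P
  swap
  · rw [integral_undef hint]
  have hK0 : (0 : ℝ) < K := by exact_mod_cast (by omega : 0 < K)
  refine le_of_forall_pos_le_add fun ε hε => ?_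
  obtain ⟨n, c, e, hc, hap⟩ := approxK y.a rfl y.a_posK y.a_antiK hs0 hs y.r
    (by positivity : 0 < ε / (2 * K))
  have hW := fun k => int_WK y Pb ωb sg P hbm hfm hb hf hind hid hbf hK hKe hpos (e k)
  have hs' := integrable_finsetSum univ fun k _ => (hW k).1.const_mul (c k)
  have h1 := integral_mono hint ((integrable_const (2 * K * (ε / (2 * K)))).sub hs') fun ω =>
    DD_expandK y Pb ωb sg hs c e hap (ha ω) (hbs ω) (g := fun j => f j ω) fun j => hf j ω
  refine h1.trans ?_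
  simp only [Pi.sub_apply]
  rw [integral_sub (integrable_const _) hs', integral_finsetSum _ fun k _ =>
    (hW k).1.const_mul (c k)]
  have h2 : 0 ≤ ∑ k, ∫ ω, c k * (W1K Pb ωb sg (b ω) (fun j => f j ω) (e k) +
      (K - 1) * W3K y (b ω) (fun j => f j ω) (e k) -
        K * W2K y Pb ωb sg (b ω) (fun j => f j ω) (e k)) ∂P := sum_nonneg fun k _ => by
    rw [integral_const_mul]; exact mul_nonneg (hc k) (hW k).2
  have h3 : 2 * K * (ε / (2 * K)) = ε := by field_simp
  simp only [integral_const, probReal_univ, smul_eq_mul, one_mul]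
  linarith

end int

theorem DD_constK (hK : 1 ≤ K) (c : ℝ) : DD (K := K) y Pb ωb sg (fun _ => c) = 0 := by
  haveI : Nonempty (Fin K) := ⟨⟨0, hK⟩⟩
  have h0 : ∀ x : Fin K → ℝ, Real.log (YG (fun _ : Fin K → Bool => c) x) = c := fun x => by
    have := YG_clauseK (K := K) (A := Real.exp c) (β := 0) (g := fun _ _ => 0) (Real.exp_pos c)
      (fun _ => by simp) x
    simp only [zero_mul, add_zero, mul_one, Real.log_exp] at this
    rw [this, Real.log_exp]
  have h1 : D1 (K := K) y Pb ωb sg (fun _ => c) = c := by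
    simp only [D1, ← E_unif, X_const y.a_posK, E_const]
  have h2 : D2 (K := K) y Pb ωb sg (fun _ => c) = c := by
    simp only [D2, ← E_unif]
    have : ∀ (l : Fin K) (e : Bool) (x : Fin K → ℝ), Real.log (∑ σ : Fin K → Bool with σ l = e,
        Real.exp c * ∏ j ∈ univ.erase l, (1 + x j * sp (σ j)) / 2) = c := fun l e x => by
      rw [sum_filter_YGK (fun _ => c) x l e, h0]
    simp only [this _ _ fun j => y.xb _ _, X_const y.a_posK, E_const]
  have h3 : D3 (K := K) y (fun _ => c) = c := by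
    simp only [D3, TF, h0, X_const y.m_pos, E_const]
  rw [DD, h1, h2, h3]; ring

theorem key_ineq (hK : 2 ≤ K) (hKe : Even K) {Ω : Type*} [MeasurableSpace Ω] (P : Measure Ω)
    [IsProbabilityMeasure P] (a b : Ω → ℝ) (f : Fin K → Ω → Bool → ℝ) (ham : Measurable a)
    (hbm : Measurable b) (hfm : ∀ j, Measurable (f j)) (ha : ∀ ω, 0 < a ω)
    (hb : ∀ ω, -1 < b ω ∧ b ω < 1) (hf : ∀ j ω s, -1 ≤ f j ω s ∧ f j ω s ≤ 1)
    (hθ : ∀ σ, Integrable (fun ω => clause a b f ω σ) P)
    (hpos : ∀ n, 1 ≤ n → 0 ≤ ∫ ω, (-b ω) ^ n ∂P) (hind : iIndepFun f P)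
    (hid : ∀ j j', IdentDistrib (f j) (f j') P P) (hbf : IndepFun b (fun ω j => f j ω) P) :
    ∫ ω, DD y Pb ωb sg (clause a b f ω) ∂P ≤ 0 := by
  have hK1 : 1 ≤ K := by omega
  have hb1 : ∀ ω, |b ω| < 1 := fun ω => abs_lt.mpr (hb ω)
  have hf1 : ∀ j ω s, |f j ω s| ≤ 1 := fun j ω s => abs_le.mpr (hf j ω s)
  have hx : ∀ ω (σ : Fin K → Bool), -1 < b ω * ∏ j, f j ω (σ j) := fun ω σ => by
    have := (abs_le.mp (abs_mul_prod_leK (le_refl |b ω|) (z := fun j => f j ω (σ j))
      fun j => hf1 _ _ _)).2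
    linarith [hb1 ω]
  set s : ℕ → ℝ := fun n => 1 - 1 / ((n : ℝ) + 1) with hsdef
  have hs0 : ∀ n, 0 ≤ s n := fun n => by
    have : 1 / ((n : ℝ) + 1) ≤ 1 := by
      rw [div_le_one (by positivity)]; linarith [(Nat.cast_nonneg n : (0 : ℝ) ≤ n)]
    simp only [hsdef]; linarith
  have hs1 : ∀ n, s n < 1 := fun n => by
    have : 0 < 1 / ((n : ℝ) + 1) := by positivity
    simp only [hsdef]; linarith
  have hst : Filter.Tendsto s Filter.atTop (nhds 1) := by
    have := tendsto_one_div_add_atTop_nhds_zero_nat.const_sub (1 : ℝ)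
    rwa [sub_zero] at this
  have hle : ∀ n, ∫ ω, DD y Pb ωb sg (clause a (fun ω => s n * b ω) f ω) ∂P ≤ 0 := fun n => by
    have hbs : ∀ ω, |s n * b ω| ≤ s n := fun ω => by
      rw [abs_mul, abs_of_nonneg (hs0 n)]
      exact mul_le_of_le_one_right (hs0 n) (hb1 ω).le
    refine key_bdK y Pb ωb sg P (hbm.const_mul _) hfm (fun ω => (hbs ω).trans (hs1 n).le) hf1 hind
      hid (hbf.comp (measurable_const_mul (s n)) measurable_id) hK hKe (fun k hk => ?_) ha (hs0 n)
      (hs1 n) hbs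
    have : ∀ ω, (-(s n * b ω)) ^ k = s n ^ k * (-b ω) ^ k := fun ω => by rw [← mul_pow]; ring_nf
    simp only [this]
    rw [integral_const_mul]
    exact mul_nonneg (pow_nonneg (hs0 n) k) (hpos k hk)
  have hp : ∀ n ω (σ : Fin K → Bool), 0 < 1 + s n * (b ω * ∏ j, f j ω (σ j)) := fun n ω σ => by
    have := hx ω σ
    by_cases h0 : 0 ≤ b ω * ∏ j, f j ω (σ j)
    · have := hs0 n
      positivity
    · nlinarith [hs0 n, hs1 n]
  refine le_of_tendsto' (tendsto_integral_of_dominated_convergence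
    (fun ω => 2 * K * (2 * ∑ σ, |clause a b f ω σ|)) (fun n => ?_) ?_ (fun n => ?_) ?_) hle
  · refine ((continuous_DDK y Pb ωb sg hK1).measurable.comp ?_).aestronglyMeasurable
    refine measurable_pi_lambda _ fun σ => ?_
    unfold clause
    refine Real.measurable_log.comp (ham.mul (measurable_const.add ((hbm.const_mul _).mul ?_)))
    exact Finset.measurable_prod _ fun j _ => (measurable_pi_apply (σ j)).comp (hfm j)
  · exact ((integrable_finsetSum _ fun σ _ => (hθ σ).abs).const_mul _).const_mul _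
  · refine Filter.Eventually.of_forall fun ω => ?_
    have h := DD_lipK y Pb ωb sg hK1 (clause a (fun ω => s n * b ω) f ω)
      (fun _ => clause a (fun ω => s n * b ω) f ω fun _ => true)
      (c := 2 * ∑ σ, |clause a b f ω σ|) (by positivity) fun σ => ?_
    · rwa [DD_constK y Pb ωb sg hK1, sub_zero] at h
    · have h1 := log_scaleK (hx ω σ) (hx ω fun _ => true) (hs0 n) (hs1 n).le
      have h2 := single_le_sum (f := fun σ => |clause a b f ω σ|) (fun _ _ => abs_nonneg _)
        (mem_univ σ)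
      have h3 := single_le_sum (f := fun σ => |clause a b f ω σ|) (fun _ _ => abs_nonneg _)
        (mem_univ fun _ => true)
      have h4 := abs_sub (clause a b f ω σ) (clause a b f ω fun _ => true)
      have h5 : ∀ τ : Fin K → Bool, clause a b f ω τ =
          Real.log (a ω) + Real.log (1 + b ω * ∏ j, f j ω (τ j)) := fun τ => by
        rw [clause, Real.log_mul (ha ω).ne' (by linarith [hx ω τ])]
      have h6 : ∀ τ : Fin K → Bool, clause a (fun ω => s n * b ω) f ω τ =
          Real.log (a ω) + Real.log (1 + s n * (b ω * ∏ j, f j ω (τ j))) := fun τ => by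
        rw [clause, mul_assoc (s n), Real.log_mul (ha ω).ne' (hp n ω τ).ne']
      rw [h6, h6, add_sub_add_left_eq_sub]
      have h7 : clause a b f ω σ - clause a b f ω (fun _ => true) =
          Real.log (1 + b ω * ∏ j, f j ω (σ j)) - Real.log (1 + b ω * ∏ j, f j ω true) := by
        rw [h5, h5]; ring
      rw [h7] at h4
      linarith
  · refine Filter.Eventually.of_forall fun ω => ?_
    refine ((continuous_DDK y Pb ωb sg hK1).tendsto _).comp (tendsto_pi_nhds.mpr fun σ => ?_)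
    unfold clause
    refine Filter.Tendsto.log ?_ (mul_pos (ha ω) (by linarith [hx ω σ])).ne'
    have := (((hst.mul_const (b ω)).mul_const (∏ j, f j ω (σ j))).const_add 1).const_mul (a ω)
    rwa [one_mul] at this

end Vale.Agent.P168
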