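import Vale.Agent.P168.Approx

/-!
# P168: algebraic preliminaries for the key inequality
-/

namespace Vale.Agent.P168

open Finset PW
open scoped BigOperators

theorem log_sum_leK {α : Type*} (s : Finset α) {w u v : α → ℝ} (hw : ∀ a ∈ s, 0 ≤ w a) {c : ℝ}
    (hc : 0 ≤ c) (h : ∀ a, u a ≤ v a + c) :
    Real.log (∑ a ∈ s, Real.exp (u a) * w a) ≤ Real.log (∑ a ∈ s, Real.exp (v a) * w a) + c := by
  by_cases h0 : ∀ a ∈ s, w a = 0
  · rw [sum_eq_zero fun a ha => by rw [h0 a ha, mul_zero],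
      sum_eq_zero fun a ha => by rw [h0 a ha, mul_zero]]
    simpa using hc
  · push Not at h0
    obtain ⟨a, ha, hne⟩ := h0
    have hp : ∀ z : α → ℝ, 0 < ∑ a ∈ s, Real.exp (z a) * w a := fun z =>
      sum_pos' (fun b hb => mul_nonneg (Real.exp_pos _).le (hw b hb))
        ⟨a, ha, mul_pos (Real.exp_pos _) (lt_of_le_of_ne (hw a ha) hne.symm)⟩
    rw [← Real.log_exp c, ← Real.log_mul (hp v).ne' (Real.exp_pos c).ne']
    refine Real.log_le_log (hp u) ?_
    rw [sum_mul]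
    refine sum_le_sum fun b hb => ?_
    rw [mul_right_comm, ← Real.exp_add]
    exact mul_le_mul_of_nonneg_right (Real.exp_le_exp.mpr (h b)) (hw b hb)

theorem log_sum_lipK {α : Type*} (s : Finset α) {w u v : α → ℝ} (hw : ∀ a ∈ s, 0 ≤ w a) {c : ℝ}
    (hc : 0 ≤ c) (h : ∀ a, |u a - v a| ≤ c) :
    |Real.log (∑ a ∈ s, Real.exp (u a) * w a) - Real.log (∑ a ∈ s, Real.exp (v a) * w a)| ≤ c := by
  have h1 := log_sum_leK s hw hc (u := u) (v := v) fun a => by linarith [(abs_le.mp (h a)).2]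
  have h2 := log_sum_leK s hw hc (u := v) (v := u) fun a => by linarith [(abs_le.mp (h a)).1]
  rw [abs_le]; constructor <;> linarith

theorem wt_nonnegK {x : ℝ} (hx : -1 ≤ x ∧ x ≤ 1) (c : Bool) : 0 ≤ (1 + x * sp c) / 2 := by
  cases c <;> simp only [sp] <;> norm_num <;> linarith [hx.1, hx.2]

theorem FT.a_posK (y : FT) : ∀ j, 0 < y.a j
  | 0 => one_pos
  | j + 1 => y.m_pos j

theorem FT.a_antiK (y : FT) : Antitone y.a := by
  refine antitone_nat_of_succ_le fun j => ?_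
  cases j with
  | zero => exact (y.m_lt 0).le
  | succ j => exact y.m_anti (Nat.le_succ j)

/-- The mean of `g` under the spin law with magnetisation `x`. -/
noncomputable def fbarK (g : Bool → ℝ) (x : ℝ) : ℝ := ∑ c, g c * ((1 + x * sp c) / 2)

theorem fbarK_sp (g : Bool → ℝ) (e : Bool) : fbarK g (sp e) = g e := by
  cases e <;> simp [fbarK, sp]

theorem abs_fbarK_le {g : Bool → ℝ} (hg : ∀ c, |g c| ≤ 1) {x : ℝ} (hx : -1 ≤ x ∧ x ≤ 1) :
    |fbarK g x| ≤ 1 := by
  have h1 := abs_le.mp (hg true)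
  have h2 := abs_le.mp (hg false)
  simp only [fbarK, Fintype.sum_bool, sp]
  norm_num
  rw [abs_le]; constructor <;> nlinarith [hx.1, hx.2]

theorem continuous_fbarK (x : ℝ) : Continuous fun g : Bool → ℝ => fbarK g x := by
  unfold fbarK; fun_prop

variable {K : ℕ}

theorem YG_clauseK {A β : ℝ} (hA : 0 < A) {g : Fin K → Bool → ℝ}
    (hp : ∀ σ : Fin K → Bool, 0 < 1 + β * ∏ j, g j (σ j)) (x : Fin K → ℝ) :
    YG (fun σ => Real.log (A * (1 + β * ∏ j, g j (σ j)))) x =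
      A * (1 + β * ∏ j, fbarK (g j) (x j)) := by
  have h1 : ∑ σ : Fin K → Bool, ∏ j, (1 + x j * sp (σ j)) / 2 = 1 := by
    rw [← Fintype.piFinset_univ, ← prod_univ_sum (fun _ => univ) fun j c => (1 + x j * sp c) / 2]
    refine prod_eq_one fun j _ => ?_
    simp [sp]; ring
  have h2 : ∏ j, fbarK (g j) (x j) =
      ∑ σ : Fin K → Bool, (∏ j, g j (σ j)) * ∏ j, (1 + x j * sp (σ j)) / 2 := by
    simp only [fbarK, ← prod_mul_distrib]
    rw [prod_univ_sum (fun _ => univ) fun j c => g j c * ((1 + x j * sp c) / 2),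
      Fintype.piFinset_univ]
  have h3 : ∀ σ : Fin K → Bool, Real.exp (Real.log (A * (1 + β * ∏ j, g j (σ j)))) *
      ∏ j, (1 + x j * sp (σ j)) / 2 = A * (∏ j, (1 + x j * sp (σ j)) / 2 +
        β * ((∏ j, g j (σ j)) * ∏ j, (1 + x j * sp (σ j)) / 2)) := fun σ => by
    rw [Real.exp_log (mul_pos hA (hp σ))]
    generalize ∏ j, (1 + x j * sp (σ j)) / 2 = w
    ring
  rw [h2, YG, sum_congr rfl fun σ _ => h3 σ, ← mul_sum, sum_add_distrib, h1, ← mul_sum]

theorem sum_filter_YGK (ϑ : (Fin K → Bool) → ℝ) (x : Fin K → ℝ) (l : Fin K) (e : Bool) :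
    ∑ σ : Fin K → Bool with σ l = e, Real.exp (ϑ σ) * ∏ j ∈ univ.erase l, (1 + x j * sp (σ j)) / 2 =
      YG ϑ (Function.update x l (sp e)) := by
  rw [YG, sum_filter]
  refine sum_congr rfl fun σ _ => ?_
  rw [← mul_prod_erase _ _ (mem_univ l), Function.update_self]
  have h : ∏ j ∈ univ.erase l, (1 + Function.update x l (sp e) j * sp (σ j)) / 2 =
      ∏ j ∈ univ.erase l, (1 + x j * sp (σ j)) / 2 :=
    prod_congr rfl fun j hj => by rw [Function.update_of_ne (ne_of_mem_erase hj)]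
  rw [h]
  split_ifs with hσ
  · rw [hσ, sp_sq]; norm_num
  · have : σ l = !e := by cases e <;> cases h' : σ l <;> simp_all
    rw [this, sp_not, mul_neg, sp_sq]; norm_num

theorem prod_update_fbarK (g : Fin K → Bool → ℝ) (x : Fin K → ℝ) (l : Fin K) (e : Bool) :
    ∏ j, fbarK (g j) (Function.update x l (sp e) j) =
      g l e * ∏ j, if j = l then 1 else fbarK (g j) (x j) := by
  rw [← mul_prod_erase _ _ (mem_univ l), ← mul_prod_erase _ _ (mem_univ l), Function.update_self,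
    fbarK_sp, if_pos rfl, one_mul]
  congr 1
  refine prod_congr rfl fun j hj => ?_
  rw [Function.update_of_ne (ne_of_mem_erase hj), if_neg (ne_of_mem_erase hj)]

theorem shiftK (y : FT) {ι : Type} [Fintype ι] [DecidableEq ι] (G : (ι → y.Ω) → ℝ) (p : ℕ) :
    X y.a (piCh fun _ : ι => y.Qs) 0 G (p + 1) = X y.m (piCh fun _ : ι => y.Q) 0 G p := by
  induction p with
  | zero =>
    funext ω
    rw [X_succ le_rfl, X_of_le le_rfl, X_of_le le_rfl]
    simp only [piCh, FT.Qs, pi_pure]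
    exact lam_pure one_pos _ _
  | succ p ih =>
    funext ω
    rw [X_succ (Nat.zero_le _), X_succ (Nat.zero_le _), ih]
    rfl

theorem tree_repK {Ω : Type} [Fintype Ω] (P : Ch Ω) {b : ℕ} (e : Sh Unit b) :
    ∃ (C : Type) (_ : Fintype C) (μ : Ω → PW C) (lv : C → List Ω), ∀ (u : Ω → ℝ) (ω : Ω),
      ev P (fun _ => u) e ω = (μ ω).E fun c => ((lv c).map u).prod := by
  induction e with
  | leaf x => exact ⟨Ω, inferInstance, PW.pure, fun c => [c], fun u ω => by simp [ev]⟩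
  | @up b e ih =>
    obtain ⟨C, _, μ, lv, h⟩ := ih
    exact ⟨C, inferInstance, fun ω => (P b ω).bind μ, lv, fun u ω => by
      rw [E_bind]; exact E_congr _ (h u)⟩
  | node e1 e2 ih1 ih2 =>
    obtain ⟨C, _, μ, lv, h⟩ := ih1
    obtain ⟨C', _, μ', lv', h'⟩ := ih2
    refine ⟨C × C', inferInstance, fun ω => (μ ω).prod (μ' ω), fun c => lv c.1 ++ lv' c.2,
      fun u ω => ?_⟩
    simp only [ev, h, h', List.map_append, List.prod_append]
    exact (E_prod_mul _ _ _ _).symm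

theorem list_prod_prodK {Ω ι : Type*} (s : Finset ι) (h : ι → Ω → ℝ) (L : List Ω) :
    (L.map fun x => ∏ j ∈ s, h j x).prod = ∏ j ∈ s, (L.map (h j)).prod := by
  induction L with
  | nil => simp
  | cons x L ih => simp only [List.map_cons, List.prod_cons, ih, prod_mul_distrib]

theorem abs_list_prod_leK {Ω : Type*} {u : Ω → ℝ} (hu : ∀ x, |u x| ≤ 1) (L : List Ω) :
    |(L.map u).prod| ≤ 1 := by
  induction L with
  | nil => simp
  | cons x L ih =>
    rw [List.map_cons, List.prod_cons, abs_mul]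
    exact mul_le_one₀ (hu x) (abs_nonneg _) ih

theorem ev_oneK {Ω Λ : Type} [Fintype Ω] (P : Ch Ω) {b : ℕ} (e : Sh Λ b) :
    ev P (fun _ _ => 1) e = fun _ => 1 := by
  induction e with
  | leaf x => rfl
  | up e ih => funext ω; simp [ev, ih]
  | node e1 e2 ih1 ih2 => funext ω; simp [ev, ih1, ih2]

theorem continuous_EK {α Z : Type} [Fintype α] [TopologicalSpace Z] (μ : PW α) {F : Z → α → ℝ}
    (h : ∀ a, Continuous fun z => F z a) : Continuous fun z => μ.E (F z) := by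
  unfold PW.E
  exact continuous_finsetSum _ fun a _ => continuous_const.mul (h a)

theorem continuous_evK {Ω Z : Type} [Fintype Ω] [TopologicalSpace Z] (P : Ch Ω) {o : Z → Ω → ℝ}
    (h : ∀ ω, Continuous fun z => o z ω) {b : ℕ} (e : Sh Unit b) :
    ∀ ω, Continuous fun z => ev P (fun _ => o z) e ω := by
  induction e with
  | leaf x => exact h
  | up e ih => exact fun ω => continuous_EK _ ih
  | node e1 e2 ih1 ih2 => exact fun ω => (ih1 ω).mul (ih2 ω)

theorem E_apK {α : Type} [Fintype α] (μ : PW α) {n : ℕ} (c : Fin n → ℝ) {F : α → ℝ}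
    {G : Fin n → α → ℝ} {ε : ℝ} (h : ∀ a, |F a + ∑ k, c k * G k a| ≤ ε) :
    |μ.E F + ∑ k, c k * μ.E (G k)| ≤ ε := by
  have := μ.abs_E_le_const h
  rwa [E_add, E_sum, sum_congr rfl fun k _ => μ.E_const_mul (c k) (G k)] at this

theorem approxK (m : ℕ → ℝ) (hm0 : m 0 = 1) (hpos : ∀ j, 0 < m j) (hanti : Antitone m) {t : ℝ}
    (ht0 : 0 ≤ t) (ht : t < 1) (r : ℕ) {ε : ℝ} (hε : 0 < ε) :
    ∃ (n : ℕ) (c : Fin n → ℝ) (e : Fin n → Sh Unit (r + 1)), (∀ k, 0 ≤ c k) ∧
      ∀ (Ω : Type) [Fintype Ω] (P : Ch Ω) (u : Ω → ℝ), (∀ ω, |u ω| ≤ t) → ∀ ω,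
        |X m P 0 (fun ω => Real.log (1 - u ω)) (r + 1) ω +
          ∑ k, c k * ev P (fun _ => u) (e k) ω| ≤ ε := by
  obtain ⟨l, hl, h⟩ := approx m hm0 hpos hanti ht0 ht r hε
  refine ⟨l.length, fun k => l[k.1].1, fun k => l[k.1].2, fun k => hl _ (List.getElem_mem _),
    fun Ω _ P u hu ω => ?_⟩
  rw [Fin.sum_univ_fun_getElem l fun x => x.1 * ev P (fun _ => u) x.2 ω]
  exact h Ω P u hu ω

theorem pow_tangentK (hK : 2 ≤ K) (hKe : Even K) (R q : ℝ) :
    0 ≤ R ^ K + (K - 1) * q ^ K - K * (R * q ^ (K - 1)) := by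
  obtain ⟨n, rfl⟩ : ∃ n, K = n + 1 := ⟨K - 1, by omega⟩
  simp only [Nat.add_sub_cancel]
  by_cases hq : q = 0
  · subst hq
    rw [zero_pow (by omega), zero_pow (by omega)]
    simpa using hKe.pow_nonneg R
  · obtain ⟨z, rfl⟩ : ∃ z, R = q * z := ⟨R / q, by field_simp⟩
    have h1 : 0 ≤ q ^ (n + 1) := hKe.pow_nonneg q
    have h2 : 1 + ((n + 1 : ℕ) : ℝ) * (z - 1) ≤ z ^ (n + 1) := by
      by_cases hz : -1 ≤ z
      · have := one_add_mul_le_pow (a := z - 1) (by linarith) (n + 1)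
        rwa [add_sub_cancel] at this
      · have h3 : 0 ≤ z ^ (n + 1) := hKe.pow_nonneg z
        have h4 : (1 : ℝ) ≤ ((n + 1 : ℕ) : ℝ) := by exact_mod_cast Nat.succ_pos n
        nlinarith
    have := mul_nonneg h1 (sub_nonneg.mpr h2)
    rw [mul_pow]
    rw [pow_succ q n] at this ⊢
    linarith

theorem log_scaleK {x z s : ℝ} (hx : -1 < x) (hz : -1 < z) (hs0 : 0 ≤ s) (hs : s ≤ 1) :
    |Real.log (1 + s * x) - Real.log (1 + s * z)| ≤ |Real.log (1 + x) - Real.log (1 + z)| := by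
  wlog h : z ≤ x generalizing x z
  · rw [abs_sub_comm, abs_sub_comm (Real.log (1 + x))]
    exact this hz hx (le_of_not_ge h)
  have hp : ∀ w : ℝ, -1 < w → 0 < 1 + s * w := fun w hw => by
    by_cases h0 : 0 ≤ w
    · positivity
    · nlinarith
  have h1 : Real.log (1 + s * z) ≤ Real.log (1 + s * x) :=
    Real.log_le_log (hp z hz) (by nlinarith)
  have h2 : Real.log (1 + z) ≤ Real.log (1 + x) := Real.log_le_log (by linarith) (by linarith)
  rw [abs_of_nonneg (by linarith), abs_of_nonneg (by linarith)]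
  have h3 : Real.log ((1 + s * x) * (1 + z)) ≤ Real.log ((1 + x) * (1 + s * z)) :=
    Real.log_le_log (mul_pos (hp x hx) (by linarith)) (by nlinarith)
  rw [Real.log_mul (hp x hx).ne' (by linarith), Real.log_mul (by linarith) (hp z hz).ne'] at h3
  linarith

end Vale.Agent.P168
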