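import Vale.Agent.P168.KeyA

/-!
# P168: pointwise tree expansion of the interpolation increment
-/

namespace Vale.Agent.P168

open Finset PW
open scoped BigOperators

variable {K : ℕ} (y : FT) {Ωb : Type} [Fintype Ωb] (Pb : Ch Ωb) (ωb : Ωb) {S : Type} [Fintype S]
  [Nonempty S] (sg : S → Ωb → Bool)

theorem DD_lipK (hK : 1 ≤ K) (u v : (Fin K → Bool) → ℝ) {c : ℝ} (hc : 0 ≤ c)
    (h : ∀ σ, |u σ - v σ| ≤ c) : |DD y Pb ωb sg u - DD y Pb ωb sg v| ≤ 2 * K * c := by
  haveI : Nonempty (Fin K) := ⟨⟨0, hK⟩⟩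
  have h1 : |D1 y Pb ωb sg u - D1 y Pb ωb sg v| ≤ c := by
    simp only [D1, ← E_unif]
    exact abs_E_sub_le_const _ fun i => abs_X_sub_le y.a_posK (fun ω => h _) _ _
  have h2 : |D2 y Pb ωb sg u - D2 y Pb ωb sg v| ≤ c := by
    simp only [D2, ← E_unif]
    refine abs_E_sub_le_const _ fun l => abs_E_sub_le_const _ fun i =>
      abs_E_sub_le_const _ fun t => abs_X_sub_le y.a_posK (fun x => ?_) _ _
    exact log_sum_lipK _ (fun σ _ => prod_nonneg fun j _ => wt_nonnegK (y.xb_mem _ _) _) hc h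
  have h3 : |D3 y u - D3 y v| ≤ c := by
    simp only [D3, TF, YG]
    refine abs_E_sub_le_const _ fun t => abs_X_sub_le y.m_pos (fun x => ?_) _ _
    exact log_sum_lipK _ (fun σ _ => prod_nonneg fun j _ => wt_nonnegK (y.xb_mem _ _) _) hc h
  have hK' : (1 : ℝ) ≤ K := by exact_mod_cast hK
  have h4 := abs_le.mp h1
  have h5 := abs_le.mp h2
  have h6 := abs_le.mp h3
  simp only [DD]
  rw [abs_le]; constructor <;> nlinarith [h4.1, h4.2, h5.1, h5.2, h6.1, h6.2]

/-- Site average of a product over the leaves. -/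
noncomputable def RK (L : List Ωb) (g : Bool → ℝ) : ℝ :=
  (unif S).E fun i => (L.map fun ω => g (sg i ω)).prod

/-- Message average of a tree. -/
noncomputable def qK {b : ℕ} (e : Sh Unit b) (g : Bool → ℝ) : ℝ :=
  y.μ.E fun t => ev y.Qs (fun _ ω => fbarK g (y.xb t ω)) e y.st

theorem continuous_RK (L : List Ωb) : Continuous (RK sg L) :=
  continuous_EK _ fun i => continuous_list_prod L fun ω _ => continuous_apply (sg i ω)

theorem continuous_qK {b : ℕ} (e : Sh Unit b) : Continuous (qK y e) :=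
  continuous_EK _ fun t => continuous_evK y.Qs (o := fun g ω => fbarK g (y.xb t ω))
    (fun _ => continuous_fbarK _) e y.st

theorem abs_RK_le (L : List Ωb) {g : Bool → ℝ} (hg : ∀ c, |g c| ≤ 1) : |RK sg L g| ≤ 1 :=
  abs_E_le_const _ fun _ => abs_list_prod_leK (fun _ => hg _) L

theorem abs_qK_le {b : ℕ} (e : Sh Unit b) {g : Bool → ℝ} (hg : ∀ c, |g c| ≤ 1) :
    |qK y e g| ≤ 1 :=
  abs_E_le_const _ fun t => by
    simpa using abs_ev_le (P := y.Qs) (o := fun _ ω => fbarK g (y.xb t ω)) (c := 1)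
      (fun _ ω => abs_fbarK_le hg (y.xb_mem _ _)) e y.st

/-- First tree term. -/
noncomputable def W1K (β : ℝ) (g : Fin K → Bool → ℝ) {b : ℕ} (e : Sh Unit b) : ℝ :=
  (unif (Fin K → S)).E fun i => ev Pb (fun _ ω => -β * ∏ j, g j (sg (i j) ω)) e ωb

/-- Second tree term. -/
noncomputable def W2K [Nonempty (Fin K)] (β : ℝ) (g : Fin K → Bool → ℝ) {b : ℕ} (e : Sh Unit b) :
    ℝ :=
  (unif (Fin K)).E fun l => (unif S).E fun i => (PW.pi fun _ : Fin K => y.μ).E fun t =>
    ev (prodCh Pb (piCh fun _ : Fin K => y.Qs)) (fun _ x => -β * (g l (sg i x.1) *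
      ∏ j, if j = l then 1 else fbarK (g j) (y.xb (t j) (x.2 j)))) e (ωb, fun _ => y.st)

/-- Third tree term. -/
noncomputable def W3K (β : ℝ) (g : Fin K → Bool → ℝ) {b : ℕ} (e : Sh Unit b) : ℝ :=
  (PW.pi fun _ : Fin K => y.μ).E fun t => ev (piCh fun _ : Fin K => y.Qs)
    (fun _ x => -β * ∏ j, fbarK (g j) (y.xb (t j) (x j))) e fun _ => y.st

theorem abs_mul_prod_leK {β s : ℝ} (hβ : |β| ≤ s) {z : Fin K → ℝ} (hz : ∀ j, |z j| ≤ 1) :
    |-β * ∏ j, z j| ≤ s := by
  rw [abs_mul, abs_neg, abs_prod]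
  exact (mul_le_of_le_one_right (abs_nonneg _)
    (prod_le_one (fun j _ => abs_nonneg _) fun j _ => hz j)).trans hβ

theorem log_splitK {A u : ℝ} (hA : 0 < A) (hu : |u| < 1) :
    Real.log (A * (1 - u)) = Real.log (1 - u) + Real.log A := by
  rw [Real.log_mul hA.ne' (by linarith [(abs_lt.mp hu).2]), add_comm]

theorem DD_expandK [Nonempty (Fin K)] {s ε : ℝ} (hs : s < 1) {n : ℕ} (c : Fin n → ℝ)
    (e : Fin n → Sh Unit (y.r + 1))
    (hap : ∀ (Ω : Type) [Fintype Ω] (P : Ch Ω) (u : Ω → ℝ), (∀ ω, |u ω| ≤ s) → ∀ ω,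
      |X y.a P 0 (fun ω => Real.log (1 - u ω)) (y.r + 1) ω +
        ∑ k, c k * ev P (fun _ => u) (e k) ω| ≤ ε)
    {A β : ℝ} (hA : 0 < A) (hβ : |β| ≤ s) {g : Fin K → Bool → ℝ} (hg : ∀ j c, |g j c| ≤ 1) :
    DD y Pb ωb sg (fun σ => Real.log (A * (1 + β * ∏ j, g j (σ j)))) ≤ 2 * K * ε -
      ∑ k, c k * (W1K Pb ωb sg β g (e k) + (K - 1) * W3K y β g (e k) -
        K * W2K y Pb ωb sg β g (e k)) := by
  have hp : ∀ σ : Fin K → Bool, 0 < 1 + β * ∏ j, g j (σ j) := fun σ => by
    have := (abs_le.mp (abs_mul_prod_leK hβ (z := fun j => g j (σ j)) fun j => hg _ _)).2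
    linarith
  have h1 : |D1 y Pb ωb sg (fun σ => Real.log (A * (1 + β * ∏ j, g j (σ j)))) - Real.log A +
      ∑ k, c k * W1K Pb ωb sg β g (e k)| ≤ ε := by
    simp only [D1, ← E_unif, W1K]
    rw [← E_sub_const]
    refine E_apK _ c fun i => ?_
    have hu : ∀ ω, |-β * ∏ j, g j (sg (i j) ω)| ≤ s := fun ω =>
      abs_mul_prod_leK hβ fun j => hg _ _
    have h := hap _ Pb _ hu ωb
    have e1 : (fun ω => Real.log (A * (1 + β * ∏ j, g j (sg (i j) ω)))) =
        fun ω => Real.log (1 - -β * ∏ j, g j (sg (i j) ω)) + Real.log A := by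
      funext ω
      rw [← log_splitK hA ((hu ω).trans_lt hs)]; congr 2; ring
    rwa [e1, X_add_const y.a_posK, add_sub_cancel_right]
  have h2 : |D2 y Pb ωb sg (fun σ => Real.log (A * (1 + β * ∏ j, g j (σ j)))) - Real.log A +
      ∑ k, c k * W2K y Pb ωb sg β g (e k)| ≤ ε := by
    simp only [D2, ← E_unif, W2K]
    rw [← E_sub_const]
    refine E_apK _ c fun l => ?_
    rw [← E_sub_const]
    refine E_apK _ c fun i => ?_
    rw [← E_sub_const]
    refine E_apK _ c fun t => ?_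
    have hu : ∀ x : Ωb × (Fin K → y.Ω), |-β * (g l (sg i x.1) *
        ∏ j, if j = l then 1 else fbarK (g j) (y.xb (t j) (x.2 j)))| ≤ s := fun x => by
      rw [← prod_update_fbarK g (fun j => y.xb (t j) (x.2 j))]
      refine abs_mul_prod_leK hβ fun j => abs_fbarK_le (hg j) ?_
      by_cases hj : j = l
      · subst hj
        rw [Function.update_self]
        exact abs_le.mp (abs_sp _).le
      · rw [Function.update_of_ne hj]; exact y.xb_mem _ _
    have h := hap _ (prodCh Pb (piCh fun _ : Fin K => y.Qs)) _ hu (ωb, fun _ => y.st)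
    have e1 : (fun x : Ωb × (Fin K → y.Ω) => Real.log (∑ σ : Fin K → Bool with σ l = sg i x.1,
        Real.exp (Real.log (A * (1 + β * ∏ j, g j (σ j)))) *
          ∏ j ∈ univ.erase l, (1 + y.xb (t j) (x.2 j) * sp (σ j)) / 2)) =
        fun x => Real.log (1 - -β * (g l (sg i x.1) *
          ∏ j, if j = l then 1 else fbarK (g j) (y.xb (t j) (x.2 j)))) + Real.log A := by
      funext x
      rw [← log_splitK hA ((hu x).trans_lt hs),
        sum_filter_YGK (fun σ => Real.log (A * (1 + β * ∏ j, g j (σ j))))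
          (fun j => y.xb (t j) (x.2 j)), YG_clauseK hA hp, prod_update_fbarK]
      congr 2; ring
    rwa [e1, X_add_const y.a_posK, add_sub_cancel_right]
  have h3 : |D3 y (fun σ => Real.log (A * (1 + β * ∏ j, g j (σ j)))) - Real.log A +
      ∑ k, c k * W3K y β g (e k)| ≤ ε := by
    simp only [D3, TF, W3K]
    rw [← E_sub_const]
    refine E_apK _ c fun t => ?_
    have hu : ∀ x : Fin K → y.Ω, |-β * ∏ j, fbarK (g j) (y.xb (t j) (x j))| ≤ s := fun x =>
      abs_mul_prod_leK hβ fun j => abs_fbarK_le (hg j) (y.xb_mem _ _)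
    have h := hap _ (piCh fun _ : Fin K => y.Qs) _ hu fun _ => y.st
    have e1 : (fun x : Fin K → y.Ω => Real.log (YG (fun σ =>
        Real.log (A * (1 + β * ∏ j, g j (σ j)))) fun l => y.xb (t l) (x l))) =
        fun x => Real.log (1 - -β * ∏ j, fbarK (g j) (y.xb (t j) (x j))) + Real.log A := by
      funext x
      rw [← log_splitK hA ((hu x).trans_lt hs), YG_clauseK hA hp]
      congr 2; ring
    rw [e1, X_add_const y.m_pos, ← shiftK]
    simpa using h
  have hK : (1 : ℝ) ≤ K := by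
    have : 0 < K := Fin.pos_iff_nonempty.mpr inferInstance
    exact_mod_cast this
  have e2 : ∑ k, c k * (W1K Pb ωb sg β g (e k) + (K - 1) * W3K y β g (e k) -
      K * W2K y Pb ωb sg β g (e k)) = ∑ k, c k * W1K Pb ωb sg β g (e k) +
      (K - 1) * ∑ k, c k * W3K y β g (e k) - K * ∑ k, c k * W2K y Pb ωb sg β g (e k) := by
    simp only [mul_sum, ← sum_add_distrib, ← sum_sub_distrib]
    exact sum_congr rfl fun k _ => by ring
  rw [e2, DD]
  have h4 := (abs_le.mp h1).2
  have h5 := mul_le_mul_of_nonneg_left (abs_le.mp h2).1 (by linarith : (0 : ℝ) ≤ K)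
  have h6 := mul_le_mul_of_nonneg_left (abs_le.mp h3).2 (by linarith : (0 : ℝ) ≤ K - 1)
  linarith

section rep
variable {b : ℕ} (e : Sh Unit b) {C : Type} [Fintype C] (μ : PW C) (lv : C → List Ωb)
  (hrep : ∀ u : Ωb → ℝ, ev Pb (fun _ => u) e ωb = μ.E fun c => ((lv c).map u).prod)
  (β : ℝ) (g : Fin K → Bool → ℝ)

include hrep in
theorem W1K_eq : W1K Pb ωb sg β g e = μ.E fun c => (-β) ^ e.nl * ∏ j, RK sg (lv c) (g j) := by
  simp only [W1K, ev_const_mul]
  simp only [hrep, list_prod_prodK]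
  rw [E_const_mul, E_const_mul, E_comm]
  congr 1
  refine E_congr _ fun c => ?_
  rw [← pi_unif]
  exact E_pi_prod (fun _ : Fin K => unif S) fun j i => ((lv c).map fun ω => g j (sg i ω)).prod

theorem W3K_eq : W3K y β g e = (-β) ^ e.nl * ∏ j, qK y e (g j) := by
  simp only [W3K, ev_const_mul]
  rw [E_const_mul]
  congr 1
  have h1 : ∀ t : Fin K → y.I, ev (piCh fun _ : Fin K => y.Qs)
      (fun _ x => ∏ j, fbarK (g j) (y.xb (t j) (x j))) e (fun _ => y.st) =
      ∏ j, ev y.Qs (fun _ ω => fbarK (g j) (y.xb (t j) ω)) e y.st := fun t => by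
    rw [ev_pi (fun _ : Fin K => y.Qs) fun j (_ : Unit) ω => fbarK (g j) (y.xb (t j) ω)]
  simp only [h1]
  exact E_pi_prod (fun _ : Fin K => y.μ)
    fun j t => ev y.Qs (fun _ ω => fbarK (g j) (y.xb t ω)) e y.st

include hrep in
theorem W2K_eq [Nonempty (Fin K)] : W2K y Pb ωb sg β g e = (unif (Fin K)).E fun l => μ.E fun c =>
    (-β) ^ e.nl * ∏ j, if j = l then RK sg (lv c) (g j) else qK y e (g j) := by
  simp only [W2K, ev_const_mul]
  refine E_congr _ fun l => ?_
  have h1 : ∀ (i : S) (t : Fin K → y.I), ev (prodCh Pb (piCh fun _ : Fin K => y.Qs))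
      (fun _ x => g l (sg i x.1) * ∏ j, if j = l then 1 else fbarK (g j) (y.xb (t j) (x.2 j))) e
      (ωb, fun _ => y.st) = μ.E (fun c => ((lv c).map fun ω => g l (sg i ω)).prod) *
        ∏ j, if j = l then 1 else ev y.Qs (fun _ ω => fbarK (g j) (y.xb (t j) ω)) e y.st := by
    intro i t
    rw [ev_prod Pb (piCh fun _ : Fin K => y.Qs) (fun _ ω => g l (sg i ω))
      (fun _ x => ∏ j, if j = l then 1 else fbarK (g j) (y.xb (t j) (x j))),
      ev_pi (fun _ : Fin K => y.Qs)
        fun j (_ : Unit) ω => if j = l then 1 else fbarK (g j) (y.xb (t j) ω)]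
    simp only [hrep]
    congr 1
    refine prod_congr rfl fun j _ => ?_
    by_cases hj : j = l
    · simp only [if_pos hj, ev_oneK]
    · simp only [if_neg hj]
  have h2 : ((PW.pi fun _ : Fin K => y.μ).E fun t =>
      ∏ j, if j = l then 1 else ev y.Qs (fun _ ω => fbarK (g j) (y.xb (t j) ω)) e y.st) =
      ∏ j, if j = l then 1 else qK y e (g j) := by
    rw [E_pi_prod (fun _ : Fin K => y.μ) fun j t =>
      if j = l then 1 else ev y.Qs (fun _ ω => fbarK (g j) (y.xb t ω)) e y.st]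
    refine prod_congr rfl fun j _ => ?_
    by_cases hj : j = l
    · simp only [if_pos hj, E_const]
    · simp only [if_neg hj, qK]
  have h3 : ∀ c, (∏ j, if j = l then RK sg (lv c) (g j) else qK y e (g j)) =
      RK sg (lv c) (g l) * ∏ j, if j = l then 1 else qK y e (g j) := fun c => by
    rw [← mul_prod_erase _ _ (mem_univ l), ← mul_prod_erase _ _ (mem_univ l), if_pos rfl,
      if_pos rfl, one_mul]
    congr 1
    exact prod_congr rfl fun j hj => by simp only [if_neg (ne_of_mem_erase hj)]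
  simp only [h1, h3, E_const_mul, h2, E_mul_const]
  simp only [RK]
  rw [E_comm]

end rep

end Vale.Agent.P168
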