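import Vale.Agent.P168.Iface

/-!
# P168: covariances vanish in the limit at well chosen heights
-/

namespace Vale.Agent.P168

open Finset PW Filter
open scoped BigOperators Topology

/-- Coding of trees by numbers. -/
def encL : {b : ℕ} → Sh Bool b → ℕ
  | _, .leaf x => Nat.pair 0 x.toNat
  | _, .up e => Nat.pair 1 (encL e)
  | _, .node e1 e2 => Nat.pair 2 (Nat.pair (encL e1) (encL e2))

theorem encL_inj {b : ℕ} (e : Sh Bool b) : ∀ e' : Sh Bool b, encL e = encL e' → e = e' := by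
  induction e with
  | leaf x =>
    intro e' h
    cases e' with
    | leaf x' =>
      simp only [encL, Nat.pair_eq_pair, true_and] at h
      cases x <;> cases x' <;> simp_all
  | up e ih =>
    intro e' h
    cases e' with
    | up e' =>
      simp only [encL, Nat.pair_eq_pair, true_and] at h
      rw [ih e' h]
    | node e1 e2 => simp [encL, Nat.pair_eq_pair] at h
  | node e1 e2 ih1 ih2 =>
    intro e' h
    cases e' with
    | up e' => simp [encL, Nat.pair_eq_pair] at h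
    | node e1' e2' =>
      simp only [encL, Nat.pair_eq_pair, true_and] at h
      rw [ih1 e1' h.1, ih2 e2' h.2]

theorem countable_ShL (b : ℕ) : Countable (Sh Bool b) :=
  Function.Injective.countable (f := encL) fun e e' h => encL_inj e e' h

namespace RS
variable (S : RS) (n : ℕ) {J J' : ℕ → ℕ} {b : ℕ} (e : Sh Bool b)

theorem feat_memL (J : ℕ → ℕ) (z : S.Z) (i : S.I) (ω : S.Ω) :
    0 ≤ S.feat J e z i ω ∧ S.feat J e z i ω ≤ 1 :=
  ev_mem (fun β ω => ob_mem S.sg i β ω) e ω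

theorem qq_memL (J : ℕ → ℕ) (j : ℕ) : 0 ≤ S.qq n J e j ∧ S.qq n J e j ≤ 1 := by
  simp only [qq, Eh, ← E_unif]
  constructor
  · exact E_nonneg _ fun z => E_nonneg _ fun ω => E_nonneg _ fun i => sq_nonneg _
  · refine E_le_const _ fun z => E_le_const _ fun ω => E_le_const _ fun i => ?_
    rw [← sq_abs]
    refine pow_le_one₀ (abs_nonneg _) (abs_A_le (fun x => ?_) ω)
    rw [abs_of_nonneg (S.feat_memL e J z i x).1]
    exact (S.feat_memL e J z i x).2

theorem qq_antiL (J : ℕ → ℕ) {j j' : ℕ} (h1 : J b ≤ j) (h2 : j ≤ j') (h3 : j' ≤ n) :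
    S.qq n J e j' ≤ S.qq n J e j := by
  simp only [qq, Eh, ← E_unif]
  refine E_mono _ fun z => ?_
  rw [← A_A h2 _ n h3]
  refine E_mono _ fun ω => ?_
  rw [A, E_comm]
  refine E_mono _ fun i => ?_
  rw [← A_A h1 _ j' h2]
  exact E_sq_le _ _

theorem qq_congrL (h : ∀ i, i ≤ b → J i = J' i) (j : ℕ) : S.qq n J e j = S.qq n J' e j := by
  have h1 : ∀ z i, S.feat J e z i = S.feat J' e z i := fun z i =>
    ev_congr _ e fun l hl => by
      funext ω
      simp only [co, h l hl.le, h (l + 1) hl]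
  simp only [qq, h1, h b le_rfl]

theorem HS_nonnegL (J : ℕ → ℕ) : 0 ≤ S.HS n J e := by
  simp only [HS, Eh, hs, ← E_unif]
  exact E_nonneg _ fun z => E_nonneg _ fun ω => E_nonneg _ fun i => E_nonneg _ fun i' =>
    sq_nonneg _

end RS

section lim
variable (S : ℕ → RS) (U : Ultrafilter ℕ)

/-- The clamped overlap profile. -/
noncomputable def qL (t : ℕ → ℝ) {b : ℕ} (e : Sh Bool b) (u : ℝ) (n : ℕ) : ℝ :=
  (S n).qq n (fun b => ⌊t b * n⌋₊) e (min (max ⌊u * n⌋₊ ⌊t b * n⌋₊) n)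

/-- The limiting overlap profile. -/
noncomputable def QL (t : ℕ → ℝ) {b : ℕ} (e : Sh Bool b) (u : ℝ) : ℝ :=
  limUnder U (qL S t e u)

theorem tendsto_qL (t : ℕ → ℝ) {b : ℕ} (e : Sh Bool b) (u : ℝ) :
    Tendsto (qL S t e u) U (𝓝 (QL S U t e u)) := by
  refine tendsto_nhds_limUnder ?_
  obtain ⟨x, -, hx⟩ := (isCompact_Icc (a := (0 : ℝ)) (b := 1)).ultrafilter_le_nhds
    (U.map (qL S t e u)) (by
      rw [Ultrafilter.coe_map, le_principal_iff, Filter.mem_map]
      exact Eventually.of_forall fun n => (S n).qq_memL n e _ _)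
  exact ⟨x, hx⟩

theorem QL_anti (t : ℕ → ℝ) {b : ℕ} (e : Sh Bool b) : Antitone (QL S U t e) := by
  intro u v huv
  refine le_of_tendsto_of_tendsto' (tendsto_qL S U t e v) (tendsto_qL S U t e u) fun n => ?_
  by_cases hb : ⌊t b * n⌋₊ ≤ n
  · refine (S n).qq_antiL n e _ (le_min (le_max_right _ _) hb) ?_ (min_le_right _ _)
    exact min_le_min_right _ (max_le_max_right _ (Nat.floor_le_floor (by gcongr)))
  · have : ∀ w : ℝ, min (max ⌊w * n⌋₊ ⌊t b * n⌋₊) n = n := fun w => by omega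
    simp only [qL, this, le_refl]

theorem QL_congr {t t' : ℕ → ℝ} {b : ℕ} (e : Sh Bool b) (h : ∀ i, i ≤ b → t i = t' i) :
    QL S U t e = QL S U t' e := by
  funext u
  have : qL S t e u = qL S t' e u := by
    funext n
    simp only [qL, h b le_rfl]
    exact (S n).qq_congrL n e (fun i hi => by simp only [h i hi]) _
  simp only [QL, this]

theorem exists_tL {κ : ℝ} (hκ : 0 < κ) (r : ℕ) :
    ∃ t : ℕ → ℝ, t 0 = 0 ∧ ∀ b, b < r → ((b + 1) * κ < t (b + 1) ∧ t (b + 1) < (b + 2) * κ) ∧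
      ∀ e : Sh Bool b, ContinuousAt (QL S U t e) (t (b + 1)) := by
  induction r with
  | zero => exact ⟨fun _ => 0, rfl, fun b hb => absurd hb (Nat.not_lt_zero b)⟩
  | succ r ih =>
    obtain ⟨t, ht0, ht⟩ := ih
    haveI := countable_ShL r
    have hc : (⋃ e : Sh Bool r, {x | ¬ContinuousAt (QL S U t e) x}).Countable :=
      Set.countable_iUnion fun e => (QL_anti S U t e).countable_not_continuousAt
    obtain ⟨x, hx, hx'⟩ := (hc.dense_compl ℝ).exists_between
      (show ((r : ℝ) + 1) * κ < (r + 2) * κ by nlinarith)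
    have hcg : ∀ b, b ≤ r → ∀ e : Sh Bool b,
        QL S U (Function.update t (r + 1) x) e = QL S U t e := fun b hb e =>
      QL_congr S U e fun i hi => Function.update_of_ne (by omega) _ _
    refine ⟨Function.update t (r + 1) x, by rw [Function.update_of_ne (by omega), ht0],
      fun b hb => ?_⟩
    rcases Nat.lt_succ_iff_lt_or_eq.mp hb with hb | rfl
    · rw [Function.update_of_ne (by omega)]
      exact ⟨(ht b hb).1, fun e => by rw [hcg b hb.le]; exact (ht b hb).2 e⟩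
    · rw [Function.update_self]
      refine ⟨hx', fun e => ?_⟩
      rw [hcg b le_rfl]
      by_contra h
      exact hx (Set.mem_iUnion.mpr ⟨e, h⟩)

end lim

theorem floor_gapL {x y w : ℝ} (hy : 0 ≤ y) (hw : 0 ≤ w) (h : y + w < x) :
    ∀ᶠ n : ℕ in atTop, ⌊y * n⌋₊ + ⌈w * n⌉₊ ≤ ⌊x * n⌋₊ := by
  have h1 : Tendsto (fun n : ℕ => (x - y - w) * n) atTop atTop :=
    tendsto_natCast_atTop_atTop.const_mul_atTop (by linarith)
  filter_upwards [h1.eventually_ge_atTop 2] with n hn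
  have h2 := Nat.floor_le (mul_nonneg hy (Nat.cast_nonneg n))
  have h3 := Nat.ceil_lt_add_one (mul_nonneg hw (Nat.cast_nonneg n))
  have h4 := Nat.lt_floor_add_one (x * n)
  have h5 : ((⌊y * n⌋₊ + ⌈w * n⌉₊ : ℕ) : ℝ) ≤ (⌊x * n⌋₊ : ℕ) := by
    push_cast; linarith
  exact_mod_cast h5

theorem allUp_evL {l : Filter ℝ} {U : Filter ℕ} {p : ℝ → ℝ → ℕ → ∀ b, Sh Bool b → Prop} {b : ℕ}
    (h : ∀ b', b' < b → ∀ e' : Sh Bool b', ∀ᶠ w in l, ∀ ζ, 0 < ζ → ∀ᶠ n in U, p w ζ n b' e')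
    {c : ℕ} (e : Sh Bool c) (hc : c ≤ b) :
    ∀ᶠ w in l, ∀ ζ, 0 < ζ → ∀ᶠ n in U, AllUp (p w ζ n) e := by
  induction e with
  | leaf x => exact Eventually.of_forall fun w ζ _ => Eventually.of_forall fun n => trivial
  | up e ih =>
    filter_upwards [h _ hc e, ih (by omega)] with w h1 h2 ζ hζ
    filter_upwards [h1 ζ hζ, h2 ζ hζ] with n h3 h4
    exact ⟨h3, h4⟩
  | node e1 e2 ih1 ih2 =>
    filter_upwards [ih1 hc, ih2 hc] with w h1 h2 ζ hζ
    filter_upwards [h1 ζ hζ, h2 ζ hζ] with n h3 h4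
    exact ⟨h3, h4⟩

theorem hs_limit {α : Type} (sys : ℕ → α → RS) (h : GGfam sys) (s : ℕ → α) (U : Ultrafilter ℕ)
    (hU : (U : Filter ℕ) ≤ atTop) {κ : ℝ} (hκ : 0 < κ) (r : ℕ) (hr : (r + 1) * κ < 1) :
    ∃ t : ℕ → ℝ, t 0 = 0 ∧ (∀ b, 1 ≤ b → b ≤ r → b * κ < t b ∧ t b < (b + 1) * κ) ∧
      ∀ b, b < r → ∀ e : Sh Bool b,
        Tendsto (fun n => (sys n (s n)).HS n (fun b => ⌊t b * n⌋₊) e) U (𝓝 0) := by
  obtain ⟨t, ht0, ht⟩ := exists_tL (fun n => sys n (s n)) U hκ r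
  have hlo : ∀ b, b ≤ r → b * κ ≤ t b ∧ t b < (b + 1) * κ := fun b hb => by
    cases b with
    | zero => simpa [ht0] using hκ
    | succ b =>
      have := (ht b hb).1
      push_cast
      constructor <;> linarith [this.1, this.2]
  have ht_nn : ∀ b, b ≤ r → 0 ≤ t b := fun b hb => le_trans (by positivity) (hlo b hb).1
  have ht_lt : ∀ b, b < r → t b < t (b + 1) := fun b hb => (hlo b hb.le).2.trans (ht b hb).1.1
  have ht_le : ∀ b, b ≤ r → t b < (r + 1) * κ := fun b hb => by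
    have : (b : ℝ) ≤ r := by exact_mod_cast hb
    exact (hlo b hb).2.trans_le (by gcongr)
  refine ⟨t, ht0, fun b hb1 hb => ?_, fun b => ?_⟩
  · obtain ⟨b, rfl⟩ : ∃ c, b = c + 1 := ⟨b - 1, by omega⟩
    have := (ht b hb).1
    push_cast
    constructor <;> linarith [this.1, this.2]
  induction b using Nat.strong_induction_on with
  | _ b ih =>
  intro hb e
  rw [Metric.tendsto_nhds]
  intro ε hε
  have hδ : 0 < 1 - (r + 1) * κ := by linarith
  obtain ⟨ξ, hξ, h1⟩ := h b e ((1 - (r + 1) * κ) * (ε / 2)) (by positivity)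
  have hw0 : ∀ {x y : ℝ}, x < y → ∀ᶠ w in 𝓝[>] (0 : ℝ), x + 2 * w < y := fun {x y} hxy => by
    have : Tendsto (fun w : ℝ => x + 2 * w) (𝓝 0) (𝓝 (x + 2 * 0)) :=
      (continuous_const.add (continuous_const.mul continuous_id)).tendsto 0
    exact (this.mono_left nhdsWithin_le_nhds).eventually (gt_mem_nhds (by linarith))
  have h2 := allUp_evL (l := 𝓝[>] 0) (U := U) (b := b) (p := fun w ζ n b' e' =>
    (sys n (s n)).qq n (fun b => ⌊t b * n⌋₊) e' (⌊t (b' + 1) * n⌋₊ - ⌈w * n⌉₊) -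
      (sys n (s n)).qq n (fun b => ⌊t b * n⌋₊) e' ⌊t (b' + 1) * n⌋₊ ≤ ξ ∧
      (sys n (s n)).HS n (fun b => ⌊t b * n⌋₊) e' ≤ ζ) (fun b' hb' e' => ?_) e le_rfl
  · have h3 : ∀ᶠ w in 𝓝[>] (0 : ℝ), ∀ b' ∈ range (b + 1), t b' + 2 * w < t (b' + 1) :=
      (eventually_all_finset _).mpr fun b' hb' => hw0 (ht_lt b' (by
        have := mem_range.mp hb'; omega))
    obtain ⟨w, ⟨hw1, hw2⟩, hw3⟩ := ((h2.and h3).and self_mem_nhdsWithin).exists
    have hw : 0 < w := hw3
    obtain ⟨ζ, hζ, n0, h4⟩ := h1 w hw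
    have h5 : ∀ᶠ n : ℕ in atTop, ∀ b' ∈ range (b + 1),
        ⌊t b' * n⌋₊ + ⌈w * n⌉₊ ≤ ⌊t (b' + 1) * n⌋₊ :=
      (eventually_all_finset _).mpr fun b' hb' => floor_gapL (ht_nn b' (by
        have := mem_range.mp hb'; omega)) hw.le (by linarith [hw2 b' hb'])
    filter_upwards [hw1 ζ hζ, hU h5, hU (eventually_ge_atTop n0), hU (eventually_gt_atTop 0)]
      with n h6 h7 h8 h9
    have hn : (0 : ℝ) < n := by exact_mod_cast h9
    have hx0 := ht_nn (b + 1) hb
    have hx1 := ht_le (b + 1) hb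
    have h10 : ⌊t (b + 1) * n⌋₊ < n := by
      rw [Nat.floor_lt (by positivity)]; nlinarith
    have h11 := h4 n h8 (s n) (fun b => ⌊t b * n⌋₊) ⌈w * n⌉₊ (by simp [ht0])
      (fun b' hb' => h7 b' (mem_range.mpr (by omega))) h10 (Nat.le_ceil _) h6
    have h12 : 1 - (r + 1) * κ ≤ al n ⌊t (b + 1) * n⌋₊ := by
      rw [al_of_le h10.le, sub_le_sub_iff_left, div_le_iff₀ (by positivity)]
      have := Nat.floor_le (show 0 ≤ t (b + 1) * n by positivity)
      nlinarith
    have h13 := (sys n (s n)).HS_nonnegL n e fun b => ⌊t b * n⌋₊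
    rw [Real.dist_eq, sub_zero, abs_of_nonneg h13]
    have h14 := (mul_le_mul_of_nonneg_right h12 h13).trans h11
    have := le_of_mul_le_mul_left h14 hδ
    linarith
  · have hb'r : b' < r := hb'.trans hb
    have hc : Tendsto (fun w : ℝ => QL (fun n => sys n (s n)) U t e' (t (b' + 1) - 2 * w)) (𝓝 0)
        (𝓝 (QL (fun n => sys n (s n)) U t e' (t (b' + 1)))) := by
      refine ((ht b' hb'r).2 e').tendsto.comp ?_
      have : Tendsto (fun w : ℝ => t (b' + 1) - 2 * w) (𝓝 0) (𝓝 (t (b' + 1) - 2 * 0)) :=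
        (continuous_const.sub (continuous_const.mul continuous_id)).tendsto 0
      simpa using this
    have h3 := (hc.mono_left (nhdsWithin_le_nhds (s := Set.Ioi 0))).eventually
      (gt_mem_nhds (lt_add_of_pos_right _ hξ))
    filter_upwards [h3, hw0 (ht_lt b' hb'r), self_mem_nhdsWithin] with w h4 h5 h6 ζ hζ
    have hw : 0 < w := h6
    have h7 := ((tendsto_qL (fun n => sys n (s n)) U t e' (t (b' + 1) - 2 * w)).sub
      (tendsto_qL (fun n => sys n (s n)) U t e' (t (b' + 1)))).eventually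
      (gt_mem_nhds (show _ < ξ by linarith))
    have hx0 := ht_nn b' hb'r.le
    have hx1 := ht_le (b' + 1) hb'r
    filter_upwards [h7, (ih b' hb' hb'r e').eventually (ge_mem_nhds hζ),
      hU (floor_gapL hx0 hw.le (show t b' + w < t (b' + 1) by linarith)),
      hU (floor_gapL (show 0 ≤ t (b' + 1) - 2 * w by linarith) hw.le
        (show t (b' + 1) - 2 * w + w < t (b' + 1) by linarith))] with n h8 h9 h10 h11
    refine ⟨?_, h9⟩
    have h12 : ⌊t (b' + 1) * n⌋₊ ≤ n := by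
      refine Nat.floor_le_of_le ?_
      have : (0 : ℝ) ≤ n := Nat.cast_nonneg n
      nlinarith
    simp only [qL] at h8
    rw [show min (max ⌊t (b' + 1) * n⌋₊ ⌊t b' * n⌋₊) n = ⌊t (b' + 1) * n⌋₊ by omega] at h8
    have h13 := (sys n (s n)).qq_antiL n e' (fun b => ⌊t b * n⌋₊)
      (j := min (max ⌊(t (b' + 1) - 2 * w) * n⌋₊ ⌊t b' * n⌋₊) n)
      (j' := ⌊t (b' + 1) * n⌋₊ - ⌈w * n⌉₊) (by omega) (by omega) (by omega)
    linarith

end Vale.Agent.P168
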