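import Vale.Agent.P168.Iface

/-!
# P168: helper lemmas for the decoupling of cavity functionals
-/

namespace Vale.Agent.P168

open Finset PW Filter
open scoped BigOperators Topology

section sand
variable {Ω : Type} [Fintype Ω] {P : Ch Ω} {J : ℕ → ℕ} {a m : ℕ → ℝ}

theorem co_le_XL (hm : ∀ b, 0 < m b) (hJ0 : J 0 = 0) (G : Ω → ℝ) (R : ℕ)
    (hJ : ∀ b < R, J b ≤ J (b + 1)) (h : ∀ b < R, ∀ i, J b ≤ i → i < J (b + 1) → m b ≤ a i) :
    ∀ ω, X m (co P J) 0 G R ω ≤ X a P 0 G (J R) ω := by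
  induction R with
  | zero => intro ω; rw [hJ0]; exact le_rfl
  | succ R ih =>
    intro ω
    have ih' := ih (fun b hb => hJ b (by omega)) (fun b hb => h b (by omega))
    rw [X_succ (Nat.zero_le _), ← X_X (Nat.zero_le (J R)) G _ (hJ R (by omega))]
    exact (lam_mono (hm R) _ ih').trans (lam_le_X (hm R) _ _ (h R (by omega)) ω)

theorem X_le_coL (ha : ∀ i, 0 < a i) (hm : ∀ b, 0 < m b) (hJ0 : J 0 = 0) (G : Ω → ℝ) (R : ℕ)
    (hJ : ∀ b < R, J b ≤ J (b + 1)) (h : ∀ b < R, ∀ i, J b ≤ i → i < J (b + 1) → a i ≤ m b) :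
    ∀ ω, X a P 0 G (J R) ω ≤ X m (co P J) 0 G R ω := by
  induction R with
  | zero => intro ω; rw [hJ0]; exact le_rfl
  | succ R ih =>
    intro ω
    have ih' := ih (fun b hb => hJ b (by omega)) (fun b hb => h b (by omega))
    rw [X_succ (Nat.zero_le _), ← X_X (Nat.zero_le (J R)) G _ (hJ R (by omega))]
    exact (X_le_lam ha (hm R) _ _ (h R (by omega)) ω).trans (lam_mono (hm R) _ ih')

theorem X_thetaL (ha : ∀ i, 0 < a i) {θ c : ℝ} (hθ : 0 < θ) (hθ1 : θ ≤ 1) {G : Ω → ℝ}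
    (hG : ∀ ω, |G ω| ≤ c) (p : ℕ) (ω : Ω) :
    X a P 0 G p ω - (1 - θ) * c ≤ θ * X (fun i => θ * a i) P 0 G p ω := by
  have h1 := congrFun (X_smul (P := P) (j := 0) ha hθ G p) ω
  have h2 := abs_X_sub_le (P := P) (j := 0) ha (G := G) (G' := fun ω => θ * G ω)
    (c := (1 - θ) * c) (fun x => by
      rw [show G x - θ * G x = (1 - θ) * G x by ring, abs_mul, abs_of_nonneg (by linarith)]
      exact mul_le_mul_of_nonneg_left (hG x) (by linarith)) p ω
  linarith [(abs_le.mp h2).2]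

theorem sandwichL (ha : ∀ i, 0 < a i) (hm : ∀ b, 0 < m b) (hJ0 : J 0 = 0) {θ c : ℝ} (hθ : 0 < θ)
    (hθ1 : θ ≤ 1) {G : Ω → ℝ} (hG : ∀ ω, |G ω| ≤ c) (R : ℕ) (hJ : ∀ b < R, J b ≤ J (b + 1))
    (h : ∀ b < R, ∀ i, J b ≤ i → i < J (b + 1) → θ * m b ≤ a i ∧ θ * a i ≤ m b) (ω : Ω) :
    |X a P 0 G (J R) ω - X m (co P J) 0 G R ω| ≤ 2 * (1 - θ) * c := by
  have h1 := co_le_XL (P := P) (a := a) (m := fun b => θ * m b) (fun b => mul_pos hθ (hm b)) hJ0 G R
    hJ (fun b hb i h1 h2 => (h b hb i h1 h2).1) ω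
  have h2 := X_le_coL (P := P) (a := fun i => θ * a i) (fun i => mul_pos hθ (ha i)) hm hJ0 G R
    hJ (fun b hb i h1 h2 => (h b hb i h1 h2).2) ω
  have h3 := X_thetaL (P := P) ha hθ hθ1 hG (J R) ω
  have h4 := X_thetaL (P := co P J) hm hθ hθ1 hG R ω
  have h5 := abs_le.mp (abs_X_le (P := P) (j := 0) ha hG (J R) ω)
  have h6 := abs_le.mp (abs_X_le (P := co P J) (j := 0) hm hG R ω)
  have h7 := mul_le_mul_of_nonneg_left h1 hθ.le
  have h8 := mul_le_mul_of_nonneg_left h2 hθ.le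
  have h9 : 0 ≤ 1 - θ := by linarith
  rw [abs_le]
  constructor <;> nlinarith

theorem X_shiftL (G : Ω → ℝ) (p : ℕ) : X a P 0 G (p + 1)
    = X (fun j => a (j + 1)) (fun j => P (j + 1)) 0 (X a P 0 G 1) p := by
  induction p with
  | zero => rfl
  | succ p ih => funext ω; rw [X_succ (Nat.zero_le _), X_succ (Nat.zero_le _), ih]

end sand

section up
variable {Ω I : Type} [Fintype Ω] [Fintype I] [Nonempty I]

omit [Nonempty I] in
theorem hs_nonnegL (μ : PW Ω) (φ : I → Ω → ℝ) : 0 ≤ hs μ φ :=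
  expect_nonneg fun _ _ => expect_nonneg fun _ _ => sq_nonneg _

theorem one_siteL (μ : PW Ω) (φ : I → Ω → ℝ) {g : Ω → ℝ} (hg : ∀ x, |g x| ≤ 1) :
    (unif I).E (fun a => |μ.E fun x => (φ a x - μ.E (φ a)) * g x|)
      ≤ Real.sqrt (Real.sqrt (hs μ φ)) := by
  set ψ : I → Ω → ℝ := fun a x => φ a x - μ.E (φ a) with hψ
  set c : I → ℝ := fun a => μ.E fun x => ψ a x * g x with hc
  set S := (unif I).E (fun a => c a ^ 2) with hS
  have S0 : 0 ≤ S := E_nonneg _ fun a => sq_nonneg _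
  refine ((unif I).E_abs_le_sqrt c).trans (Real.sqrt_le_sqrt ?_)
  have hcov : ∀ a a', μ.E (fun x => ψ a x * ψ a' x) = cov μ (φ a) (φ a') := by
    intro a a'
    have : ∀ x, ψ a x * ψ a' x = φ a x * φ a' x - μ.E (φ a') * φ a x - μ.E (φ a) * φ a' x
        + μ.E (φ a) * μ.E (φ a') := fun x => by simp only [hψ]; ring
    simp only [this, E_add, E_sub, E_const_mul, E_const, cov]
    ring
  have e1 : S = μ.E fun x => g x * (unif I).E fun a => c a * ψ a x := by
    simp only [← E_const_mul]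
    rw [E_comm]
    refine E_congr _ fun a => ?_
    rw [sq]
    conv_lhs => rw [hc]
    simp only [← E_mul_const]
    refine E_congr _ fun x => ?_
    simp only [hc]
    ring
  have e2 : μ.E (fun x => ((unif I).E fun a => c a * ψ a x) ^ 2)
      = ((unif I).prod (unif I)).E fun p => (c p.1 * c p.2) * cov μ (φ p.1) (φ p.2) := by
    simp only [← hcov, ← E_const_mul]
    rw [E_comm]
    refine E_congr _ fun x => ?_
    rw [sq, ← E_prod_mul]
    refine E_congr _ fun p => ?_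
    ring
  have e3 : ((unif I).prod (unif I)).E (fun p => (c p.1 * c p.2) ^ 2) = S ^ 2 := by
    simp only [mul_pow]
    rw [E_prod_mul (unif I) (unif I) (fun a => c a ^ 2) (fun a => c a ^ 2), sq]
  have e4 : ((unif I).prod (unif I)).E (fun p => cov μ (φ p.1) (φ p.2) ^ 2) = hs μ φ := by
    rw [E_prod]
    simp only [E_unif, hs]
  have h1 : S ^ 2 ≤ μ.E (fun x => ((unif I).E fun a => c a * ψ a x) ^ 2) := by
    have := μ.E_mul_sq_le g (fun x => (unif I).E fun a => c a * ψ a x)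
    rw [← e1] at this
    refine this.trans (mul_le_of_le_one_left (E_nonneg _ fun x => sq_nonneg _) ?_)
    refine E_le_const _ fun x => ?_
    rw [← sq_abs]
    exact pow_le_one₀ (abs_nonneg _) (hg x)
  have h2 := ((unif I).prod (unif I)).E_mul_sq_le (fun p => c p.1 * c p.2)
    (fun p => cov μ (φ p.1) (φ p.2))
  rw [← e2, e3, e4] at h2
  have h3 : (S ^ 2) ^ 2 ≤ S ^ 2 * hs μ φ := (pow_le_pow_left₀ (sq_nonneg _) h1 2).trans h2
  apply Real.le_sqrt_of_sq_le
  change S ^ 2 ≤ hs μ φ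
  rcases S0.eq_or_lt with h0 | h0
  · rw [← h0]; simpa using hs_nonnegL μ φ
  · have : 0 < S ^ 2 := by positivity
    nlinarith

theorem up_stepL {ι : Type} [Fintype ι] [DecidableEq ι] (μ : PW Ω) (φ : ι → I → Ω → ℝ)
    (hφ : ∀ l a x, 0 ≤ φ l a x ∧ φ l a x ≤ 1) (T : Finset ι) :
    (unif (ι → I)).E (fun i => |μ.E (fun x => ∏ l ∈ T, φ l (i l) x) - ∏ l ∈ T, μ.E (φ l (i l))|)
      ≤ ∑ l ∈ T, Real.sqrt (Real.sqrt (hs μ (φ l))) := by
  induction T using Finset.induction_on with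
  | empty => simp
  | insert l T hl ih =>
    simp only [prod_insert hl, sum_insert hl]
    have h1 : ∀ i : ι → I, |μ.E (fun x => φ l (i l) x * ∏ l' ∈ T, φ l' (i l') x)
        - μ.E (φ l (i l)) * ∏ l' ∈ T, μ.E (φ l' (i l'))|
        ≤ |μ.E fun x => (φ l (i l) x - μ.E (φ l (i l))) * ∏ l' ∈ T, φ l' (i l') x|
          + |μ.E (fun x => ∏ l' ∈ T, φ l' (i l') x) - ∏ l' ∈ T, μ.E (φ l' (i l'))| := by
      intro i
      have m0 : 0 ≤ μ.E (φ l (i l)) := E_nonneg _ fun x => (hφ l _ x).1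
      have m1 : μ.E (φ l (i l)) ≤ 1 := E_le_const _ fun x => (hφ l _ x).2
      have e : μ.E (fun x => φ l (i l) x * ∏ l' ∈ T, φ l' (i l') x)
          - μ.E (φ l (i l)) * ∏ l' ∈ T, μ.E (φ l' (i l'))
          = (μ.E fun x => (φ l (i l) x - μ.E (φ l (i l))) * ∏ l' ∈ T, φ l' (i l') x)
            + μ.E (φ l (i l)) *
              (μ.E (fun x => ∏ l' ∈ T, φ l' (i l') x) - ∏ l' ∈ T, μ.E (φ l' (i l'))) := by
        simp only [sub_mul, E_sub, E_const_mul]
        ring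
      rw [e]
      refine (abs_add_le _ _).trans (add_le_add_right ?_ _)
      rw [abs_mul, abs_of_nonneg m0]
      exact mul_le_of_le_one_left (abs_nonneg _) m1
    refine (E_mono _ h1).trans ?_
    rw [E_add]
    refine add_le_add ?_ ih
    rw [← pi_unif, ← E_pi_update _ l]
    refine E_le_const _ fun i => ?_
    have h2 : ∀ a x, ∏ l' ∈ T, φ l' (Function.update i l a l') x = ∏ l' ∈ T, φ l' (i l') x :=
      fun a x => prod_congr rfl fun l' hl' => by
        rw [Function.update_of_ne (show l' ≠ l from fun h => hl (h ▸ hl'))]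
    simp only [Function.update_self, h2]
    refine one_siteL μ (φ l) fun x => ?_
    rw [abs_of_nonneg (prod_nonneg fun l' _ => (hφ l' _ x).1)]
    exact prod_le_one (fun l' _ => (hφ l' _ x).1) fun l' _ => (hφ l' _ x).2

end up

theorem expandL {C : Type} [Fintype C] (u : C → ℝ) {b : ℕ} (e : Sh Unit b) :
    ∃ L : List (ℝ × Sh C b), ∀ (Ω : Type) [Fintype Ω] (P : Ch Ω) (o : C → Ω → ℝ) (ω : Ω),
      ev P (fun _ ω => ∑ c, u c * o c ω) e ω = (L.map fun x => x.1 * ev P o x.2 ω).sum := by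
  induction e with
  | leaf x =>
    refine ⟨univ.toList.map fun c => (u c, Sh.leaf c), fun Ω _ P o ω => ?_⟩
    simp only [List.map_map, ev]
    rw [← sum_map_toList]
    rfl
  | up e ih =>
    obtain ⟨L, hL⟩ := ih
    refine ⟨L.map fun x => (x.1, Sh.up x.2), fun Ω _ P o ω => ?_⟩
    simp only [ev, List.map_map]
    rw [E_congr _ (hL Ω P o)]
    clear hL
    induction L with
    | nil => simp
    | cons x L ih => simp only [List.map_cons, List.sum_cons, E_add, E_const_mul, ih]; rfl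
  | node e1 e2 ih1 ih2 =>
    obtain ⟨L, hL⟩ := ih1
    obtain ⟨L', hL'⟩ := ih2
    refine ⟨L.flatMap fun x => L'.map fun y => (x.1 * y.1, Sh.node x.2 y.2), fun Ω _ P o ω => ?_⟩
    simp only [ev, hL, hL']
    clear hL hL'
    induction L with
    | nil => simp
    | cons x L ih =>
      simp only [List.map_cons, List.sum_cons, List.flatMap_cons, List.map_append, List.sum_append,
        add_mul, ih, List.map_map]
      congr 1
      rw [← List.sum_map_mul_left]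
      congr 1
      refine List.map_congr_left fun y _ => ?_
      simp only [Function.comp, ev]
      ring

theorem list_tendstoL {τ : Type} {U : Filter ℕ} {Y : ℕ → Type} [∀ n, Fintype (Y n)]
    (μ : ∀ n, PW (Y n)) (f g : τ → ∀ n, Y n → ℝ) (L : List (ℝ × τ))
    (h : ∀ x ∈ L, Tendsto (fun n => (μ n).E fun y => |f x.2 n y - g x.2 n y|) U (𝓝 0)) :
    Tendsto (fun n => (μ n).E fun y =>
      |(L.map fun x => x.1 * f x.2 n y).sum - (L.map fun x => x.1 * g x.2 n y).sum|) U (𝓝 0) := by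
  induction L with
  | nil => simpa using tendsto_const_nhds
  | cons x L ih =>
    have h1 := (h x List.mem_cons_self).const_mul |x.1|
    have h2 := h1.add (ih fun y hy => h y (List.mem_cons_of_mem _ hy))
    simp only [mul_zero, add_zero] at h2
    refine squeeze_zero (fun n => E_nonneg _ fun y => abs_nonneg _) (fun n => ?_) h2
    rw [← E_const_mul, ← E_add]
    refine E_mono _ fun y => ?_
    simp only [List.map_cons, List.sum_cons]
    rw [← abs_mul]
    refine le_trans (le_of_eq ?_) (abs_add_le _ _)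
    congr 1
    ring

namespace RS
variable (S : RS)

/-- Joint law of the disorder and of the state at height `j`. -/
noncomputable def lawL (n j : ℕ) : PW (S.Z × S.Ω) :=
  S.ρ.bind fun z => (B (S.P z) j n S.ω0).map fun w => (z, w)

theorem E_lawL (n j : ℕ) (F : S.Z × S.Ω → ℝ) :
    (S.lawL n j).E F = S.Eh n j fun z w => F (z, w) := by
  simp only [lawL, E_bind, E_map, Eh, A]

theorem law_stepL {n : ℕ} {J : ℕ → ℕ} {b : ℕ} (h1 : J b ≤ J (b + 1)) (h2 : J (b + 1) ≤ n)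
    (F : S.Z × S.Ω → ℝ) :
    (S.lawL n (J (b + 1))).E (fun x => (co (S.P x.1) J b x.2).E fun w => F (x.1, w))
      = (S.lawL n (J b)).E F := by
  simp only [E_lawL, Eh]
  refine E_congr _ fun z => ?_
  rw [← A_A h1 _ n h2]
  rfl

/-- Defect of factorisation of a tree. -/
noncomputable def decL (n : ℕ) (J : ℕ → ℕ) {ι : Type} [Fintype ι] [DecidableEq ι] {b : ℕ}
    (e : Sh (ι → Bool) b) : ℝ :=
  ((S.lawL n (J b)).prod (unif (ι → S.I))).E fun x =>
    |ev (co (S.P x.1.1) J) (fun β ω => ∏ l, ob S.sg (x.2 l) (β l) ω) e x.1.2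
      - ∏ l, S.feat J (e.map fun β => β l) x.1.1 (x.2 l) x.1.2|

theorem feat_mem2L (J : ℕ → ℕ) {b : ℕ} (e : Sh Bool b) (z : S.Z) (i : S.I) (ω : S.Ω) :
    0 ≤ S.feat J e z i ω ∧ S.feat J e z i ω ≤ 1 := ev_mem (ob_mem S.sg i) e ω

theorem decL_nonneg (n : ℕ) (J : ℕ → ℕ) {ι : Type} [Fintype ι] [DecidableEq ι] {b : ℕ}
    (e : Sh (ι → Bool) b) : 0 ≤ S.decL n J e := E_nonneg _ fun _ => abs_nonneg _

theorem decL_leaf (n : ℕ) (J : ℕ → ℕ) {ι : Type} [Fintype ι] [DecidableEq ι] (β : ι → Bool) :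
    S.decL n J (Sh.leaf β) = 0 := by
  simp [decL, feat, Sh.map, ev]

theorem decL_node (n : ℕ) (J : ℕ → ℕ) {ι : Type} [Fintype ι] [DecidableEq ι] {b : ℕ}
    (e1 e2 : Sh (ι → Bool) (b + 1)) :
    S.decL n J (Sh.node e1 e2) ≤ S.decL n J e1 + S.decL n J e2 := by
  unfold decL
  rw [← E_add]
  refine E_mono _ fun x => ?_
  have hob : ∀ (β : ι → Bool) ω, 0 ≤ ∏ l, ob S.sg (x.2 l) (β l) ω ∧
      ∏ l, ob S.sg (x.2 l) (β l) ω ≤ 1 := fun β ω =>
    ⟨prod_nonneg fun l _ => (ob_mem _ _ _ _).1,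
      prod_le_one (fun l _ => (ob_mem _ _ _ _).1) fun l _ => (ob_mem _ _ _ _).2⟩
  have h2 := ev_mem (P := co (S.P x.1.1) J) hob e2 x.1.2
  have h3 : 0 ≤ ∏ l, S.feat J (e1.map fun β => β l) x.1.1 (x.2 l) x.1.2 :=
    prod_nonneg fun l _ => (S.feat_mem2L _ _ _ _ _).1
  have h4 : ∏ l, S.feat J (e1.map fun β => β l) x.1.1 (x.2 l) x.1.2 ≤ 1 :=
    prod_le_one (fun l _ => (S.feat_mem2L _ _ _ _ _).1) fun l _ => (S.feat_mem2L _ _ _ _ _).2
  have e : ∏ l, S.feat J ((Sh.node e1 e2).map fun β => β l) x.1.1 (x.2 l) x.1.2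
      = (∏ l, S.feat J (e1.map fun β => β l) x.1.1 (x.2 l) x.1.2) *
        ∏ l, S.feat J (e2.map fun β => β l) x.1.1 (x.2 l) x.1.2 := by
    rw [← prod_mul_distrib]; rfl
  rw [e]
  simp only [ev]
  set a1 := ev (co (S.P x.1.1) J) (fun β ω => ∏ l, ob S.sg (x.2 l) (β l) ω) e1 x.1.2
  set a2 := ev (co (S.P x.1.1) J) (fun β ω => ∏ l, ob S.sg (x.2 l) (β l) ω) e2 x.1.2
  set b1 := ∏ l, S.feat J (e1.map fun β => β l) x.1.1 (x.2 l) x.1.2
  set b2 := ∏ l, S.feat J (e2.map fun β => β l) x.1.1 (x.2 l) x.1.2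
  rw [show a1 * a2 - b1 * b2 = (a1 - b1) * a2 + b1 * (a2 - b2) by ring]
  refine (abs_add_le _ _).trans (add_le_add ?_ ?_)
  · rw [abs_mul, abs_of_nonneg h2.1]
    exact mul_le_of_le_one_right (abs_nonneg _) h2.2
  · rw [abs_mul, abs_of_nonneg h3]
    exact mul_le_of_le_one_left (abs_nonneg _) h4

theorem decL_eq {n : ℕ} {J : ℕ → ℕ} {ι : Type} [Fintype ι] [DecidableEq ι] {b : ℕ}
    (h1 : J b ≤ J (b + 1)) (h2 : J (b + 1) ≤ n) (e : Sh (ι → Bool) b) :
    S.decL n J e = (S.lawL n (J (b + 1))).E fun x => (unif (ι → S.I)).E fun i =>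
      (co (S.P x.1) J b x.2).E fun w =>
        |ev (co (S.P x.1) J) (fun β ω => ∏ l, ob S.sg (i l) (β l) ω) e w
          - ∏ l, S.feat J (e.map fun β => β l) x.1 (i l) w| := by
  unfold decL
  rw [E_prod, ← S.law_stepL h1 h2]
  refine E_congr _ fun x => ?_
  exact E_comm (co (S.P x.1) J b x.2) (unif (ι → S.I)) (fun w i =>
    |ev (co (S.P x.1) J) (fun β ω => ∏ l, ob S.sg (i l) (β l) ω) e w
      - ∏ l, S.feat J (e.map fun β => β l) x.1 (i l) w|)

theorem HS_rootL (n : ℕ) (J : ℕ → ℕ) {b : ℕ} (e : Sh Bool b) :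
    (S.lawL n (J (b + 1))).E (fun x => Real.sqrt (Real.sqrt
      (hs (co (S.P x.1) J b x.2) (S.feat J e x.1)))) ≤ Real.sqrt (Real.sqrt (S.HS n J e)) := by
  have e1 : S.HS n J e = (S.lawL n (J (b + 1))).E
      (fun x => hs (co (S.P x.1) J b x.2) (S.feat J e x.1)) := by
    rw [E_lawL]
    rfl
  rw [e1]
  exact (E_sqrt_le _ fun x => Real.sqrt_nonneg _).trans
    (Real.sqrt_le_sqrt (E_sqrt_le _ fun x => hs_nonnegL _ _))

theorem decL_up {n : ℕ} {J : ℕ → ℕ} {ι : Type} [Fintype ι] [DecidableEq ι] {b : ℕ}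
    (h1 : J b ≤ J (b + 1)) (h2 : J (b + 1) ≤ n) (e : Sh (ι → Bool) b) :
    S.decL n J (Sh.up e)
      ≤ S.decL n J e + ∑ l, Real.sqrt (Real.sqrt (S.HS n J (e.map fun β => β l))) := by
  have k2 := sum_le_sum fun l (_ : l ∈ (univ : Finset ι)) => S.HS_rootL n J (e.map fun β => β l)
  refine le_trans ?_ (add_le_add_right k2 _)
  rw [S.decL_eq h1 h2 e, ← E_sum, ← E_add]
  unfold decL
  rw [E_prod]
  refine E_mono _ fun x => ?_
  have k3 := up_stepL (co (S.P x.1) J b x.2) (fun l => S.feat J (e.map fun β => β l) x.1)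
    (fun l a w => S.feat_mem2L _ _ _ _ _) univ
  refine le_trans ?_ (add_le_add_right k3 _)
  rw [← E_add]
  refine E_mono _ fun i => ?_
  have k4 := abs_E_sub_le (co (S.P x.1) J b x.2)
    (ev (co (S.P x.1) J) (fun β ω => ∏ l, ob S.sg (i l) (β l) ω) e)
    (fun w => ∏ l, S.feat J (e.map fun β => β l) x.1 (i l) w)
  have k5 := abs_sub_le ((co (S.P x.1) J b x.2).E
    (ev (co (S.P x.1) J) (fun β ω => ∏ l, ob S.sg (i l) (β l) ω) e))
    ((co (S.P x.1) J b x.2).E fun w => ∏ l, S.feat J (e.map fun β => β l) x.1 (i l) w)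
    (∏ l, (co (S.P x.1) J b x.2).E (S.feat J (e.map fun β => β l) x.1 (i l)))
  exact k5.trans (add_le_add_left k4 _)

end RS

theorem dec_tendstoL (S : ℕ → RS) {U : Filter ℕ} (J : ℕ → ℕ → ℕ) (R : ℕ)
    (hJ : ∀ n, ∀ b < R, J n b ≤ J n (b + 1) ∧ J n (b + 1) ≤ n)
    (hHS : ∀ b, b < R → ∀ e : Sh Bool b, Tendsto (fun n => (S n).HS n (J n) e) U (𝓝 0))
    {ι : Type} [Fintype ι] [DecidableEq ι] {b : ℕ} (e : Sh (ι → Bool) b) (hb : b ≤ R) :
    Tendsto (fun n => (S n).decL n (J n) e) U (𝓝 0) := by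
  induction e with
  | leaf β => simp only [RS.decL_leaf]; exact tendsto_const_nhds
  | up e ih =>
    have h1 := (ih (by omega)).add (tendsto_finsetSum univ fun l _ =>
      ((hHS _ (by omega) (e.map fun β => β l)).sqrt).sqrt)
    simp only [Real.sqrt_zero, sum_const_zero, add_zero] at h1
    exact squeeze_zero (fun n => (S n).decL_nonneg _ _ _)
      (fun n => (S n).decL_up (hJ n _ (by omega)).1 (hJ n _ (by omega)).2 e) h1
  | node e1 e2 ih1 ih2 =>
    have h1 := (ih1 hb).add (ih2 hb)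
    rw [add_zero] at h1
    exact squeeze_zero (fun n => (S n).decL_nonneg _ _ _) (fun n => (S n).decL_node _ _ e1 e2) h1

end Vale.Agent.P168
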