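import Vale.Agent.P168.LimHS
import Vale.Agent.P168.Approx
import Vale.Agent.P168.LimitX

/-!
# P168: decoupling of cavity functionals
-/

namespace Vale.Agent.P168

open Finset PW Filter
open scoped BigOperators Topology

theorem ind_expandL {ι : Type} [Fintype ι] [DecidableEq ι] (u : (ι → Bool) → ℝ) (σ : ι → Bool) :
    u σ = ∑ β : ι → Bool, u β * ∏ l, if σ l = β l then (1 : ℝ) else 0 := by
  rw [sum_eq_single σ]
  · simp
  · intro β _ hβ
    obtain ⟨l, hl⟩ := Function.ne_iff.mp hβ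
    rw [prod_eq_zero (mem_univ l) (if_neg (Ne.symm hl)), mul_zero]
  · simp

theorem tree_eqL {ι Ω I : Type} [Fintype ι] [DecidableEq ι] [Fintype Ω] (u : (ι → Bool) → ℝ)
    {R : ℕ} (e : Sh Unit R) (L : List (ℝ × Sh (ι → Bool) R))
    (hL : ∀ (Ω : Type) [Fintype Ω] (P : Ch Ω) (o : (ι → Bool) → Ω → ℝ) (ω : Ω),
      ev P (fun _ ω => ∑ c, u c * o c ω) e ω = (L.map fun x => x.1 * ev P o x.2 ω).sum)
    (P : Ch Ω) (sg : I → Ω → Bool) (i : ι → I) (w : Ω) :
    ev P (fun _ ω => u fun l => sg (i l) ω) e w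
      = (L.map fun y => y.1 * ev P (fun β ω => ∏ l, ob sg (i l) (β l) ω) y.2 w).sum ∧
    ev (piCh fun _ : ι => P) (fun _ ω => u fun l => sg (i l) (ω l)) e (fun _ => w)
      = (L.map fun y => y.1 * ∏ l, ev P (ob sg (i l)) (y.2.map fun β => β l) w).sum := by
  have e1 : (fun (_ : Unit) ω => u fun l => sg (i l) ω)
      = fun _ ω => ∑ β : ι → Bool, u β * ∏ l, ob sg (i l) (β l) ω := by
    funext _ ω
    exact ind_expandL u _
  have e2 : (fun (_ : Unit) (ω : ι → Ω) => u fun l => sg (i l) (ω l))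
      = fun _ ω => ∑ β : ι → Bool, u β * ∏ l, ob sg (i l) (β l) (ω l) := by
    funext _ ω
    exact ind_expandL u _
  rw [e1, e2, hL, hL]
  refine ⟨rfl, congrArg List.sum (List.map_congr_left fun y _ => ?_)⟩
  rw [ev_pi (fun _ : ι => P) (fun l (β : ι → Bool) ω => ob sg (i l) (β l) ω)]
  simp only [ev_map]

theorem tree_tendstoL (S : ℕ → RS) {U : Filter ℕ} (J : ℕ → ℕ → ℕ) (R : ℕ)
    (hJ : ∀ n, ∀ b < R, J n b ≤ J n (b + 1) ∧ J n (b + 1) ≤ n)
    (hHS : ∀ b, b < R → ∀ e : Sh Bool b, Tendsto (fun n => (S n).HS n (J n) e) U (𝓝 0))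
    {ι : Type} [Fintype ι] [DecidableEq ι] (u : (ι → Bool) → ℝ) (e : Sh Unit R) :
    Tendsto (fun n => (((S n).lawL n (J n R)).prod (unif (ι → (S n).I))).E fun x =>
      |ev (co ((S n).P x.1.1) (J n)) (fun _ ω => u fun l => (S n).sg (x.2 l) ω) e x.1.2
        - ev (piCh fun _ : ι => co ((S n).P x.1.1) (J n))
          (fun _ ω => u fun l => (S n).sg (x.2 l) (ω l)) e (fun _ => x.1.2)|) U (𝓝 0) := by
  obtain ⟨L, hL⟩ := expandL u e
  have h := list_tendstoL (U := U) (fun n => ((S n).lawL n (J n R)).prod (unif (ι → (S n).I)))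
    (fun (y : Sh (ι → Bool) R) n x => ev (co ((S n).P x.1.1) (J n))
      (fun β ω => ∏ l, ob (S n).sg (x.2 l) (β l) ω) y x.1.2)
    (fun y n x => ∏ l, (S n).feat (J n) (y.map fun β => β l) x.1.1 (x.2 l) x.1.2) L
    (fun y _ => by
      have := dec_tendstoL S J R hJ hHS y.2 le_rfl
      unfold RS.decL at this
      exact this)
  refine Tendsto.congr (fun n => ?_) h
  refine E_congr _ fun x => ?_
  have k := tree_eqL u e L hL (co ((S n).P x.1.1) (J n)) (S n).sg x.2 x.1.2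
  rw [k.1, k.2]
  simp only [RS.feat]

theorem X_closeL (S : ℕ → RS) {U : Filter ℕ} (J : ℕ → ℕ → ℕ) (r : ℕ)
    (hJ : ∀ n, ∀ b < r + 1, J n b ≤ J n (b + 1) ∧ J n (b + 1) ≤ n)
    (hHS : ∀ b, b < r + 1 → ∀ e : Sh Bool b, Tendsto (fun n => (S n).HS n (J n) e) U (𝓝 0))
    {ι : Type} [Fintype ι] [DecidableEq ι] (G : (ι → Bool) → ℝ) {c : ℝ} (hG : ∀ σ, |G σ| ≤ c)
    (m : ℕ → ℝ) (hm0 : m 0 = 1) (hpos : ∀ j, 0 < m j) (hanti : Antitone m) {ε : ℝ} (hε : 0 < ε) :
    ∀ᶠ n in U, (((S n).lawL n (J n (r + 1))).prod (unif (ι → (S n).I))).E (fun x =>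
      |X m (co ((S n).P x.1.1) (J n)) 0 (fun ω => G fun l => (S n).sg (x.2 l) ω) (r + 1) x.1.2
        - X m (piCh fun _ : ι => co ((S n).P x.1.1) (J n)) 0
          (fun ω => G fun l => (S n).sg (x.2 l) (ω l)) (r + 1) (fun _ => x.1.2)|) ≤ 3 * ε := by
  have c0 : 0 ≤ c := (abs_nonneg _).trans (hG fun _ => true)
  set u : (ι → Bool) → ℝ := fun σ => 1 - Real.exp (G σ - c) with hu
  have hut : ∀ σ, |u σ| ≤ 1 - Real.exp (-(2 * c)) := fun σ => by
    have h1 : Real.exp (G σ - c) ≤ 1 := Real.exp_le_one_iff.mpr (by linarith [(abs_le.mp (hG σ)).2])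
    have h2 : Real.exp (-(2 * c)) ≤ Real.exp (G σ - c) :=
      Real.exp_le_exp.mpr (by linarith [(abs_le.mp (hG σ)).1])
    rw [abs_of_nonneg (by simp only [hu]; linarith)]
    simp only [hu]; linarith
  have hGu : ∀ σ, G σ = Real.log (1 - u σ) + c := fun σ => by simp [hu]
  obtain ⟨l, -, hl⟩ := approx m hm0 hpos hanti (t := 1 - Real.exp (-(2 * c)))
    (by have : Real.exp (-(2 * c)) ≤ 1 := Real.exp_le_one_iff.mpr (by linarith); linarith)
    (by linarith [Real.exp_pos (-(2 * c))]) r hε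
  have h := list_tendstoL (U := U)
    (fun n => ((S n).lawL n (J n (r + 1))).prod (unif (ι → (S n).I)))
    (fun (e : Sh Unit (r + 1)) n x => ev (co ((S n).P x.1.1) (J n))
      (fun _ ω => u fun l => (S n).sg (x.2 l) ω) e x.1.2)
    (fun e n x => ev (piCh fun _ : ι => co ((S n).P x.1.1) (J n))
      (fun _ ω => u fun l => (S n).sg (x.2 l) (ω l)) e (fun _ => x.1.2)) l
    (fun y _ => tree_tendstoL S J (r + 1) hJ hHS u y.2)
  filter_upwards [h.eventually (gt_mem_nhds hε)] with n hn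
  refine le_trans (E_mono _ fun x => ?_) ((E_add_const _ (2 * ε) _).le.trans (by linarith))
  have h1 := hl _ (co ((S n).P x.1.1) (J n)) (fun ω => u fun l => (S n).sg (x.2 l) ω)
    (fun ω => hut _) x.1.2
  have h2 := hl _ (piCh fun _ : ι => co ((S n).P x.1.1) (J n))
    (fun ω => u fun l => (S n).sg (x.2 l) (ω l)) (fun ω => hut _) (fun _ => x.1.2)
  simp only [hGu, X_add_const hpos]
  have h3 := abs_le.mp h1
  have h4 := abs_le.mp h2
  set s1 := (l.map fun y => y.1 * ev (co ((S n).P x.1.1) (J n))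
    (fun _ ω => u fun l => (S n).sg (x.2 l) ω) y.2 x.1.2).sum
  set s2 := (l.map fun y => y.1 * ev (piCh fun _ : ι => co ((S n).P x.1.1) (J n))
    (fun _ ω => u fun l => (S n).sg (x.2 l) (ω l)) y.2 (fun _ => x.1.2)).sum
  have h5 := le_abs_self (s1 - s2)
  have h6 := neg_abs_le (s1 - s2)
  rw [abs_le]
  constructor <;> linarith

/-- Coarse exponents. -/
noncomputable def mmL (κ : ℝ) (r b : ℕ) : ℝ := 1 - (min b r : ℕ) * κ

theorem mmL_ge {κ : ℝ} (hκ : 0 < κ) (r b : ℕ) : 1 - r * κ ≤ mmL κ r b := by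
  have : ((min b r : ℕ) : ℝ) ≤ r := by exact_mod_cast min_le_right b r
  unfold mmL
  gcongr

theorem mmL_anti {κ : ℝ} (hκ : 0 < κ) (r : ℕ) : Antitone (mmL κ r) := fun i j h => by
  have : ((min i r : ℕ) : ℝ) ≤ (min j r : ℕ) := by exact_mod_cast min_le_min_right r h
  unfold mmL
  gcongr

/-- The trial data read off from a random system. -/
noncomputable def ftL (S : RS) (J : ℕ → ℕ) {κ : ℝ} {r : ℕ} (hκ : 0 < κ) (hr : 1 ≤ r)
    (hrκ : r * κ < 1) (x : S.Z × S.Ω) : FT where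
  r := r
  m := fun j => mmL κ r (j + 1)
  I := S.I
  μ := unif S.I
  Ω := S.Ω
  st := x.2
  Q := fun j => co (S.P x.1) J (j + 1)
  xb := fun i w => (co (S.P x.1) J 0 w).E fun ω => sp (S.sg i ω)
  m_pos := fun j => lt_of_lt_of_le (by linarith) (mmL_ge hκ r (j + 1))
  m_lt := fun j => by
    have : (1 : ℝ) ≤ (min (j + 1) r : ℕ) := by exact_mod_cast le_min (by omega) hr
    unfold mmL
    nlinarith
  m_anti := fun i j h => mmL_anti hκ r (by omega)
  m_strict := fun j hj => by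
    unfold mmL
    rw [min_eq_left (by omega), min_eq_left (by omega)]
    push_cast
    linarith
  xb_mem := fun i w => abs_le.mp (abs_E_le_const _ fun ω => (abs_sp _).le)

theorem X_oneL {ι Ω I : Type} [Fintype ι] [DecidableEq ι] [Fintype Ω] {a : ℕ → ℝ} (h0 : a 0 = 1)
    (P : Ch Ω) (sg : I → Ω → Bool) (i : ι → I) (G : (ι → Bool) → ℝ) :
    X a (piCh fun _ : ι => P) 0 (fun ω => G fun l => sg (i l) (ω l)) 1
      = fun ω => Real.log (YG G fun l => (P 0 (ω l)).E fun w => sp (sg (i l) w)) := by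
  funext ω
  rw [X_succ le_rfl, h0, lam, div_one]
  congr 1
  simp only [one_mul, X, piCh, YG]
  rw [E_congr _ fun w : ι → Ω =>
    ind_expandL (fun σ => Real.exp (G σ)) (fun l => sg (i l) (w l)), E_sum]
  refine sum_congr rfl fun β _ => ?_
  rw [E_const_mul, E_pi_prod _ (fun l w => if sg (i l) w = β l then (1 : ℝ) else 0)]
  congr 1
  refine prod_congr rfl fun l _ => ?_
  rw [← E_mul_const, add_comm, ← E_add_const, ← E_div_const]
  refine E_congr _ fun w => ?_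
  cases sg (i l) w <;> cases β l <;> simp [sp]

theorem TF_ftL (S : RS) (J : ℕ → ℕ) {κ : ℝ} {r : ℕ} (hκ : 0 < κ) (hr : 1 ≤ r)
    (hrκ : r * κ < 1) (x : S.Z × S.Ω) {ι : Type} [Fintype ι] [DecidableEq ι]
    (G : (ι → Bool) → ℝ) :
    TF (ftL S J hκ hr hrκ x) (YG G) = (unif (ι → S.I)).E fun i =>
      X (mmL κ r) (piCh fun _ : ι => co (S.P x.1) J) 0 (fun ω => G fun l => S.sg (i l) (ω l))
        (r + 1) (fun _ => x.2) := by
  rw [← pi_unif]
  refine E_congr (PW.pi fun _ : ι => unif S.I) fun i => ?_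
  rw [X_shiftL, X_oneL (by simp [mmL])]
  rfl

theorem al_blockL {κ : ℝ} {n : ℕ} (hn : 2 / ((n : ℝ) + 1) ≤ κ) {s : ℝ} (hs : s ≤ 1)
    {i : ℕ} (hi : i ≤ n) (h : ⌊s * n⌋₊ ≤ i) : al n i ≤ 1 - s + κ := by
  rw [al_of_le hi]
  have h1 : s * n < (⌊s * n⌋₊ : ℝ) + 1 := Nat.lt_floor_add_one _
  have h2 : ((⌊s * n⌋₊ : ℕ) : ℝ) ≤ i := by exact_mod_cast h
  have h3 : (0 : ℝ) < n + 1 := by positivity
  rw [div_le_iff₀ h3] at hn
  have h4 : s - κ ≤ i / ((n : ℝ) + 1) := by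
    rw [le_div_iff₀ h3]
    nlinarith
  linarith

theorem al_block'L {n : ℕ} {s : ℝ} (hs0 : 0 ≤ s) {i : ℕ} (hi : i ≤ n) (h : i < ⌊s * n⌋₊) :
    1 - s ≤ al n i := by
  rw [al_of_le hi]
  have h1 : ((⌊s * n⌋₊ : ℕ) : ℝ) ≤ s * n := Nat.floor_le (by positivity)
  have h2 : (i : ℝ) ≤ (⌊s * n⌋₊ : ℕ) := by exact_mod_cast h.le
  have h3 : (0 : ℝ) < n + 1 := by positivity
  have h4 : i / ((n : ℝ) + 1) ≤ s := by
    rw [div_le_iff₀ h3]
    nlinarith
  linarith

theorem limit_thm {α : Type} (sys : ℕ → α → RS) (h : GGfam sys) {M : Type} [Fintype M]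
    (ι : M → Type) [∀ m, Fintype (ι m)] [∀ m, DecidableEq (ι m)] (G : ∀ m, (ι m → Bool) → ℝ)
    {ε : ℝ} (hε : 0 < ε) :
    ∃ n, 0 < n ∧ ∀ s : α, ∃ (Y : Type) (_ : Fintype Y) (π : PW Y) (y : Y → FT), ∀ m,
      |((sys n s).ρ.E fun z => 𝔼 i : ι m → (sys n s).I, X (al n) ((sys n s).P z) 0
          (fun ω => G m fun l => (sys n s).sg (i l) ω) n (sys n s).ω0) -
        π.E fun t => TF (y t) (YG (G m))| ≤ ε := by
  by_contra hcon
  push Not at hcon
  choose s0 hs0 using hcon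
  let s : ℕ → α := fun n => if hn : 0 < n then s0 n hn else s0 1 one_pos
  obtain ⟨c, c1, hc⟩ : ∃ c : ℝ, 1 ≤ c ∧ ∀ m σ, |G m σ| ≤ c := by
    refine ⟨1 + ∑ m, ∑ σ, |G m σ|, le_add_of_nonneg_right (by positivity), fun m σ => ?_⟩
    have h1 : |G m σ| ≤ ∑ σ, |G m σ| :=
      single_le_sum (f := fun σ => |G m σ|) (fun _ _ => abs_nonneg _) (mem_univ σ)
    have h2 : ∑ σ, |G m σ| ≤ ∑ m, ∑ σ, |G m σ| :=
      single_le_sum (f := fun m => ∑ σ, |G m σ|) (fun _ _ => by positivity) (mem_univ m)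
    linarith
  obtain ⟨g, hg⟩ := exists_nat_ge (3 + 12 * c / ε)
  obtain ⟨r, hr⟩ := exists_nat_ge (1 + g * c ^ 2 * (1 + 3 / ε))
  have p1 : 0 < 12 * c / ε := by positivity
  have g3 : (3 : ℝ) ≤ g := by linarith
  have p2 : 0 ≤ g * c ^ 2 * (1 + 3 / ε) := by positivity
  have r1 : (1 : ℝ) ≤ r := by linarith
  have r1' : 1 ≤ r := by exact_mod_cast r1
  set κ : ℝ := 1 / ((r : ℝ) + g) with hκ
  have κ0 : 0 < κ := by positivity
  have hgκ : 1 - r * κ = g * κ := by rw [hκ]; field_simp; ring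
  have gκ0 : 0 < g * κ := by positivity
  have hrκ : r * κ < 1 := by linarith
  have hμ : g * κ * c ^ 2 * (1 + 3 / ε) ≤ 1 := by
    have : g * κ * c ^ 2 * (1 + 3 / ε) = g * c ^ 2 * (1 + 3 / ε) / ((r : ℝ) + g) := by
      rw [hκ]; ring
    rw [this, div_le_one (by positivity)]
    linarith
  have hμ1 : g * κ * c ≤ 1 := by
    have h1 : g * κ * c ≤ g * κ * c ^ 2 := by gcongr; nlinarith
    have h2 : g * κ * c ^ 2 * 1 ≤ g * κ * c ^ 2 * (1 + 3 / ε) := by
      gcongr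
      have : 0 < 3 / ε := by positivity
      linarith
    linarith
  have hμ2 : g * κ * c ^ 2 ≤ ε / 3 := by
    have h2 : g * κ * c ^ 2 * (3 / ε) ≤ g * κ * c ^ 2 * (1 + 3 / ε) := by
      gcongr
      linarith
    have h3 : g * κ * c ^ 2 = g * κ * c ^ 2 * (3 / ε) * (ε / 3) := by field_simp
    rw [h3]
    exact mul_le_of_le_one_left (by positivity) (h2.trans hμ)
  set θ : ℝ := 1 - 2 / g with hθ
  have θ0 : 0 < θ := by
    have : (2 : ℝ) / g < 1 := by rw [div_lt_one (by positivity)]; linarith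
    linarith
  have θ1 : θ ≤ 1 := by
    have : (0 : ℝ) < 2 / g := by positivity
    linarith
  have hθκ : (1 - θ) * (g * κ) = 2 * κ := by rw [hθ]; field_simp; ring
  have hθc : 2 * (1 - θ) * c ≤ ε / 3 := by
    have h1 : 12 * c / ε ≤ g := by linarith
    rw [div_le_iff₀ hε] at h1
    have : 2 * (1 - θ) * c = 4 * c / g := by rw [hθ]; ring
    rw [this, div_le_iff₀ (by positivity)]
    linarith
  obtain ⟨t, t0, ht, hHS⟩ := hs_limit sys h s (hyperfilter ℕ) Nat.hyperfilter_le_atTop κ0 (r + 1)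
    (by push_cast; nlinarith)
  have tb : ∀ b, b ≤ r + 1 → b * κ ≤ t b ∧ t b ≤ (b + 1) * κ := by
    intro b hb
    rcases Nat.eq_zero_or_pos b with rfl | h0
    · rw [t0]; simp [κ0.le]
    · exact ⟨(ht b h0 hb).1.le, (ht b h0 hb).2.le⟩
  have tb0 : ∀ b, b ≤ r + 1 → 0 ≤ t b := fun b hb => le_trans (by positivity) (tb b hb).1
  have tb1 : ∀ b, b ≤ r + 1 → t b ≤ 1 := fun b hb => by
    have h1 : (b : ℝ) ≤ r + 1 := by exact_mod_cast hb
    have h2 := (tb b hb).2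
    nlinarith
  let J : ℕ → ℕ → ℕ := fun n b => ⌊t b * n⌋₊
  have hJn : ∀ n b, b ≤ r + 1 → J n b ≤ n := fun n b hb => by
    apply Nat.floor_le_of_le
    exact mul_le_of_le_one_left (Nat.cast_nonneg n) (tb1 b hb)
  have hJ : ∀ n, ∀ b < r + 1, J n b ≤ J n (b + 1) ∧ J n (b + 1) ≤ n := fun n b hb => by
    refine ⟨Nat.floor_le_floor ?_, hJn n _ (by omega)⟩
    have h1 := (tb b (by omega)).2
    have h2 := (tb (b + 1) (by omega)).1
    push_cast at h2
    gcongr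
    linarith
  have mpos : ∀ j, 0 < mmL κ r j := fun j => lt_of_lt_of_le (by linarith) (mmL_ge κ0 r j)
  have ev1 : ∀ᶠ n in (hyperfilter ℕ : Filter ℕ), ∀ m, _ := eventually_all.mpr fun m =>
    X_closeL (fun n => sys n (s n)) J r hJ hHS (G m) (hc m) (mmL κ r) (by simp [mmL]) mpos
      (mmL_anti κ0 r) (ε := ε / 9) (by positivity)
  have ev2 : ∀ᶠ n : ℕ in (hyperfilter ℕ : Filter ℕ), 0 < n ∧ 2 / κ ≤ n :=
    Nat.hyperfilter_le_atTop ((eventually_gt_atTop 0).and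
      (tendsto_natCast_atTop_atTop.eventually_ge_atTop (2 / κ)))
  obtain ⟨n, h1, hn0, hn2⟩ := (ev1.and ev2).exists
  have hsn : s n = s0 n hn0 := dif_pos hn0
  have hn3 : 2 / ((n : ℝ) + 1) ≤ κ := by
    rw [div_le_iff₀ κ0] at hn2
    rw [div_le_iff₀ (by positivity)]
    nlinarith
  have hbad := hs0 n hn0
  rw [← hsn] at hbad
  set S := sys n (s n) with hS
  obtain ⟨m, hm⟩ := hbad (S.Z × S.Ω) inferInstance (S.lawL n (J n (r + 1)))
    (ftL S (J n) κ0 r1' hrκ)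
  refine absurd hm (not_lt.mpr ?_)
  have h2 := h1 m
  simp only [TF_ftL]
  have a1 : ∀ z (i : ι m → S.I),
      |X (al n) (S.P z) 0 (fun ω => G m fun l => S.sg (i l) ω) n S.ω0 -
        A (S.P z) (J n (r + 1)) n (X (mmL κ r) (co (S.P z) (J n)) 0
          (fun ω => G m fun l => S.sg (i l) ω) (r + 1)) S.ω0| ≤ ε / 3 + ε / 3 := by
    intro z i
    have hGi : ∀ ω, |G m fun l => S.sg (i l) ω| ≤ c := fun ω => hc m _
    have b1 := abs_X_sub_A_le (P := S.P z) (j := J n (r + 1)) (al_pos n) gκ0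
      (abs_X_le (P := S.P z) (j := 0) (al_pos n) hGi (J n (r + 1))) hμ1 n (fun k hk1 hk2 => by
        have d1 := al_blockL hn3 (tb1 _ le_rfl) hk2.le hk1
        have d2 := (tb (r + 1) le_rfl).1
        push_cast at d2
        linarith) S.ω0
    rw [X_X (Nat.zero_le _) _ _ (hJn n _ le_rfl)] at b1
    have b2 : |A (S.P z) (J n (r + 1)) n (X (al n) (S.P z) 0
        (fun ω => G m fun l => S.sg (i l) ω) (J n (r + 1))) S.ω0 -
        A (S.P z) (J n (r + 1)) n (X (mmL κ r) (co (S.P z) (J n)) 0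
          (fun ω => G m fun l => S.sg (i l) ω) (r + 1)) S.ω0| ≤ 2 * (1 - θ) * c := by
      refine abs_E_sub_le_const _ fun ω => ?_
      refine sandwichL (al_pos n) mpos (by simp [J, t0]) θ0 θ1 hGi (r + 1)
        (fun b hb => (hJ n b hb).1) (fun b hb k hk1 hk2 => ?_) ω
      have hkn : k ≤ n := hk2.le.trans (hJ n b hb).2
      have d1 := al_blockL hn3 (tb1 b hb.le) hkn hk1
      have d2 := al_block'L (tb0 (b + 1) hb) hkn hk2
      have d3 := (tb b hb.le).1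
      have d4 := (tb (b + 1) hb).2
      have d5 : mmL κ r b = 1 - b * κ := by rw [mmL, min_eq_left (by omega)]
      have d6 : (1 - θ) * (g * κ) ≤ (1 - θ) * mmL κ r b :=
        mul_le_mul_of_nonneg_left (hgκ ▸ mmL_ge κ0 r b) (by linarith)
      have d7 : θ * al n k ≤ θ * (mmL κ r b + κ) :=
        mul_le_mul_of_nonneg_left (by linarith) θ0.le
      have d8 : θ * κ ≤ κ := mul_le_of_le_one_left κ0.le θ1
      push_cast at d4
      constructor <;> linarith
    exact (abs_sub_le _ _ _).trans (add_le_add (b1.trans hμ2) (b2.trans hθc))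
  have a2 : ((S.lawL n (J n (r + 1))).prod (unif (ι m → S.I))).E (fun x =>
      X (mmL κ r) (co (S.P x.1.1) (J n)) 0 (fun ω => G m fun l => S.sg (x.2 l) ω) (r + 1) x.1.2)
      = S.ρ.E fun z => (unif (ι m → S.I)).E fun i =>
        A (S.P z) (J n (r + 1)) n (X (mmL κ r) (co (S.P z) (J n)) 0
          (fun ω => G m fun l => S.sg (i l) ω) (r + 1)) S.ω0 := by
    rw [E_prod, RS.E_lawL]
    refine E_congr _ fun z => ?_
    exact E_comm (B (S.P z) (J n (r + 1)) n S.ω0) (unif (ι m → S.I)) (fun w i =>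
      X (mmL κ r) (co (S.P z) (J n)) 0 (fun ω => G m fun l => S.sg (i l) ω) (r + 1) w)
  have a3 := (abs_E_sub_le _ _ _).trans h2
  rw [a2, E_prod] at a3
  have a4 := abs_E_sub_le_const S.ρ fun z => abs_E_sub_le_const (unif (ι m → S.I)) (a1 z)
  simp only [← E_unif]
  exact (abs_sub_le _ _ _).trans ((add_le_add a4 a3).trans (by linarith))

end Vale.Agent.P168
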