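import Vale.Agent.P168.ReduceA

/-!
# P168: reduction to finite models
-/

namespace Vale.Agent.P168

open Finset PW MeasureTheory
open scoped BigOperators

theorem abs_logsum_sub_R {α : Type} [Fintype α] [Nonempty α] {H H' : α → ℝ} {c : ℝ}
    (hc : ∀ a, |H a - H' a| ≤ c) :
    |Real.log (∑ σ, Real.exp (H σ)) - Real.log (∑ σ, Real.exp (H' σ))| ≤ c := by
  have h := abs_lam_sub_le one_pos (unif α) hc
  have e : ∀ H : α → ℝ, lam 1 (unif α) H =
      Real.log (Fintype.card α : ℝ)⁻¹ + Real.log (∑ σ, Real.exp (H σ)) := fun H => by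
    simp only [lam, one_mul, div_one, E, unif, ← mul_sum]
    rw [Real.log_mul (by positivity) (sum_pos (fun _ _ => Real.exp_pos _) univ_nonempty).ne']
  rw [e, e] at h
  simpa using h

theorem abs_expect_sub_R {α : Type} [Fintype α] [Nonempty α] {F F' : α → ℝ} {c : ℝ}
    (h : ∀ a, |F a - F' a| ≤ c) : |(𝔼 a, F a) - 𝔼 a, F' a| ≤ c := by
  rw [← E_unif, ← E_unif]; exact abs_E_sub_le_const _ h

variable {K : ℕ}

theorem abs_sum_th_sub_R {k : ℕ} (u v : Fin k → (Fin K → Bool) → ℝ) (s : Fin k → Fin K → Bool) :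
    |∑ c, u c (s c) - ∑ c, v c (s c)| ≤ ∑ c, ‖u c - v c‖ := by
  rw [← sum_sub_distrib]
  exact (abs_sum_le_sum_abs _ _).trans (sum_le_sum fun c _ => norm_le_pi_norm (u c - v c) (s c))

theorem logZ_lip_R {N k : ℕ} (u v : Fin k → (Fin K → Bool) → ℝ) (idx : Fin k → Fin K → Fin N)
    (h h' : Fin N → ℝ) :
    |logZ u idx h - logZ v idx h'| ≤ ∑ c, ‖u c - v c‖ + ∑ i, ‖h i - h' i‖ := by
  refine abs_logsum_sub_R fun σ => ?_
  rw [add_sub_add_comm]
  refine (abs_add_le _ _).trans (add_le_add (abs_sum_th_sub_R u v fun c j => σ (idx c j)) ?_)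
  rw [← sum_sub_distrib]
  refine (abs_sum_le_sum_abs _ _).trans (sum_le_sum fun i _ => ?_)
  rw [← sub_mul, abs_mul, abs_sp, mul_one, Real.norm_eq_abs]

theorem GA_lip_R {k : ℕ} (u v : Fin k → (Fin K → Bool) → ℝ) (ell : Fin k → Fin K) (h h' : ℝ)
    (z : Fin k × Fin K → Bool) : |GA u ell h z - GA v ell h' z| ≤ ∑ c, ‖u c - v c‖ + ‖h - h'‖ := by
  refine abs_logsum_sub_R fun e => ?_
  rw [add_sub_add_comm, add_comm]
  refine (abs_add_le _ _).trans (add_le_add (abs_sum_th_sub_R u v _) ?_)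
  rw [← sub_mul, abs_mul, abs_sp, mul_one, Real.norm_eq_abs]

section two
variable {Ω : Type*} [MeasurableSpace Ω] {P : Measure Ω} {V : Type} [NormedAddCommGroup V]
  {φ : Ω → V} {Θ : Type} [Fintype Θ] {p : PW Θ} {th : Θ → V} {δ : ℝ}

/-- Two-step approximation of an iterated integral. -/
theorem two_step_R {k : ℕ} (hp : ∀ Ψ : (Fin k → V) → ℝ, SLip Ψ →
      |∫ ω : Fin k → Ω, Ψ (fun l => φ (ω l)) ∂(Measure.pi fun _ => P) -
        (PW.pi fun _ : Fin k => p).E fun c => Ψ fun l => th (c l)| ≤ δ * k)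
    {A : Type} [MeasurableSpace A] (ν : Measure A) [IsProbabilityMeasure ν]
    (Φ : (Fin k → V) → A → ℝ) (hi : ∀ u, Integrable (Φ u) ν) (hl : ∀ a, SLip fun u => Φ u a)
    (F : (Fin k → V) → ℝ) {η : ℝ} (hF : ∀ u, |∫ a, Φ u a ∂ν - F u| ≤ η) :
    |∫ ω : Fin k → Ω, (∫ a, Φ (fun l => φ (ω l)) a ∂ν) ∂(Measure.pi fun _ => P) -
      (PW.pi fun _ : Fin k => p).E fun c => F fun l => th (c l)| ≤ δ * k + η := by
  have h1 := hp (fun u => ∫ a, Φ u a ∂ν) fun u v => by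
    rw [← integral_sub (hi u) (hi v), ← Real.norm_eq_abs]
    simpa using norm_integral_le_of_norm_le_const (μ := ν) (f := fun a => Φ u a - Φ v a)
      (C := ∑ l, ‖u l - v l‖) (ae_of_all _ fun a => hl a u v)
  have h2 := abs_E_sub_le_const (PW.pi fun _ : Fin k => p) fun c => hF fun l => th (c l)
  exact (abs_sub_le _ _ _).trans (add_le_add h1 h2)

end two

section parts
variable {lam : ℝ} {Ω : Type*} [MeasurableSpace Ω] {P : Measure Ω} [IsProbabilityMeasure P]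
  {θ : Ω → (Fin K → Bool) → ℝ} {ν : Measure ℝ} [IsProbabilityMeasure ν] {M : FM K} {δ : ℝ}

/-- Averaged partition function. -/
noncomputable def aZ (N : ℕ) {k : ℕ} (u : Fin k → (Fin K → Bool) → ℝ) (h : Fin N → ℝ) : ℝ :=
  𝔼 idx : Fin k → Fin K → Fin N, logZ u idx h

theorem aZ_lip {N k : ℕ} (hN : 0 < N) (u v : Fin k → (Fin K → Bool) → ℝ) (h h' : Fin N → ℝ) :
    |aZ N u h - aZ N v h'| ≤ ∑ c, ‖u c - v c‖ + ∑ i, ‖h i - h' i‖ := by
  have : Nonempty (Fin N) := ⟨⟨0, hN⟩⟩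
  exact abs_expect_sub_R fun idx => logZ_lip_R u v idx h h'

theorem aZ_slip {N k : ℕ} (hN : 0 < N) (u : Fin k → (Fin K → Bool) → ℝ) : SLip (aZ N u) :=
  fun h h' => by simpa using aZ_lip hN u u h h'

theorem aZ_bound {N k : ℕ} (hN : 0 < N) {u : Fin k → (Fin K → Bool) → ℝ} {h : Fin N → ℝ} {b : ℝ}
    (hb0 : 0 ≤ b) (hu : ∀ c σ, |u c σ| ≤ b) (hh : ∀ i, |h i| ≤ b) :
    |aZ N u h| ≤ (b + b * N + |Real.log (∑ _σ : Fin N → Bool, Real.exp 0)|) * (k + 1) := by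
  have : Nonempty (Fin N) := ⟨⟨0, hN⟩⟩
  refine abs_expect_le_P fun idx => ?_
  have h1 : |logZ u idx h - Real.log (∑ _σ : Fin N → Bool, Real.exp 0)| ≤ b * k + b * N := by
    refine abs_logsum_sub_R fun σ => ?_
    rw [sub_zero]
    refine (abs_add_le _ _).trans (add_le_add (abs_sum_le_P fun l => hu _ _)
      (abs_sum_le_P fun i => ?_))
    rw [abs_mul, abs_sp, mul_one]; exact hh _
  generalize Real.log (∑ _σ : Fin N → Bool, Real.exp 0) = L at h1 ⊢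
  have h2 := abs_sub_abs_le_abs_sub (logZ u idx h) L
  have h3 : (0 : ℝ) ≤ k := Nat.cast_nonneg k
  have h4 : 0 ≤ |L| * k := by positivity
  have h5 : 0 ≤ b * N * k := by positivity
  nlinarith

omit [IsProbabilityMeasure P] in
theorem reduce_press (hlam : 0 < lam) (hδ : 0 < δ) (hν : Integrable (fun h : ℝ => h) ν)
    (hp : ∀ (k : ℕ) (Ψ : (Fin k → (Fin K → Bool) → ℝ) → ℝ), SLip Ψ →
      |∫ ω : Fin k → Ω, Ψ (fun l => θ (ω l)) ∂(Measure.pi fun _ => P) -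
        (PW.pi fun _ : Fin k => M.p).E fun c => Ψ fun l => M.th (c l)| ≤ δ * k)
    (hq : ∀ (k : ℕ) (Ψ : (Fin k → ℝ) → ℝ), SLip Ψ →
      |∫ ω : Fin k → ℝ, Ψ (fun l => ω l) ∂(Measure.pi fun _ => ν) -
        (PW.pi fun _ : Fin k => M.q).E fun c => Ψ fun l => M.hv (c l)| ≤ δ * k)
    {N : ℕ} (hN : 0 < N) : |press lam P θ ν N - fpress M lam N| ≤ δ * lam + δ := by
  obtain ⟨b, hb0, hb1, hb2⟩ := M.exists_bound
  have hN0 : (0 : ℝ) < N := by exact_mod_cast hN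
  have key : |pois (lam * N) (fun k => ∫ ω : Fin k → Ω, (∫ h : Fin N → ℝ,
      aZ N (fun c => θ (ω c)) h ∂(Measure.pi fun _ => ν)) ∂(Measure.pi fun _ => P)) -
      pois (lam * N) fun k => (PW.pi fun _ : Fin k => M.p).E fun c =>
        (PW.pi fun _ : Fin N => M.q).E fun h => aZ N (fun l => M.th (c l)) fun i => M.hv (h i)| ≤
      δ * (lam * N) + δ * N := by
    refine pois_close_R (c := b + b * N + |Real.log (∑ _σ : Fin N → Bool, Real.exp 0)|)
      (by positivity) hδ.le (by positivity) (fun k => ?_) fun k => ?_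
    · exact abs_E_le_const _ fun c => abs_E_le_const _ fun h =>
        aZ_bound hN hb0 (fun _ _ => hb1 _ _) fun _ => hb2 _
    · exact two_step_R (hp k) (Measure.pi fun _ : Fin N => ν) (aZ N)
        (fun u => (aZ_slip hN u).integrable ν (φ := fun h : ℝ => h) hν) (fun h u v => by simpa using aZ_lip hN u v h h)
        (fun u => (PW.pi fun _ : Fin N => M.q).E fun h => aZ N u fun i => M.hv (h i))
        fun u => hq N _ (aZ_slip hN u)
  rw [press, fpress, ← mul_sub, abs_mul, abs_of_pos (by positivity : 0 < 1 / (N : ℝ))]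
  refine (mul_le_mul_of_nonneg_left key (by positivity)).trans (le_of_eq ?_)
  field_simp

/-- Averaged functional of `U`. -/
noncomputable def aU (r : ℕ) (m : Fin r → ℝ) (x : (Fin (r + 1) → unitInterval) → ℝ) {k : ℕ}
    (u : Fin k → (Fin K → Bool) → ℝ) (h : ℝ) : ℝ :=
  𝔼 ell : Fin k → Fin K, calT r m x (Uf u ell h)

variable {r : ℕ} {m : Fin r → ℝ} {x : (Fin (r + 1) → unitInterval) → ℝ}

theorem aU_lip (hK : 1 ≤ K) (hx : Adm r m x) {k : ℕ} (u v : Fin k → (Fin K → Bool) → ℝ) (h h' : ℝ) :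
    |aU r m x u h - aU r m x v h'| ≤ ∑ c, ‖u c - v c‖ + ‖h - h'‖ := by
  have : Nonempty (Fin K) := ⟨⟨0, hK⟩⟩
  refine abs_expect_sub_R fun ell => ?_
  rw [← YG_GA, ← YG_GA]; exact abs_calT_YG_sub_le hx (GA_lip_R u v ell h h')

theorem aU_lip' (hK : 1 ≤ K) (hx : Adm r m x) {k : ℕ} (u : Fin k → (Fin K → Bool) → ℝ) (h h' : ℝ) :
    |aU r m x u h - aU r m x u h'| ≤ ‖h - h'‖ := by simpa using aU_lip hK hx u u h h'

omit [IsProbabilityMeasure P] in
theorem reduce_TU (hK : 1 ≤ K) (hlam : 0 < lam) (hδ : 0 < δ) (hν : Integrable (fun h : ℝ => h) ν)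
    (hp : ∀ (k : ℕ) (Ψ : (Fin k → (Fin K → Bool) → ℝ) → ℝ), SLip Ψ →
      |∫ ω : Fin k → Ω, Ψ (fun l => θ (ω l)) ∂(Measure.pi fun _ => P) -
        (PW.pi fun _ : Fin k => M.p).E fun c => Ψ fun l => M.th (c l)| ≤ δ * k)
    (hq : ∀ D : ℝ → ℝ, (∀ u v, |D u - D v| ≤ ‖u - v‖) →
      |∫ ω, D ω ∂ν - M.q.E fun c => D (M.hv c)| ≤ δ) (hx : Adm r m x) :
    |TU lam P θ ν r m x - fTU M lam fun _ Y => calT r m x Y| ≤ δ * (K * lam) + δ := by
  obtain ⟨b, hb0, hb1, hb2⟩ := M.exists_bound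
  have : Nonempty (Fin K) := ⟨⟨0, hK⟩⟩
  have key : |pois (K * lam) (fun k => ∫ ω : Fin k → Ω, (∫ h : ℝ,
      aU r m x (fun c => θ (ω c)) h ∂ν) ∂(Measure.pi fun _ => P)) -
      pois (K * lam) fun k => (PW.pi fun _ : Fin k => M.p).E fun c =>
        M.q.E fun h => aU r m x (fun l => M.th (c l)) (M.hv h)| ≤ δ * (K * lam) + δ := by
    refine pois_close_R (c := b + 1) (by positivity) hδ.le hδ.le (fun k => ?_) fun k => ?_
    · refine abs_E_le_const _ fun c => abs_E_le_const _ fun h => abs_expect_le_P fun ell => ?_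
      rw [← YG_GA]
      exact abs_calT_YG_le hx (abs_GA_le (fun l σ => hb1 _ _) ell (hb2 _))
    · exact two_step_R (hp k) ν (aU r m x) (fun u => integrable_lip_R ν (aU_lip' hK hx u) hν)
        (fun h u v => by simpa using aU_lip hK hx u v h h)
        (fun u => M.q.E fun h => aU r m x u (M.hv h)) fun u => hq _ (aU_lip' hK hx u)
  exact key

omit [IsProbabilityMeasure P] in
theorem reduce_TV (hK : 1 ≤ K) (hlam : 0 < lam) (hδ : 0 < δ)
    (hp : ∀ (k : ℕ) (Ψ : (Fin k → (Fin K → Bool) → ℝ) → ℝ), SLip Ψ →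
      |∫ ω : Fin k → Ω, Ψ (fun l => θ (ω l)) ∂(Measure.pi fun _ => P) -
        (PW.pi fun _ : Fin k => M.p).E fun c => Ψ fun l => M.th (c l)| ≤ δ * k) (hx : Adm r m x) :
    |TV lam P θ r m x - fTV M lam fun _ Y => calT r m x Y| ≤ δ * ((K - 1) * lam) + 0 := by
  obtain ⟨b, hb0, hb1, hb2⟩ := M.exists_bound
  have hK1 : (1 : ℝ) ≤ K := by exact_mod_cast hK
  have h0 : 0 ≤ ((K : ℝ) - 1) * lam := mul_nonneg (by linarith) hlam.le
  rw [TV, fTV]
  refine pois_close_R (c := b + 1) h0 hδ.le le_rfl (fun k => ?_) fun k => ?_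
  · refine abs_E_le_const _ fun c => ?_
    rw [← YG_GB]
    exact abs_calT_YG_le hx (abs_GB_le hb0 fun l σ => hb1 _ _)
  · rw [add_zero]
    refine hp k (fun u => calT r m x (Vf u)) fun u v => ?_
    simp only [← YG_GB]
    exact abs_calT_YG_sub_le hx fun z => abs_sum_th_sub_R u v _

end parts

theorem reduce {K : ℕ} (hK : 1 ≤ K) {lam : ℝ} (hlam : 0 < lam) {Ω : Type*} [MeasurableSpace Ω]
    (P : Measure Ω) [IsProbabilityMeasure P] (θ : Ω → (Fin K → Bool) → ℝ) (_hθm : Measurable θ)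
    (hθ : ∀ σ, Integrable (fun ω => θ ω σ) P) (ν : Measure ℝ) [IsProbabilityMeasure ν]
    (hν : Integrable (fun h : ℝ => h) ν) {ε : ℝ} (hε : 0 < ε) :
    ∃ M : FM K, (∀ N, 0 < N → |press lam P θ ν N - fpress M lam N| ≤ ε) ∧
      (∀ r m x, Adm r m x → |TU lam P θ ν r m x - fTU M lam fun _ Y => calT r m x Y| ≤ ε ∧
        |TV lam P θ r m x - fTV M lam fun _ Y => calT r m x Y| ≤ ε) ∧
      ∀ D : ((Fin K → Bool) → ℝ) → ℝ, (∀ u v, |D u - D v| ≤ ‖u - v‖) →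
        |∫ ω, D (θ ω) ∂P - M.p.E fun c => D (M.th c)| ≤ ε := by
  have hK1 : (1 : ℝ) ≤ K := by exact_mod_cast hK
  obtain ⟨δ, hδ0, hεδ⟩ : ∃ δ : ℝ, 0 < δ ∧ ε = δ * (K * lam) + δ :=
    ⟨ε / (K * lam + 1), by positivity, by field_simp⟩
  have hθi : Integrable θ P := Integrable.of_eval hθ
  obtain ⟨Θ, _, p, th, hp1, hp⟩ := exists_apx_R P hθi hδ0
  obtain ⟨Hh, _, q, hv, hq1, hq⟩ := exists_apx_R ν hν hδ0
  have h1 : 0 ≤ δ * lam := by positivity
  have h2 : δ * lam * 1 ≤ δ * lam * K := by gcongr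
  refine ⟨⟨Θ, p, th, Hh, q, hv⟩, fun N hN => ?_, fun r m x hx => ⟨?_, ?_⟩,
    fun D hD => (hp1 D hD).trans ?_⟩
  · refine (reduce_press (M := ⟨Θ, p, th, Hh, q, hv⟩) hlam hδ0 hν hp hq hN).trans ?_
    linarith
  · exact (reduce_TU (M := ⟨Θ, p, th, Hh, q, hv⟩) hK hlam hδ0 hν hp hq1 hx).trans hεδ.ge
  · refine (reduce_TV (M := ⟨Θ, p, th, Hh, q, hv⟩) hK hlam hδ0 hp hx).trans ?_
    linarith
  · linarith

end Vale.Agent.P168
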