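import Vale.Agent.P168.AssA

/-!
# P168: the recursion over a general probability space
-/

namespace Vale.Agent.P168

open Finset MeasureTheory
open scoped BigOperators

variable {W : Type} [MeasurableSpace W]

theorem measurable_cons_M {A : Type*} [MeasurableSpace A] {r : ℕ} {f : A → W}
    {g : A → Fin r → W} (hf : Measurable f) (hg : Measurable g) :
    Measurable fun a => (Fin.cons (f a) (g a) : Fin (r + 1) → W) :=
  measurable_pi_lambda _ fun p => by
    refine Fin.cases ?_ (fun q => ?_) p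
    · exact hf
    · exact (measurable_pi_apply q).comp hg

theorem measurable_rsb (μ : Measure W) [SFinite μ] (r : ℕ) :
    ∀ (m : Fin r → ℝ) {A : Type} [MeasurableSpace A] (Y : A → (Fin r → W) → ℝ),
      Measurable (fun x : A × (Fin r → W) => Y x.1 x.2) → Measurable fun a => rsb μ r m (Y a) := by
  induction r with
  | zero =>
    intro m A _ Y hY
    exact hY.comp (measurable_id.prodMk measurable_const)
  | succ r ih =>
    intro m A _ Y hY
    have h1 := ih (Fin.tail m) (A := A × W) (fun x v => Y x.1 (Fin.cons x.2 v))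
      (hY.comp (measurable_fst.fst.prodMk (measurable_cons_M measurable_fst.snd measurable_snd)))
    exact ((h1.pow_const (m 0)).stronglyMeasurable.integral_prod_right' (ν := μ)).measurable.pow_const _

theorem integrable_of_bdd {A : Type*} [MeasurableSpace A] (μ : Measure A) [IsFiniteMeasure μ]
    {f : A → ℝ} (hf : Measurable f) {b : ℝ} (hb : ∀ w, |f w| ≤ b) : Integrable f μ :=
  Integrable.of_bound hf.aestronglyMeasurable b (ae_of_all _ hb)

theorem abs_integral_le_of_bdd {A : Type*} [MeasurableSpace A] (μ : Measure A)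
    [IsProbabilityMeasure μ] {f : A → ℝ} {b : ℝ} (hb : ∀ w, |f w| ≤ b) : |∫ w, f w ∂μ| ≤ b := by
  simpa using norm_integral_le_of_norm_le_const (μ := μ) (f := f) (C := b) (ae_of_all _ hb)

variable (μ : Measure W) [IsProbabilityMeasure μ]

/-- One level of the recursion in logarithmic form. -/
noncomputable def lamI (a : ℝ) (f : W → ℝ) : ℝ := Real.log (∫ w, Real.exp (a * f w) ∂μ) / a

section one
variable {a b : ℝ} {f f' : W → ℝ}

theorem integrable_exp_M (hf : Measurable f) (ha : 0 < a) (hb : ∀ w, |f w| ≤ b) :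
    Integrable (fun w => Real.exp (a * f w)) μ :=
  integrable_of_bdd μ (by fun_prop) (b := Real.exp (a * b)) fun w => by
    rw [abs_of_pos (Real.exp_pos _)]
    gcongr
    exact (abs_le.mp (hb w)).2

theorem le_integral_exp_M (hf : Measurable f) (ha : 0 < a) (hb : ∀ w, |f w| ≤ b) :
    Real.exp (-(a * b)) ≤ ∫ w, Real.exp (a * f w) ∂μ := by
  have h := integral_mono (integrable_const (Real.exp (-(a * b)))) (integrable_exp_M μ hf ha hb)
    fun w => Real.exp_le_exp.mpr (by nlinarith [(abs_le.mp (hb w)).1])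
  simpa using h

theorem lamI_le_add (hf : Measurable f) (hf' : Measurable f') (ha : 0 < a) (hb : ∀ w, |f w| ≤ b)
    {b' : ℝ} (hb' : ∀ w, |f' w| ≤ b') {c : ℝ} (h : ∀ w, f w ≤ f' w + c) :
    lamI μ a f ≤ lamI μ a f' + c := by
  have p1 := (Real.exp_pos _).trans_le (le_integral_exp_M μ hf ha hb)
  have p2 := (Real.exp_pos _).trans_le (le_integral_exp_M μ hf' ha hb')
  have h1 : ∫ w, Real.exp (a * f w) ∂μ ≤ (∫ w, Real.exp (a * f' w) ∂μ) * Real.exp (a * c) := by
    rw [← integral_mul_const]
    refine integral_mono (integrable_exp_M μ hf ha hb) ((integrable_exp_M μ hf' ha hb').mul_const _)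
      fun w => ?_
    simp only [← Real.exp_add]
    exact Real.exp_le_exp.mpr (by nlinarith [h w])
  have h2 := Real.log_le_log p1 h1
  rw [Real.log_mul p2.ne' (Real.exp_pos _).ne', Real.log_exp] at h2
  rw [lamI, lamI, div_add' _ _ _ ha.ne', div_le_div_iff_of_pos_right ha]
  linarith

theorem abs_lamI_sub_le (hf : Measurable f) (hf' : Measurable f') (ha : 0 < a)
    (hb : ∀ w, |f w| ≤ b) {b' : ℝ} (hb' : ∀ w, |f' w| ≤ b') {c : ℝ} (h : ∀ w, |f w - f' w| ≤ c) :
    |lamI μ a f - lamI μ a f'| ≤ c := by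
  have h1 := lamI_le_add μ hf hf' ha hb hb' (c := c) fun w => by linarith [(abs_le.mp (h w)).2]
  have h2 := lamI_le_add μ hf' hf ha hb' hb (c := c) fun w => by linarith [(abs_le.mp (h w)).1]
  rw [abs_le]; constructor <;> linarith

theorem abs_lamI_le (hf : Measurable f) (ha : 0 < a) (hb : ∀ w, |f w| ≤ b) : |lamI μ a f| ≤ b := by
  have h := abs_lamI_sub_le μ hf (f' := fun _ => 0) measurable_const ha hb (b' := 0) (by simp)
    (c := b) (by simpa using hb)
  simpa [lamI] using h

theorem abs_exp_sub_exp_le_M {u v c : ℝ} (hu : u ≤ c) (hv : v ≤ c) :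
    |Real.exp u - Real.exp v| ≤ Real.exp c * |u - v| := by
  have key : ∀ u v : ℝ, u ≤ c → Real.exp u - Real.exp v ≤ Real.exp c * |u - v| := fun u v hu => by
    have h1 := Real.add_one_le_exp (v - u)
    have h2 : Real.exp v = Real.exp u * Real.exp (v - u) := by rw [← Real.exp_add]; ring_nf
    have h3 : Real.exp u ≤ Real.exp c := Real.exp_le_exp.mpr hu
    have h4 : Real.exp u * (u - v) ≤ Real.exp c * |u - v| :=
      (mul_le_mul_of_nonneg_left (le_abs_self _) (Real.exp_pos u).le).trans
        (mul_le_mul_of_nonneg_right h3 (abs_nonneg _))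
    nlinarith [Real.exp_pos u]
  rw [abs_le]
  constructor
  · have := key v u hv
    rw [abs_sub_comm] at this
    linarith
  · exact key u v hu

theorem log_sub_log_le_M {u v c : ℝ} (hu : 0 < u) (hv : Real.exp (-c) ≤ v) :
    Real.log u - Real.log v ≤ Real.exp c * |u - v| := by
  have hv0 := (Real.exp_pos _).trans_le hv
  rw [← Real.log_div hu.ne' hv0.ne']
  refine (Real.log_le_sub_one_of_pos (by positivity)).trans ?_
  rw [div_sub_one hv0.ne', div_le_iff₀ hv0]
  have h1 : 1 ≤ Real.exp c * v := by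
    calc 1 = Real.exp c * Real.exp (-c) := by rw [← Real.exp_add]; simp
      _ ≤ _ := by gcongr
  nlinarith [le_abs_self (u - v), abs_nonneg (u - v)]

theorem abs_log_sub_log_le_M {u v c : ℝ} (hu : Real.exp (-c) ≤ u) (hv : Real.exp (-c) ≤ v) :
    |Real.log u - Real.log v| ≤ Real.exp c * |u - v| := by
  have h1 := log_sub_log_le_M ((Real.exp_pos _).trans_le hu) hv
  have h2 := log_sub_log_le_M ((Real.exp_pos _).trans_le hv) hu
  rw [abs_sub_comm] at h2
  rw [abs_le]; constructor <;> linarith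

theorem abs_lamI_sub_le_integral [Nonempty W] (hf : Measurable f) (hf' : Measurable f') (ha : 0 < a)
    (ha1 : a ≤ 1) (hb : ∀ w, |f w| ≤ b) (hb' : ∀ w, |f' w| ≤ b) :
    |lamI μ a f - lamI μ a f'| ≤ Real.exp (2 * b) * ∫ w, |f w - f' w| ∂μ := by
  have hb0 : 0 ≤ b := (abs_nonneg _).trans (hb (Classical.arbitrary W))
  have hab : a * b ≤ b := by nlinarith
  have e1 : Real.exp (-b) ≤ Real.exp (-(a * b)) := Real.exp_le_exp.mpr (by linarith)
  have h1 := abs_log_sub_log_le_M (e1.trans (le_integral_exp_M μ hf ha hb))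
    (e1.trans (le_integral_exp_M μ hf' ha hb'))
  have h2 : |∫ w, Real.exp (a * f w) ∂μ - ∫ w, Real.exp (a * f' w) ∂μ| ≤
      Real.exp b * a * ∫ w, |f w - f' w| ∂μ := by
    rw [← integral_sub (integrable_exp_M μ hf ha hb) (integrable_exp_M μ hf' ha hb'),
      ← integral_const_mul]
    refine (abs_integral_le_integral_abs).trans (integral_mono
      ((integrable_exp_M μ hf ha hb).sub (integrable_exp_M μ hf' ha hb')).abs
      (((integrable_of_bdd μ hf hb).sub (integrable_of_bdd μ hf' hb')).abs.const_mul _) fun w => ?_)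
    refine (abs_exp_sub_exp_le_M (c := b) (by nlinarith [(abs_le.mp (hb w)).2])
      (by nlinarith [(abs_le.mp (hb' w)).2])).trans (le_of_eq ?_)
    rw [← mul_sub, abs_mul, abs_of_pos ha, mul_assoc]
  rw [lamI, lamI, ← sub_div, abs_div, abs_of_pos ha, div_le_iff₀ ha, two_mul, Real.exp_add]
  refine h1.trans ((mul_le_mul_of_nonneg_left h2 (Real.exp_pos _).le).trans (le_of_eq ?_))
  ring

end one

/-- The recursion in logarithmic form. -/
noncomputable def RL (r : ℕ) (m : Fin r → ℝ) (F : (Fin r → W) → ℝ) : ℝ :=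
  Real.log (rsb μ r m fun v => Real.exp (F v))

theorem measurable_RL {r : ℕ} (m : Fin r → ℝ) {A : Type} [MeasurableSpace A]
    {F : A → (Fin r → W) → ℝ} (hF : Measurable fun x : A × (Fin r → W) => F x.1 x.2) :
    Measurable fun a => RL μ r m (F a) :=
  (measurable_rsb μ r m (fun a v => Real.exp (F a v)) hF.exp).log

omit [IsProbabilityMeasure μ] in
theorem measurable_cons_comp {r : ℕ} {F : (Fin (r + 1) → W) → ℝ} (hF : Measurable F) (w : W) :
    Measurable fun v : Fin r → W => F (Fin.cons w v) :=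
  hF.comp (measurable_cons_M measurable_const measurable_id)

theorem measurable_RL_cons {r : ℕ} (m : Fin r → ℝ) {F : (Fin (r + 1) → W) → ℝ}
    (hF : Measurable F) : Measurable fun w => RL μ r m fun v => F (Fin.cons w v) :=
  measurable_RL μ m (F := fun w v => F (Fin.cons w v))
    (hF.comp (measurable_cons_M measurable_fst measurable_snd))

omit [IsProbabilityMeasure μ] in
theorem rsb_succ_eq {r : ℕ} (m : Fin (r + 1) → ℝ) (F : (Fin (r + 1) → W) → ℝ)
    (h : ∀ w, 0 < rsb μ r (Fin.tail m) fun v => Real.exp (F (Fin.cons w v))) :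
    (rsb μ (r + 1) m fun v => Real.exp (F v)) = (∫ w, Real.exp (m 0 *
      RL μ r (Fin.tail m) fun v => F (Fin.cons w v)) ∂μ) ^ (1 / m 0) := by
  rw [rsb]
  congr 2
  funext w
  rw [Real.rpow_def_of_pos (h w), mul_comm, RL]

theorem RL_spec (r : ℕ) : ∀ (m : Fin r → ℝ), (∀ p, 0 < m p) → ∀ (F : (Fin r → W) → ℝ),
    Measurable F → ∀ b : ℝ, (∀ v, |F v| ≤ b) →
      (0 < rsb μ r m fun v => Real.exp (F v)) ∧ |RL μ r m F| ≤ b := by
  induction r with
  | zero =>
    intro m _ F _ b hb
    exact ⟨Real.exp_pos _, by simpa [RL, rsb] using hb _⟩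
  | succ r ih =>
    intro m hm F hF b hb
    have h1 := fun w => ih (Fin.tail m) (fun p => hm _) _ (measurable_cons_comp hF w) b
      fun v => hb _
    have h2 := (Real.exp_pos _).trans_le
      (le_integral_exp_M μ (measurable_RL_cons μ (Fin.tail m) hF) (hm 0) fun w => (h1 w).2)
    have h3 := abs_lamI_le μ (measurable_RL_cons μ (Fin.tail m) hF) (hm 0) fun w => (h1 w).2
    rw [RL, rsb_succ_eq μ m F fun w => (h1 w).1]
    refine ⟨Real.rpow_pos_of_pos h2 _, ?_⟩
    rwa [Real.log_rpow h2, one_div_mul_eq_div]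

theorem RL_succ {r : ℕ} {m : Fin (r + 1) → ℝ} (hm : ∀ p, 0 < m p) {F : (Fin (r + 1) → W) → ℝ}
    (hF : Measurable F) {b : ℝ} (hb : ∀ v, |F v| ≤ b) :
    RL μ (r + 1) m F = lamI μ (m 0) fun w => RL μ r (Fin.tail m) fun v => F (Fin.cons w v) := by
  have h1 := fun w => RL_spec μ r (Fin.tail m) (fun p => hm _) _ (measurable_cons_comp hF w) b
    fun v => hb _
  have h2 := (Real.exp_pos _).trans_le
    (le_integral_exp_M μ (measurable_RL_cons μ (Fin.tail m) hF) (hm 0) fun w => (h1 w).2)
  rw [RL, rsb_succ_eq μ m F fun w => (h1 w).1, Real.log_rpow h2, one_div_mul_eq_div, lamI]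

theorem abs_RL_sub_le (r : ℕ) : ∀ (m : Fin r → ℝ), (∀ p, 0 < m p) →
    ∀ (F F' : (Fin r → W) → ℝ), Measurable F → Measurable F' → ∀ b b' c : ℝ, (∀ v, |F v| ≤ b) →
      (∀ v, |F' v| ≤ b') → (∀ v, |F v - F' v| ≤ c) → |RL μ r m F - RL μ r m F'| ≤ c := by
  induction r with
  | zero =>
    intro m _ F F' _ _ b b' c _ _ h
    simpa [RL, rsb] using h _
  | succ r ih =>
    intro m hm F F' hF hF' b b' c hb hb' h
    rw [RL_succ μ hm hF hb, RL_succ μ hm hF' hb']
    exact abs_lamI_sub_le μ (measurable_RL_cons μ _ hF) (measurable_RL_cons μ _ hF') (hm 0)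
      (fun w => (RL_spec μ r _ (fun p => hm _) _ (measurable_cons_comp hF w) b fun v => hb _).2)
      (fun w => (RL_spec μ r _ (fun p => hm _) _ (measurable_cons_comp hF' w) b' fun v => hb' _).2)
      fun w => ih _ (fun p => hm _) _ _ (measurable_cons_comp hF w) (measurable_cons_comp hF' w)
        b b' c (fun v => hb _) (fun v => hb' _) fun v => h _

theorem measurePreserving_cons (r : ℕ) :
    MeasurePreserving (fun x : W × (Fin r → W) => (Fin.cons x.1 x.2 : Fin (r + 1) → W))
      (μ.prod (Measure.pi fun _ => μ)) (Measure.pi fun _ => μ) := by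
  have h := (measurePreserving_piFinSuccAbove (fun _ : Fin (r + 1) => μ) 0).symm
  convert h using 1
  funext x
  simp [MeasurableEquiv.piFinSuccAbove, Fin.insertNthEquiv]

theorem integral_cons {r : ℕ} {D : (Fin (r + 1) → W) → ℝ}
    (hD : Integrable D (Measure.pi fun _ => μ)) :
    ∫ u, D u ∂(Measure.pi fun _ => μ) =
      ∫ w, ∫ v, D (Fin.cons w v) ∂(Measure.pi fun _ : Fin r => μ) ∂μ := by
  have h := measurePreserving_cons μ r
  refine Eq.trans ?_ (integral_prod _ (h.integrable_comp_of_integrable hD))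
  conv_lhs => rw [← h.map_eq]
  exact integral_map h.measurable.aemeasurable (by rw [h.map_eq]; exact hD.aestronglyMeasurable)

theorem integrable_integral_cons {r : ℕ} {D : (Fin (r + 1) → W) → ℝ}
    (hD : Integrable D (Measure.pi fun _ => μ)) :
    Integrable (fun w => ∫ v, D (Fin.cons w v) ∂(Measure.pi fun _ : Fin r => μ)) μ :=
  ((measurePreserving_cons μ r).integrable_comp_of_integrable hD).integral_prod_left

theorem abs_RL_sub_le_integral [Nonempty W] (r : ℕ) : ∀ (m : Fin r → ℝ), (∀ p, 0 < m p ∧ m p ≤ 1) →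
    ∀ (F F' : (Fin r → W) → ℝ), Measurable F → Measurable F' → ∀ b : ℝ, (∀ v, |F v| ≤ b) →
      (∀ v, |F' v| ≤ b) → |RL μ r m F - RL μ r m F'| ≤
        Real.exp (2 * b) ^ r * ∫ v, |F v - F' v| ∂(Measure.pi fun _ => μ) := by
  induction r with
  | zero =>
    intro m _ F F' _ _ b _ _
    simp [RL, rsb, integral_unique, Subsingleton.elim (default : Fin 0 → W) Fin.elim0]
  | succ r ih =>
    intro m hm F F' hF hF' b hb hb'
    have h1 := fun w => (RL_spec μ r (Fin.tail m) (fun p => (hm _).1) _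
      (measurable_cons_comp hF w) b fun v => hb _).2
    have h2 := fun w => (RL_spec μ r (Fin.tail m) (fun p => (hm _).1) _
      (measurable_cons_comp hF' w) b fun v => hb' _).2
    have hD : Integrable (fun v => |F v - F' v|) (Measure.pi fun _ => μ) :=
      ((integrable_of_bdd _ hF hb).sub (integrable_of_bdd _ hF' hb')).abs
    rw [RL_succ μ (fun p => (hm p).1) hF hb, RL_succ μ (fun p => (hm p).1) hF' hb']
    refine (abs_lamI_sub_le_integral μ (measurable_RL_cons μ _ hF) (measurable_RL_cons μ _ hF')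
      (hm 0).1 (hm 0).2 h1 h2).trans ?_
    rw [pow_succ', mul_assoc, integral_cons μ hD, ← integral_const_mul (Real.exp (2 * b) ^ r)]
    refine mul_le_mul_of_nonneg_left ?_ (Real.exp_pos _).le
    refine integral_mono ((integrable_of_bdd μ (measurable_RL_cons μ _ hF) h1).sub
      (integrable_of_bdd μ (measurable_RL_cons μ _ hF') h2)).abs
      ((integrable_integral_cons μ hD).const_mul _) fun w => ?_
    exact ih _ (fun p => hm _) _ _ (measurable_cons_comp hF w) (measurable_cons_comp hF' w) b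
      (fun v => hb _) fun v => hb' _

end Vale.Agent.P168
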