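import Vale.Agent.P168.TransA
import Vale.Agent.P168.RsbM

/-!
# P168: finite trial data versus measurable trial functions
-/

namespace Vale.Agent.P168

open Finset PW MeasureTheory Filter
open scoped BigOperators

variable {K : ℕ}

theorem transfer_of_finite (M : FM K) (lam : ℝ) (y : FT) :
    ∃ r m x, Adm r m x ∧
      (fTU M lam fun _ Y => calT r m x Y) = (fTU M lam fun _ Y => TF y Y) ∧
      (fTV M lam fun _ Y => calT r m x Y) = fTV M lam fun _ Y => TF y Y := by
  obtain ⟨g, hg⟩ := exists_samp y.μ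
  choose s hs using fun p ω => exists_samp (y.Q p ω)
  refine ⟨y.r, mrev y.m y.r, xrun y g s, adm_xrun y hg.1 fun p ω => (hs p ω).1, ?_, ?_⟩
  · simp only [fTU, ← YG_GA, calT_xrun y hg hs]
  · simp only [fTV, ← YG_GB, calT_xrun y hg hs]

theorem abs_prod_sub_prod_le_T {ι : Type} (s : Finset ι) {a a' : ι → ℝ}
    (ha : ∀ l, 0 ≤ a l ∧ a l ≤ 1) (ha' : ∀ l, 0 ≤ a' l ∧ a' l ≤ 1) :
    |∏ l ∈ s, a l - ∏ l ∈ s, a' l| ≤ ∑ l ∈ s, |a l - a' l| := by
  classical
  induction s using Finset.induction_on with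
  | empty => simp
  | insert i s hi ih =>
    rw [prod_insert hi, prod_insert hi, sum_insert hi]
    have h1 : 0 ≤ ∏ l ∈ s, a' l := prod_nonneg fun l _ => (ha' l).1
    have h2 : ∏ l ∈ s, a' l ≤ 1 := prod_le_one (fun l _ => (ha' l).1) fun l _ => (ha' l).2
    have e : a i * ∏ l ∈ s, a l - a' i * ∏ l ∈ s, a' l =
        (a i - a' i) * ∏ l ∈ s, a' l + a i * (∏ l ∈ s, a l - ∏ l ∈ s, a' l) := by ring
    rw [e]
    refine (abs_add_le _ _).trans (add_le_add ?_ ?_)
    · rw [abs_mul, abs_of_nonneg h1]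
      exact mul_le_of_le_one_right (abs_nonneg _) h2
    · rw [abs_mul, abs_of_nonneg (ha i).1]
      exact (mul_le_of_le_one_left (abs_nonneg _) (ha i).2).trans ih

section lip
variable {ι : Type} [Fintype ι] [DecidableEq ι] {G : (ι → Bool) → ℝ} {b : ℝ}

theorem abs_log_YG_sub_le (hG : ∀ z, |G z| ≤ b) {x x' : ι → ℝ} (hx : ∀ l, -1 ≤ x l ∧ x l ≤ 1)
    (hx' : ∀ l, -1 ≤ x' l ∧ x' l ≤ 1) : |Real.log (YG G x) - Real.log (YG G x')| ≤
      Real.exp b * Real.exp b * Fintype.card (ι → Bool) * ∑ l, |x l - x' l| := by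
  have lo : ∀ {x : ι → ℝ}, (∀ l, -1 ≤ x l ∧ x l ≤ 1) → Real.exp (-b) ≤ YG G x := fun hx => by
    rw [← Real.le_log_iff_exp_le (YG_pos_T G hx)]
    exact (abs_le.mp (abs_log_YG_le hG hx)).1
  have mem : ∀ {x : ι → ℝ}, (∀ l, -1 ≤ x l ∧ x l ≤ 1) → ∀ (c : ι → Bool) l,
      0 ≤ (1 + x l * sp (c l)) / 2 ∧ (1 + x l * sp (c l)) / 2 ≤ 1 := fun hx c l => by
    have := hx l
    cases c l <;> simp only [sp] <;> norm_num <;> constructor <;> linarith [this.1, this.2]
  refine (abs_log_sub_log_le_M (lo hx) (lo hx')).trans ?_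
  rw [mul_assoc, mul_assoc]
  refine mul_le_mul_of_nonneg_left ?_ (Real.exp_pos _).le
  rw [YG, YG, ← sum_sub_distrib]
  refine (abs_sum_le_sum_abs _ _).trans ((sum_le_sum (g := fun _ => Real.exp b * ∑ l, |x l - x' l|)
    fun c _ => ?_).trans (le_of_eq ?_))
  · rw [← mul_sub, abs_mul, abs_of_pos (Real.exp_pos _)]
    refine mul_le_mul (Real.exp_le_exp.mpr (abs_le.mp (hG c)).2)
      ((abs_prod_sub_prod_le_T _ (mem hx c) (mem hx' c)).trans (sum_le_sum fun l _ => ?_))
      (abs_nonneg _) (Real.exp_pos _).le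
    rw [← sub_div, add_sub_add_left_eq_sub, ← sub_mul, abs_div, abs_mul, abs_sp, abs_two]
    linarith [abs_nonneg (x l - x' l)]
  · rw [sum_const, card_univ, nsmul_eq_mul]; ring

theorem measurable_log_YG (G : (ι → Bool) → ℝ) : Measurable fun x : ι → ℝ => Real.log (YG G x) := by
  refine Measurable.log ?_
  unfold YG
  fun_prop

variable {r : ℕ} {m : Fin r → ℝ} {x x' : (Fin (r + 1) → unitInterval) → ℝ}

/-- The function of all level variables. -/
noncomputable def lev (G : (ι → Bool) → ℝ) (x : (Fin (r + 1) → unitInterval) → ℝ)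
    (u : Fin (r + 1) → ι → unitInterval) : ℝ := Real.log (YG G fun l => x fun p => u p l)

theorem measurable_lev (G : (ι → Bool) → ℝ) (hx : Measurable x) : Measurable (lev G x) :=
  (measurable_log_YG G).comp (measurable_pi_lambda _ fun l => hx.comp
    (measurable_pi_lambda _ fun p => (measurable_pi_apply l).comp (measurable_pi_apply p)))

theorem calT_eq_RL (G : (ι → Bool) → ℝ) (hx : ∀ u, -1 ≤ x u ∧ x u ≤ 1) :
    calT r m x (YG G) = ∫ w : ι → unitInterval, RL volume r m fun v => lev G x (Fin.cons w v) := by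
  rw [calT]
  congr 1
  funext w
  rw [RL]
  congr 2
  funext v
  rw [lev, Real.exp_log (YG_pos_T _ fun l => hx _)]
  congr 1
  funext l
  congr 1
  funext p
  refine Fin.cases rfl (fun q => rfl) p

theorem abs_calT_le (h : Adm r m x) (hG : ∀ z, |G z| ≤ b) : |calT r m x (YG G)| ≤ b := by
  rw [calT_eq_RL G h.2.2.2]
  exact abs_integral_le_of_bdd _ fun w => (RL_spec volume r m (fun p => (h.2.1 p).1) _
    (measurable_cons_comp (measurable_lev G h.2.2.1) w) b
    fun v => abs_log_YG_le hG fun l => h.2.2.2 _).2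

theorem abs_calT_sub_le (h : Adm r m x) (h' : Adm r m x') (hG : ∀ z, |G z| ≤ b) :
    |calT r m x (YG G) - calT r m x' (YG G)| ≤ Real.exp (2 * b) ^ r *
      (Real.exp b * Real.exp b * Fintype.card (ι → Bool) * Fintype.card ι) * ∫ u, |x u - x' u| := by
  have m1 := measurable_lev G h.2.2.1
  have m2 := measurable_lev G h'.2.2.1
  have b1 : ∀ u, |lev G x u| ≤ b := fun u => abs_log_YG_le hG fun l => h.2.2.2 _
  have b2 : ∀ u, |lev G x' u| ≤ b := fun u => abs_log_YG_le hG fun l => h'.2.2.2 _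
  have i1 := integrable_of_bdd volume (measurable_RL_cons volume m m1) fun w =>
    (RL_spec volume r m (fun p => (h.2.1 p).1) _ (measurable_cons_comp m1 w) b fun v => b1 _).2
  have i2 := integrable_of_bdd volume (measurable_RL_cons volume m m2) fun w =>
    (RL_spec volume r m (fun p => (h.2.1 p).1) _ (measurable_cons_comp m2 w) b fun v => b2 _).2
  have hD : Integrable (fun u => |lev G x u - lev G x' u|) (Measure.pi fun _ => volume) :=
    ((integrable_of_bdd _ m1 b1).sub (integrable_of_bdd _ m2 b2)).abs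
  have hx : Integrable (fun u => |x u - x' u|) (Measure.pi fun _ => volume) :=
    ((integrable_of_bdd _ h.2.2.1 fun u => abs_le.mpr (h.2.2.2 u)).sub
      (integrable_of_bdd _ h'.2.2.1 fun u => abs_le.mpr (h'.2.2.2 u))).abs
  have mp : ∀ l : ι, MeasurePreserving (fun (u : Fin (r + 1) → ι → unitInterval) p => u p l)
      (Measure.pi fun _ => volume) (Measure.pi fun _ => volume) := fun l =>
    measurePreserving_pi _ _ fun _ => measurePreserving_eval (fun _ : ι => volume) l
  rw [calT_eq_RL G h.2.2.2, calT_eq_RL G h'.2.2.2, ← integral_sub i1 i2]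
  refine abs_integral_le_integral_abs.trans ((integral_mono (i1.sub i2).abs
    ((integrable_integral_cons volume hD).const_mul (Real.exp (2 * b) ^ r)) fun w =>
      abs_RL_sub_le_integral volume r m (fun p => ⟨(h.2.1 p).1, (h.2.1 p).2.le⟩) _ _
        (measurable_cons_comp m1 w) (measurable_cons_comp m2 w) b (fun v => b1 _)
        fun v => b2 _).trans ?_)
  rw [integral_const_mul, ← integral_cons volume hD, mul_assoc]
  refine mul_le_mul_of_nonneg_left ?_ (by positivity)
  have hi : ∀ l : ι, Integrable (fun u : Fin (r + 1) → ι → unitInterval =>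
      |x (fun p => u p l) - x' fun p => u p l|) (Measure.pi fun _ => volume) := fun l =>
    (mp l).integrable_comp_of_integrable hx
  refine (integral_mono hD ((integrable_finset_sum _ fun l _ => hi l).const_mul
    (Real.exp b * Real.exp b * Fintype.card (ι → Bool))) fun u =>
      abs_log_YG_sub_le hG (fun l => h.2.2.2 _) fun l => h'.2.2.2 _).trans (le_of_eq ?_)
  have e : ∀ l : ι, ∫ u : Fin (r + 1) → ι → unitInterval, |x (fun p => u p l) - x' fun p => u p l|
      ∂(Measure.pi fun _ => volume) = ∫ u, |x u - x' u| := fun l => by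
    have := integral_map (mp l).measurable.aemeasurable
      (f := fun u => |x u - x' u|) (by rw [(mp l).map_eq]; exact hx.aestronglyMeasurable)
    rw [(mp l).map_eq] at this
    exact this.symm
  rw [integral_const_mul, integral_finset_sum _ fun l _ => hi l]
  simp only [e, sum_const, card_univ, nsmul_eq_mul]
  ring

end lip

theorem exists_grid {η : ℝ} (hη : 0 < η) : ∃ (n : ℕ) (g : unitInterval → Fin (n + 1))
    (rep : Fin (n + 1) → unitInterval), Fib g ∧ ∀ t, dist t (rep (g t)) < η := by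
  obtain ⟨n, hn⟩ := exists_nat_one_div_lt hη
  have hN : (0 : ℝ) < (n + 1 : ℕ) := by positivity
  refine ⟨n + 1, fun t => ⟨⌊((n + 1 : ℕ) : ℝ) * t⌋₊, Nat.lt_succ_of_le (Nat.floor_le_of_le ?_)⟩,
    fun a => ⟨(a : ℕ) / ((n + 1 : ℕ) : ℝ), by positivity, ?_⟩, fun a => ?_, fun t => ?_⟩
  · exact mul_le_of_le_one_right hN.le t.2.2
  · rw [div_le_one hN]
    exact_mod_cast Nat.le_of_lt_succ a.2
  · have h : Measurable fun t : unitInterval => ⌊((n + 1 : ℕ) : ℝ) * t⌋₊ :=
      (measurable_const.mul measurable_subtype_coe).nat_floor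
    convert h (measurableSet_singleton (a : ℕ)) using 1
    ext t
    simp only [Set.mem_preimage, Set.mem_singleton_iff, Fin.ext_iff]
  · rw [Subtype.dist_eq, Real.dist_eq]
    have h1 := Nat.floor_le (mul_nonneg hN.le t.2.1)
    have h2 := Nat.lt_floor_add_one (((n + 1 : ℕ) : ℝ) * t)
    refine lt_of_le_of_lt ?_ hn
    have e : (t : ℝ) - (⌊((n + 1 : ℕ) : ℝ) * t⌋₊ : ℝ) / ((n + 1 : ℕ) : ℝ) =
        (((n + 1 : ℕ) : ℝ) * t - ⌊((n + 1 : ℕ) : ℝ) * t⌋₊) / ((n + 1 : ℕ) : ℝ) := by field_simp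
    dsimp only
    rw [e, abs_of_nonneg (div_nonneg (by linarith) hN.le), ← Nat.cast_succ]
    gcongr
    linarith

theorem exists_step {r : ℕ} {x : (Fin (r + 1) → unitInterval) → ℝ} (hx : Measurable x)
    (hx1 : ∀ u, -1 ≤ x u ∧ x u ≤ 1) {δ : ℝ} (hδ : 0 < δ) :
    ∃ (n : ℕ) (g : unitInterval → Fin (n + 1)) (z : (Fin (r + 1) → Fin (n + 1)) → ℝ), Fib g ∧
      (∀ a, -1 ≤ z a ∧ z a ≤ 1) ∧ ((Measurable fun u : Fin (r + 1) → unitInterval =>
        z fun p => g (u p)) → ∫ u, |x u - z fun p => g (u p)| ≤ δ) := by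
  have hi := integrable_of_bdd volume hx fun u => abs_le.mpr (hx1 u)
  obtain ⟨f, hf, hfi⟩ := hi.exists_boundedContinuous_integral_sub_le (half_pos hδ)
  obtain ⟨η, hη, hu⟩ := Metric.uniformContinuous_iff.mp
    (CompactSpace.uniformContinuous_of_continuous f.continuous) (δ / 2) (half_pos hδ)
  obtain ⟨n, g, rep, hg, hrep⟩ := exists_grid hη
  refine ⟨n, g, fun a => max (-1) (min 1 (f fun p => rep (a p))), hg, fun a =>
    ⟨le_max_left _ _, max_le (by norm_num) (min_le_left _ _)⟩, fun hm => ?_⟩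
  have h1 : ∀ u, |x u - max (-1) (min 1 (f fun p => rep (g (u p))))| ≤ ‖x u - f u‖ + δ / 2 := by
    intro u
    have h2 := hu ((dist_pi_lt_iff hη).mpr fun p => hrep (u p))
    rw [Real.dist_eq] at h2
    have h3 := hx1 u
    have h4 : |x u - max (-1) (min 1 (f fun p => rep (g (u p))))| ≤
        |x u - f fun p => rep (g (u p))| := by
      conv_lhs => rw [← min_eq_right h3.2, ← max_eq_right (le_min (by norm_num) h3.1 :
        -1 ≤ min 1 (x u))]
      refine (abs_max_sub_max_le_max _ _ _ _).trans ?_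
      rw [sub_self, abs_zero, max_eq_right (abs_nonneg _)]
      refine (abs_min_sub_min_le_max _ _ _ _).trans ?_
      rw [sub_self, abs_zero, max_eq_right (abs_nonneg _)]
    rw [Real.norm_eq_abs]
    linarith [abs_sub_le (x u) (f u) (f fun p => rep (g (u p)))]
  refine (integral_mono (hi.sub (integrable_of_bdd _ hm (b := 1) fun u => abs_le.mpr
    ⟨le_max_left _ _, max_le (by norm_num) (min_le_left _ _)⟩)).abs
    ((hi.sub hfi).norm.add (integrable_const _)) h1).trans ?_
  rw [integral_add' (hi.sub hfi).norm (integrable_const _)]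
  simp only [integral_const, probReal_univ, smul_eq_mul, one_mul, Pi.sub_apply]
  linarith

/-- Filling the coordinates one after another. -/
def fillS {α : Type} (r : ℕ) (g : unitInterval → α) (j : ℕ) (w : Fin r → α) (t : unitInterval) :
    Fin r → α := fun p => if (p : ℕ) + j + 1 = r then g t else w p

theorem run_fillS {α : Type} [Fintype α] (r : ℕ) (g : unitInterval → α) (j : ℕ) :
    ∀ (w : Fin r → α) (u : Fin j → unitInterval),
      (∀ (p : Fin r) (q : Fin j), (p : ℕ) + j = q + r → run (fillS r g) j w u p = g (u q)) ∧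
      ∀ p : Fin r, (p : ℕ) + j < r → run (fillS r g) j w u p = w p := by
  induction j with
  | zero => exact fun w u => ⟨fun p q => q.elim0, fun p _ => rfl⟩
  | succ j ih =>
    intro w u
    obtain ⟨h1, h2⟩ := ih (fillS r g j w (u 0)) (Fin.tail u)
    refine ⟨fun p q => ?_, fun p h => ?_⟩
    · refine Fin.cases (fun h => ?_) (fun q h => ?_) q
      · rw [Fin.val_zero] at h
        rw [run, h2 p (by omega), fillS, if_pos (by omega)]
      · rw [Fin.val_succ] at h
        rw [run, h1 p q (by omega)]; rfl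
    · rw [run, h2 p (by omega), fillS, if_neg (by omega)]

theorem exists_FT {r : ℕ} {m : Fin r → ℝ} {x : (Fin (r + 1) → unitInterval) → ℝ} (h : Adm r m x)
    {δ : ℝ} (hδ : 0 < δ) : ∃ (y : FT) (x' : (Fin (r + 1) → unitInterval) → ℝ), Adm r m x' ∧
      ∫ u, |x u - x' u| ≤ δ ∧ ∀ (ι : Type) [Fintype ι] [DecidableEq ι] (G : (ι → Bool) → ℝ),
        calT r m x' (YG G) = TF y (YG G) := by
  obtain ⟨n, g, z, hg, hz, hδ⟩ := exists_step h.2.2.1 h.2.2.2 hδ
  have hs : ∀ j w, Fib (fillS r g j w) := fun j w =>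
    hg.comp fun a (p : Fin r) => if (p : ℕ) + j + 1 = r then a else w p
  let y : FT :=
    { r := r
      m := fun j => if hr : 0 < r then m ⟨r - 1 - j, by omega⟩ else 1 / 2
      I := Fin (n + 1)
      μ := lawW g hg
      Ω := Fin r → Fin (n + 1)
      st := fun _ => 0
      Q := fun j w => lawW _ (hs j w)
      xb := fun i w => z (Fin.cons i w)
      m_pos := fun j => by split_ifs; exacts [(h.2.1 _).1, by norm_num]
      m_lt := fun j => by split_ifs; exacts [(h.2.1 _).2, by norm_num]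
      m_anti := fun i j hij => by
        dsimp only
        split_ifs
        · exact h.1.monotone (Fin.mk_le_mk.mpr (by omega))
        · exact le_rfl
      m_strict := fun j hj => by
        rw [dif_pos (by omega), dif_pos (by omega)]
        exact h.1 (Fin.mk_lt_mk.mpr (by omega))
      xb_mem := fun i w => hz _ }
  have hm : mrev y.m r = m := by
    funext p
    have := p.2
    simp only [mrev, y, dif_pos (show 0 < r by omega)]
    congr 1
    exact Fin.ext (by dsimp only; omega)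
  have hx : xrun y g (fillS r g) = fun u => z fun p => g (u p) := by
    funext u
    simp only [xrun, y]
    congr 1
    funext p
    refine Fin.cases rfl (fun q => ?_) p
    exact (run_fillS r g r _ _).1 q q rfl
  have ha := adm_xrun y hg hs
  have hc := fun (ι : Type) [Fintype ι] [DecidableEq ι] (G : (ι → Bool) → ℝ) =>
    calT_xrun y (samp_lawW g hg) (fun j w => samp_lawW _ (hs j w)) G
  change Adm r (mrev y.m r) _ at ha
  change ∀ (ι : Type) [Fintype ι] [DecidableEq ι] (G : (ι → Bool) → ℝ),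
    calT r (mrev y.m r) _ _ = _ at hc
  rw [hm, hx] at ha hc
  exact ⟨y, _, ha, hδ ha.2.2.1, hc⟩

theorem transfer_to_finite (hK : 1 ≤ K) (M : FM K) {lam : ℝ} (hlam : 0 < lam) {r : ℕ}
    {m : Fin r → ℝ} {x : (Fin (r + 1) → unitInterval) → ℝ} (h : Adm r m x) {ε : ℝ} (hε : 0 < ε) :
    ∃ y : FT, |(fTU M lam fun _ Y => calT r m x Y) - fTU M lam fun _ Y => TF y Y| ≤ ε ∧
      |(fTV M lam fun _ Y => calT r m x Y) - fTV M lam fun _ Y => TF y Y| ≤ ε := by
  have : NeZero K := ⟨by omega⟩
  obtain ⟨b, hb0, hb1, hb2⟩ := M.exists_bound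
  have hK1 : (1 : ℝ) ≤ K := by exact_mod_cast hK
  have t1 : 0 ≤ (K - 1) * lam := mul_nonneg (by linarith) hlam.le
  have t2 : 0 ≤ K * lam := by positivity
  obtain ⟨k0, hk1, hk2⟩ := ((pois_trunc t1 (b + 1) (half_pos hε)).and
    (pois_trunc t2 (b + 1) (half_pos hε))).exists
  let cst : ℕ → ℝ := fun k => Real.exp (2 * ((b + 1) * (k + 1))) ^ r *
    (Real.exp ((b + 1) * (k + 1)) * Real.exp ((b + 1) * (k + 1)) *
      Fintype.card (Fin k × Fin K → Bool) * Fintype.card (Fin k × Fin K))
  have hc0 : ∀ k, 0 ≤ cst k := fun k => by positivity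
  have hC0 : 0 ≤ ∑ k ∈ range (k0 + 1), cst k := sum_nonneg fun k _ => hc0 k
  obtain ⟨y, x', h', hδ, hy⟩ := exists_FT h
    (δ := ε / 2 / (∑ k ∈ range (k0 + 1), cst k + 1)) (by positivity)
  have key : ∀ k ≤ k0, ∀ G : (Fin k × Fin K → Bool) → ℝ, (∀ z, |G z| ≤ (b + 1) * (k + 1)) →
      |calT r m x (YG G) - TF y (YG G)| ≤ ε / 2 := fun k hk G hG => by
    rw [← hy]
    refine (abs_calT_sub_le h h' hG).trans ?_
    have h1 : cst k ≤ ∑ k ∈ range (k0 + 1), cst k + 1 :=
      (single_le_sum (f := cst) (fun k _ => hc0 k) (mem_range.mpr (Nat.lt_succ_of_le hk))).trans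
        (by linarith)
    refine (mul_le_mul h1 hδ (integral_nonneg fun u => abs_nonneg _) (by positivity)).trans
      (le_of_eq ?_)
    field_simp
  refine ⟨y, ?_, ?_⟩
  · simp only [fTU, ← YG_GA]
    refine (hk2 _ _ (ε / 2) (fun k => ?_) (fun k => ?_) fun k hk => ?_).trans (by linarith)
    · exact abs_E_le_const _ fun c => abs_E_le_const _ fun h0 => abs_expect_le_P fun ell =>
        abs_calT_le h (abs_GA_le (fun _ _ => hb1 _ _) ell (hb2 h0))
    · exact abs_E_le_const _ fun c => abs_E_le_const _ fun h0 => abs_expect_le_P fun ell =>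
        abs_TF_YG_le y (abs_GA_le (fun _ _ => hb1 _ _) ell (hb2 h0))
    · refine abs_E_sub_le_const _ fun c => abs_E_sub_le_const _ fun h0 => ?_
      rw [← E_unif, ← E_unif]
      exact abs_E_sub_le_const _ fun ell => key k hk _ (abs_GA_le (fun _ _ => hb1 _ _) ell (hb2 h0))
  · simp only [fTV, ← YG_GB]
    refine (hk1 _ _ (ε / 2) (fun k => ?_) (fun k => ?_) fun k hk => ?_).trans (by linarith)
    · exact abs_E_le_const _ fun c => abs_calT_le h (abs_GB_le hb0 fun _ _ => hb1 _ _)
    · exact abs_E_le_const _ fun c => abs_TF_YG_le y (abs_GB_le hb0 fun _ _ => hb1 _ _)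
    · exact abs_E_sub_le_const _ fun c => key k hk _ (abs_GB_le hb0 fun _ _ => hb1 _ _)

end Vale.Agent.P168
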