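import Vale.Agent.P168.UpperA

/-!
# P168: the interpolation upper bound for finite models
-/

namespace Vale.Agent.P168

open Finset PW
open scoped BigOperators

section up
variable {K : ℕ} (M : FM K) (y : FT)

/-- Terms of the interpolating Hamiltonian. -/
abbrev TmU (K : ℕ) (y : FT) (S : Type) : Type := (Fin K → y.Ω) → S → ℝ

noncomputable def VNU (N : ℕ) (m : Multiset (TmU K y (Fin N → Bool))) : ℝ :=
  (PW.pi fun _ : Fin N => M.q).E fun h =>
    valM y.a (piCh fun _ : Fin K => y.Qs) (y.r + 1) (fun _ => y.st)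
      (PW.pi fun _ : Fin N => unif Bool) (fun _ => true) (fun s => ∑ i, M.hv (h i) * sp (s i)) m

noncomputable def V1U (m : Multiset (TmU K y Bool)) : ℝ :=
  M.q.E fun h => valM y.a (piCh fun _ : Fin K => y.Qs) (y.r + 1) (fun _ => y.st)
    (unif Bool) true (fun s => M.hv h * sp s) m

def tm1 (N : ℕ) (j : M.Θ × (Fin K → Fin N)) : TmU K y (Fin N → Bool) :=
  fun _ s => M.th j.1 fun a => s (j.2 a)

noncomputable def um2 (j : M.Θ × (Fin K × (Fin K → y.I))) : TmU K y Bool := fun w e =>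
  Real.log (∑ σ : Fin K → Bool with σ j.2.1 = e,
    Real.exp (M.th j.1 σ) * ∏ a ∈ univ.erase j.2.1, (1 + y.xb (j.2.2 a) (w a) * sp (σ a)) / 2)

noncomputable def tm2 (N : ℕ) (j : Fin N × (M.Θ × (Fin K × (Fin K → y.I)))) :
    TmU K y (Fin N → Bool) := fun w s => um2 M y j.2 w (s j.1)

noncomputable def tm3 (N : ℕ) (j : M.Θ × (Fin K → y.I)) : TmU K y (Fin N → Bool) :=
  fun w _ => Real.log (YG (M.th j.1) fun a => y.xb (j.2 a) (w a))

noncomputable def nu1 (N : ℕ) [NeZero N] : PW (M.Θ × (Fin K → Fin N)) := M.p.prod (unif _)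

noncomputable def nu2 [NeZero K] : PW (M.Θ × (Fin K × (Fin K → y.I))) :=
  M.p.prod ((unif _).prod (PW.pi fun _ => y.μ))

noncomputable def nu3 : PW (M.Θ × (Fin K → y.I)) := M.p.prod (PW.pi fun _ => y.μ)

theorem YG_pos {ι : Type} [Fintype ι] [DecidableEq ι] (G : (ι → Bool) → ℝ) {x : ι → ℝ}
    (hx : ∀ l, -1 ≤ x l ∧ x l ≤ 1) : 0 < YG G x := by
  have h := (PW.pi fun l => spinW (x l) (hx l)).E_pos fun z => Real.exp_pos (G z)
  simp only [E, PW.pi, spinW] at h
  simpa only [YG, mul_comm] using h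

theorem um2_eq (j : M.Θ × (Fin K × (Fin K → y.I))) (w : Fin K → y.Ω) (e : Bool) :
    um2 M y j w e = Real.log (YG (fun σ => M.th j.1 (Function.update σ j.2.1 e))
      fun a => y.xb (j.2.2 a) (w a)) := by
  rw [um2, YG, sum_update_P (fun σ => Real.exp (M.th j.1 σ))]

theorem exp_um2 (j : M.Θ × (Fin K × (Fin K → y.I))) (w : Fin K → y.Ω) (e : Bool) :
    Real.exp (um2 M y j w e) = ∑ σ : Fin K → Bool with σ j.2.1 = e,
      Real.exp (M.th j.1 σ) * ∏ a ∈ univ.erase j.2.1, (1 + y.xb (j.2.2 a) (w a) * sp (σ a)) / 2 := by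
  rw [um2_eq, Real.exp_log (YG_pos _ fun a => y.xb_mem _ _), YG,
    sum_update_P (fun σ => Real.exp (M.th j.1 σ))]

variable {M} in
theorem abs_um2_le {b : ℝ} (hb : ∀ c σ, |M.th c σ| ≤ b) (j : M.Θ × (Fin K × (Fin K → y.I)))
    (w : Fin K → y.Ω) (e : Bool) : |um2 M y j w e| ≤ b := by
  rw [um2_eq]
  exact abs_log_YG_le (fun _ => hb _ _) fun a => y.xb_mem _ _

theorem inc_VNU (N : ℕ) {J : Type} {τ : J → TmU K y (Fin N → Bool)} {b : ℝ}
    (h : ∀ j w s, |τ j w s| ≤ b) : Inc (fun j => ({τ j} : Multiset _)) (VNU M y N) b :=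
  fun x j => abs_E_sub_le_const _ fun _ => abs_valM_add_sub_le _ _ _ _ _ _ y.a_pos _ x (h j)

theorem inc_V1U {J : Type} {τ : J → TmU K y Bool} {b : ℝ}
    (h : ∀ j w s, |τ j w s| ≤ b) : Inc (fun j => ({τ j} : Multiset _)) (V1U M y) b :=
  fun x j => abs_E_sub_le_const _ fun _ => abs_valM_add_sub_le _ _ _ _ _ _ y.a_pos _ x (h j)

/-- The Gibbs chain of a multiset of terms. -/
noncomputable def PbU (N : ℕ) (x : Multiset (TmU K y (Fin N → Bool))) (h : Fin N → M.Hh) :
    Ch ((Fin N → Bool) × (Fin x.toList.length → Fin K → y.Ω)) :=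
  T y.a (baseCh (piCh fun _ : Fin K => y.Qs) (PW.pi fun _ : Fin N => unif Bool) _) 0
    (hamU (fun s => ∑ i, M.hv (h i) * sp (s i)) x.toList.get)

theorem Mop_VNU (N : ℕ) {J : Type} [Fintype J] (μ : PW J) (τ : J → TmU K y (Fin N → Bool))
    (x : Multiset (TmU K y (Fin N → Bool))) :
    Mop μ (fun j => ({τ j} : Multiset _)) (VNU M y N) x = VNU M y N x +
      (PW.pi fun _ : Fin N => M.q).E fun h => μ.E fun j =>
        X y.a (prodCh (PbU M y N x h) (piCh fun _ : Fin K => y.Qs)) 0 (fun z => τ j z.2 z.1.1)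
          (y.r + 1) ((fun _ => true, fun _ _ => y.st), fun _ => y.st) := by
  simp only [Mop, VNU, valM_add, E_add, E_const]
  rw [E_comm]; rfl

theorem Mop1_eq (N : ℕ) [NeZero N] (x : Multiset (TmU K y (Fin N → Bool))) :
    Mop (nu1 M N) (fun j => ({tm1 M y N j} : Multiset _)) (VNU M y N) x = VNU M y N x +
      (PW.pi fun _ : Fin N => M.q).E fun h => M.p.E fun c =>
        D1 y (PbU M y N x h) (fun _ => true, fun _ _ => y.st) (fun i ω => ω.1 i) (M.th c) := by
  rw [Mop_VNU]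
  congr 1
  refine E_congr _ fun h => ?_
  rw [nu1, E_prod]
  refine E_congr _ fun c => ?_
  rw [D1, ← E_unif]
  refine E_congr _ fun i => ?_
  exact congrFun ((mor_fst (PbU M y N x h) (piCh fun _ : Fin K => y.Qs)).X (a := y.a)
    (fun ω => M.th c fun j => ω.1 (i j)) (y.r + 1)) _

theorem Mop2_eq [NeZero K] (N : ℕ) [NeZero N] (x : Multiset (TmU K y (Fin N → Bool))) :
    Mop ((unif (Fin N)).prod (nu2 M y)) (fun j => ({tm2 M y N j} : Multiset _)) (VNU M y N) x =
      VNU M y N x + (PW.pi fun _ : Fin N => M.q).E fun h => M.p.E fun c =>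
        D2 y (PbU M y N x h) (fun _ => true, fun _ _ => y.st) (fun i ω => ω.1 i) (M.th c) := by
  rw [Mop_VNU]
  congr 1
  refine E_congr _ fun h => ?_
  simp only [nu2, E_prod]
  rw [E_comm]
  refine E_congr _ fun c => ?_
  simp only [D2, ← E_unif]
  rw [E_comm]
  rfl

theorem Mop3_eq (N : ℕ) (x : Multiset (TmU K y (Fin N → Bool))) :
    Mop (nu3 M y) (fun j => ({tm3 M y N j} : Multiset _)) (VNU M y N) x =
      VNU M y N x + M.p.E fun c => D3 y (M.th c) := by
  rw [Mop_VNU, ← E_const (PW.pi fun _ : Fin N => M.q) (M.p.E fun c => D3 y (M.th c))]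
  congr 1
  refine E_congr _ fun h => ?_
  rw [nu3, E_prod]
  refine E_congr _ fun c => ?_
  rw [D3, TF]
  refine E_congr _ fun t => ?_
  rw [← X_Qs]
  exact congrFun ((mor_snd (PbU M y N x h) (piCh fun _ : Fin K => y.Qs)).X (a := y.a)
    (fun w => Real.log (YG (M.th c) fun a => y.xb (t a) (w a))) (y.r + 1)) _

theorem Pop_of_shift {𝓜 J : Type} [AddCommMonoid 𝓜] [Fintype J] {μ : PW J} {ψ : J → 𝓜}
    {V : 𝓜 → ℝ} {d t : ℝ} (ht : 0 ≤ t) (h : ∀ x, Mop μ ψ V x = V x + d) :
    Pop t μ ψ V = fun x => V x + t * d := by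
  have h1 : ∀ k : ℕ, (Mop μ ψ)^[k] V = fun x => V x + d * k := fun k => by
    induction k with
    | zero => simp
    | succ k ih =>
      funext x
      rw [Function.iterate_succ_apply', ih]
      have := h x
      simp only [Mop, E_add_const] at this ⊢
      rw [this]; push_cast; ring
  funext x
  simp only [Pop, h1]
  rw [pois_add' (c := |V x|) (c' := |d|) ht, pois_const, pois_id, mul_comm]
  · exact fun k => le_mul_of_one_le_right (abs_nonneg _)
      (by linarith [(Nat.cast_nonneg k : (0 : ℝ) ≤ k)])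
  · intro k
    rw [abs_mul, Nat.abs_cast]
    gcongr
    linarith

theorem lam_one_unif {α : Type} [Fintype α] [Nonempty α] (H : α → ℝ) :
    lam 1 (unif α) H = Real.log (∑ σ, Real.exp (H σ)) - Real.log (Fintype.card α) := by
  simp only [lam, one_mul, div_one, E, unif, ← mul_sum]
  rw [Real.log_mul (by positivity) (sum_pos (fun _ _ => Real.exp_pos _) univ_nonempty).ne',
    Real.log_inv]
  ring

theorem pois_sub_const {t c : ℝ} {g : ℕ → ℝ} (ht : 0 ≤ t) (a : ℝ)
    (hg : ∀ k, |g k - a| ≤ c * (k + 1)) : pois t (fun k => g k - a) = pois t g - a := by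
  have h := pois_add' (g' := fun _ => a) (c' := |a|) ht hg fun k =>
    le_mul_of_one_le_right (abs_nonneg _) (by linarith [(Nat.cast_nonneg k : (0 : ℝ) ≤ k)])
  simp only [sub_add_cancel, pois_const] at h
  linarith

theorem Pop1_eq {lam : ℝ} (hlam : 0 < lam) (N : ℕ) [NeZero N] :
    Pop (lam * N) (nu1 M N) (fun j => ({tm1 M y N j} : Multiset _)) (VNU M y N) 0 =
      N * fpress M lam N - N * Real.log 2 := by
  obtain ⟨b, -, hb1, -⟩ := M.exists_bound
  have hN : (N : ℝ) ≠ 0 := by exact_mod_cast NeZero.ne N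
  have hI := inc_VNU M y N (τ := tm1 M y N) (b := b) fun j w s => hb1 _ _
  have key : ∀ k : ℕ, (Mop (nu1 M N) fun j => ({tm1 M y N j} : Multiset _))^[k] (VNU M y N) 0 =
      ((PW.pi fun _ : Fin k => M.p).E fun c => (PW.pi fun _ : Fin N => M.q).E fun h =>
        𝔼 idx : Fin k → Fin K → Fin N, logZ (fun l => M.th (c l)) idx fun i => M.hv (h i)) -
        N * Real.log 2 := fun k => by
    rw [Mop_iterate, nu1, E_pi_split]
    simp only [← E_unif, ← E_sub_const]
    refine E_congr _ fun c => ?_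
    simp only [VNU]
    rw [E_comm, pi_unif]
    refine E_congr _ fun h => E_congr _ fun i => ?_
    rw [zero_add, valM_eq, valU_shift]
    simp only [tm1]
    rw [X_const y.m_pos, pi_unif, lam_one_unif]
    simp only [logZ, add_comm]
    simp
  rw [fpress, ← mul_assoc, mul_one_div_cancel hN, one_mul, Pop, ← pois_sub_const (by positivity)]
  · exact pois_congr key
  · intro k
    rw [← key]
    exact abs_iter_le hI k 0

theorem Pop2_eq [NeZero K] {lam : ℝ} (hlam : 0 < lam) :
    Pop (K * lam) (nu2 M y) (fun j => ({um2 M y j} : Multiset _)) (V1U M y) 0 =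
      (fTU M lam fun _ Y => TF y Y) - Real.log 2 := by
  obtain ⟨b, -, hb1, -⟩ := M.exists_bound
  have hI := inc_V1U M y (τ := um2 M y) (b := b) (abs_um2_le y hb1)
  have key : ∀ k : ℕ, (Mop (nu2 M y) fun j => ({um2 M y j} : Multiset _))^[k] (V1U M y) 0 =
      ((PW.pi fun _ : Fin k => M.p).E fun c => M.q.E fun h =>
        𝔼 ell : Fin k → Fin K, TF y (Uf (fun l => M.th (c l)) ell (M.hv h))) - Real.log 2 :=
      fun k => by
    rw [Mop_iterate, nu2, E_pi_split]
    simp only [← E_unif, ← E_sub_const, E_pi_split]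
    refine E_congr _ fun c => ?_
    rw [E_comm M.q, pi_unif]
    refine E_congr _ fun ell => ?_
    simp only [V1U]
    rw [E_comm _ M.q]
    refine E_congr _ fun h => ?_
    rw [TF, ← E_sub_const, ← E_pi_curry]
    refine E_congr _ fun t => ?_
    rw [zero_add, valM_eq, valU_shift, sub_eq_add_neg,
      ← congrFun (X_add_const y.m_pos _ (-Real.log 2) y.r)]
    congr 1
    funext w
    rw [lam_one_unif, sub_eq_add_neg]
    simp only [Uf, Real.exp_add, Real.exp_sum, exp_um2]
    simp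
  rw [fTU, Pop, ← pois_sub_const (by positivity)]
  · exact pois_congr key
  · intro k
    rw [← key]
    exact abs_iter_le hI k 0

theorem TF_Vf {k : ℕ} (th : Fin k → (Fin K → Bool) → ℝ) : TF y (Vf th) = ∑ l, D3 y (th l) := by
  have h1 : ∀ l, D3 y (th l) = (PW.pi fun _ : Fin k => PW.pi fun _ : Fin K => y.μ).E fun t =>
      X y.m (piCh fun _ : Fin K => y.Q) 0
        (fun w => Real.log (YG (th l) fun a => y.xb (t l a) (w a))) y.r fun _ => y.st := fun l => by
    rw [D3, TF, ← E_pi_eval (fun _ : Fin k => PW.pi fun _ : Fin K => y.μ) l]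
  simp only [h1]
  rw [← E_sum, TF, ← E_pi_curry]
  refine E_congr _ fun t => ?_
  have h2 := congrFun (X_pi y.m (fun _ : Fin k => piCh fun _ : Fin K => y.Q) 0
    (fun l w => Real.log (YG (th l) fun a => y.xb (t (l, a)) (w a))) y.r) fun _ _ => y.st
  rw [← h2]
  refine Eq.trans ?_ (congrFun ((mor_curry (ι := Fin k) (κ := Fin K) y.Q).X (a := y.m) _ y.r)
    fun _ => y.st)
  congr 1
  funext w
  rw [← Real.log_prod fun l _ => (YG_pos _ fun a => y.xb_mem _ _).ne']
  rfl

theorem fTV_eq (lam : ℝ) :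
    (fTV M lam fun _ Y => TF y Y) = (K - 1) * lam * M.p.E fun c => D3 y (M.th c) := by
  rw [fTV, mul_comm _ (M.p.E _), ← pois_id (t := (K - 1) * lam)]
  refine pois_congr fun k => ?_
  simp only [TF_Vf, E_sum]
  simp only [E_pi_eval (fun _ : Fin k => M.p) _ fun c => D3 y (M.th c)]
  simp [mul_comm]

theorem Pop_sum_U {𝓜 J ι : Type} [AddCommMonoid 𝓜] [Fintype J] [Fintype ι] {μ : PW J} {ψ : J → 𝓜}
    {V : ι → 𝓜 → ℝ} {c t : ℝ} (ht : 0 ≤ t) (h : ∀ i, Inc ψ (V i) c) (x : 𝓜) :
    Pop t μ ψ (fun x => ∑ i, V i x) x = ∑ i, Pop t μ ψ (V i) x := by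
  simp only [Pop, pois_eq]
  rw [← Summable.tsum_finsetSum fun i _ => pois_summable' ht fun k => abs_iter_le (h i) k x]
  refine tsum_congr fun k => ?_
  simp only [Mop_iterate, E_sum, mul_sum]

theorem VNU_place (N : ℕ) (x : Fin N → Multiset (TmU K y Bool)) :
    VNU M y N (placeU _ _ _ x) = ∑ i, V1U M y (x i) := by
  simp only [VNU, V1U]
  rw [E_congr _ fun h : Fin N → M.Hh => valM_place y.a (piCh fun _ : Fin K => y.Qs) (y.r + 1)
    (fun _ => y.st) (unif Bool) true (fun i s => M.hv (h i) * sp s) x, E_sum]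
  exact sum_congr rfl fun i _ => E_pi_eval (fun _ : Fin N => M.q) i fun h =>
    valM y.a (piCh fun _ : Fin K => y.Qs) (y.r + 1) (fun _ => y.st)
      (unif Bool) true (fun s => M.hv h * sp s) (x i)

theorem Pop2N_eq [NeZero K] {t : ℝ} (ht : 0 ≤ t) (N : ℕ) [NeZero N] :
    Pop (t * N) ((unif (Fin N)).prod (nu2 M y)) (fun j => ({tm2 M y N j} : Multiset _))
      (VNU M y N) 0 = N * Pop t (nu2 M y) (fun j => ({um2 M y j} : Multiset _)) (V1U M y) 0 := by
  obtain ⟨b, hb0, hb1, -⟩ := M.exists_bound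
  have hN : (0 : ℝ) < N := by exact_mod_cast Nat.pos_of_ne_zero (NeZero.ne N)
  have hN1 : (1 : ℝ) ≤ N := by exact_mod_cast Nat.pos_of_ne_zero (NeZero.ne N)
  have hI := inc_V1U M y (τ := um2 M y) (b := b) (abs_um2_le y hb1)
  have hI0 : Inc (fun _ : M.Θ × (Fin K × (Fin K → y.I)) => (0 : Multiset (TmU K y Bool)))
      (V1U M y) 0 := fun x j => by simp
  have h1 : (fun j => ({tm2 M y N j} : Multiset _)) = fun j =>
      placeU _ _ _ (Pi.single j.1 ({um2 M y j.2} : Multiset (TmU K y Bool))) := by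
    funext j
    simp only [placeU, AddMonoidHom.coe_mk, ZeroHom.coe_mk]
    rw [sum_eq_single j.1]
    · simp only [Pi.single_eq_same, Multiset.map_singleton]; rfl
    · intro i _ hi
      simp [Pi.single_eq_of_ne hi]
    · simp
  rw [h1, ← map_zero (placeU (Fin K → y.Ω) Bool (Fin N)), Pop_hom]
  simp only [VNU_place]
  rw [Pop_sum_U (c := b) (by positivity)]
  · rw [sum_congr rfl (g := fun _ =>
      Pop t (nu2 M y) (fun j => ({um2 M y j} : Multiset _)) (V1U M y) 0)]
    · simp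
    intro i _
    have h2 := Pop_hom (Pi.evalAddMonoidHom (fun _ : Fin N => Multiset (TmU K y Bool)) i) (t * N)
      ((unif (Fin N)).prod (nu2 M y))
      (fun j => Pi.single j.1 ({um2 M y j.2} : Multiset (TmU K y Bool))) (V1U M y) 0
    simp only [Pi.evalAddMonoidHom_apply, Pi.zero_apply] at h2
    rw [← h2, Pop_thin (μ := nu2 M y) (μ' := nu2 M y) (p := 1 / N) (by positivity) (by positivity)
      (by rw [div_le_one hN]; exact hN1) hI hI0,
      Pop_of_shift (d := 0) (ψ := fun _ => 0) (t := (1 - 1 / N) * (t * N))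
        (mul_nonneg (by rw [sub_nonneg, div_le_one hN]; exact hN1)
        (by positivity)) (fun x => by simp [Mop])]
    · rw [show 1 / (N : ℝ) * (t * N) = t by field_simp]
      simp
    · intro W x
      simp only [Mop, E_prod, add_zero, E_const]
      rw [E.eq_1 (unif _), ← add_sum_erase _ _ (mem_univ i),
        sum_congr rfl (g := fun _ => (N : ℝ)⁻¹ * W x)]
      · simp only [unif, Pi.single_eq_same, Fintype.card_fin, sum_const, card_erase_of_mem (mem_univ i),
          card_univ, nsmul_eq_mul]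
        rw [Nat.cast_pred (Nat.pos_of_ne_zero (NeZero.ne N))]
        field_simp
      · intro i' hi'
        simp [unif, Pi.single_eq_of_ne (ne_of_mem_erase hi').symm]
  · intro i x j
    by_cases hi : i = j.1
    · subst hi
      simpa using hI (x j.1) j.2
    · simpa [Pi.single_eq_of_ne hi] using hb0

end up

theorem upper {K : ℕ} (hK : 1 ≤ K) (M : FM K) {lam : ℝ} (hlam : 0 < lam) (y : FT) {η : ℝ}
    (hkey : ∀ (Ωb : Type) [Fintype Ωb] (Pb : Ch Ωb) (ωb : Ωb) (S : Type) [Fintype S] [Nonempty S]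
      (sg : S → Ωb → Bool), (M.p.E fun c => DD y Pb ωb sg (M.th c)) ≤ η)
    (N : ℕ) (hN : 0 < N) :
    fpress M lam N ≤ (fTU M lam fun _ Y => TF y Y) - (fTV M lam fun _ Y => TF y Y) + lam * η := by
  have : NeZero K := ⟨by omega⟩
  have : NeZero N := ⟨by omega⟩
  obtain ⟨b, hb0, hb1, -⟩ := M.exists_bound
  have hN' : (0 : ℝ) < N := by exact_mod_cast hN
  have hK1 : (1 : ℝ) ≤ K := by exact_mod_cast hK
  have hp0 : (0 : ℝ) ≤ 1 / K := by positivity
  have hp1 : (1 : ℝ) / K ≤ 1 := by rw [div_le_one (by positivity)]; exact hK1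
  have hI1 := inc_VNU M y N (τ := tm1 M y N) (b := b) fun j w s => hb1 _ _
  have hI2 := inc_VNU M y N (τ := tm2 M y N) (b := b) fun j w s => abs_um2_le y hb1 _ _ _
  have hI3 := inc_VNU M y N (τ := tm3 M y N) (b := b) fun j w s =>
    abs_log_YG_le (hb1 _) fun a => y.xb_mem _ _
  have hIm : Inc (Sum.elim (fun j => ({tm1 M y N j} : Multiset _))
      fun j => ({tm3 M y N j} : Multiset _)) (VNU M y N) b := fun x j => by
    rcases j with j | j
    · exact hI1 x j
    · exact hI3 x j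
  have hmix : ∀ (W : Multiset (TmU K y (Fin N → Bool)) → ℝ) x,
      Mop (mixW (1 / K) hp0 hp1 (nu1 M N) (nu3 M y))
        (Sum.elim (fun j => ({tm1 M y N j} : Multiset _)) fun j => ({tm3 M y N j} : Multiset _)) W x =
      1 / K * Mop (nu1 M N) (fun j => ({tm1 M y N j} : Multiset _)) W x +
        (1 - 1 / K) * Mop (nu3 M y) (fun j => ({tm3 M y N j} : Multiset _)) W x := fun W x => by
    simp only [Mop, E_mixW, Sum.elim_inl, Sum.elim_inr]
  have ht : 0 ≤ K * lam * N := by positivity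
  have a1 := Pop_le_Pop (μ := mixW (1 / K) hp0 hp1 (nu1 M N) (nu3 M y))
    (μ' := (unif (Fin N)).prod (nu2 M y)) (η := η / K) ht hIm hI2 (fun x => by
      rw [hmix, Mop1_eq, Mop2_eq, Mop3_eq]
      have h1 := (PW.pi fun _ : Fin N => M.q).E_le_const fun h =>
        hkey _ (PbU M y N x h) (fun _ => true, fun _ _ => y.st) (Fin N) fun i ω => ω.1 i
      simp only [DD, E_sub, E_add, E_const_mul, E_const] at h1
      rw [← sub_nonneg] at h1 ⊢
      refine le_of_le_of_eq (mul_nonneg hp0 h1) ?_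
      field_simp
      ring) 0
  have h3 : 0 ≤ (1 - 1 / K) * (K * lam * N) := mul_nonneg (by linarith) ht
  have hI4 : Inc (fun j => ({tm1 M y N j} : Multiset _))
      (fun _ => (1 - 1 / K) * (K * lam * N) * M.p.E fun c => D3 y (M.th c)) 0 := fun x j => by simp
  rw [Pop_thin ht hp0 hp1 hI1 hI3 hmix, Pop_of_shift h3 (Mop3_eq M y N),
    Pop_add (by positivity) hI1 hI4, Pop_const, Pop2N_eq M y (by positivity), Pop2_eq M y hlam,
    show 1 / (K : ℝ) * (K * lam * N) = lam * N by field_simp, Pop1_eq M y hlam] at a1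
  rw [fTV_eq]
  have e1 : (1 - 1 / K) * (K * lam * N) = N * ((K - 1) * lam) := by field_simp
  have e2 : K * lam * N * (η / K) = N * (lam * η) := by field_simp
  rw [e1, e2] at a1
  refine le_of_mul_le_mul_left ?_ hN'
  linarith

end Vale.Agent.P168
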