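import Vale.Agent.P168.Core
import Vale.Agent.P168.Ass
import Vale.Agent.P168.Reduce
import Vale.Agent.P168.Transfer
import Vale.Agent.P168.Key
import Vale.Agent.P168.Upper

/-!
# P168: assembly
-/

namespace Vale.Agent.P168

open Finset PW MeasureTheory ProbabilityTheory Filter
open scoped BigOperators Topology

variable {K : ℕ} {lam : ℝ} {Ω : Type*} [MeasurableSpace Ω] (P : Measure Ω) [IsProbabilityMeasure P]

theorem exists_glb (hK : 1 ≤ K) (hlam : 0 < lam) (θ : Ω → (Fin K → Bool) → ℝ) (hθm : Measurable θ)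
    (hθ : ∀ σ, Integrable (fun ω => θ ω σ) P) (ν : Measure ℝ) [IsProbabilityMeasure ν]
    (hν : Integrable (fun h : ℝ => h) ν) : ∃ L, IsGLB (trial lam P θ ν) L := by
  obtain ⟨M, -, h2, -⟩ := reduce hK hlam P θ hθm hθ ν hν one_pos
  obtain ⟨C, hC⟩ := fT_bound M hlam hK
  refine Real.exists_isGLB ⟨_, 0, Fin.elim0, fun _ => 0, ?_, rfl⟩ ⟨-(2 * C + 4), ?_⟩
  · exact ⟨fun i => i.elim0, fun i => i.elim0, measurable_const, fun _ => by norm_num⟩
  · rintro v ⟨r, m, x, hx, rfl⟩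
    obtain ⟨y, hy1, hy2⟩ := transfer_to_finite hK M hlam hx one_pos
    obtain ⟨h3, h4⟩ := h2 r m x hx
    obtain ⟨h5, h6⟩ := hC y
    linarith [abs_le.mp hy1, abs_le.mp hy2, abs_le.mp h3, abs_le.mp h4, abs_le.mp h5, abs_le.mp h6]

theorem lower_bound (hK : 1 ≤ K) (hlam : 0 < lam) (θ : Ω → (Fin K → Bool) → ℝ)
    (hθm : Measurable θ) (hθ : ∀ σ, Integrable (fun ω => θ ω σ) P) (ν : Measure ℝ)
    [IsProbabilityMeasure ν] (hν : Integrable (fun h : ℝ => h) ν) {L : ℝ}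
    (hL : L ∈ lowerBounds (trial lam P θ ν)) {ε : ℝ} (hε : 0 < ε) :
    ∀ᶠ N in atTop, L - ε ≤ press lam P θ ν N := by
  obtain ⟨M, h1, h2, -⟩ := reduce hK hlam P θ hθm hθ ν hν (by positivity : 0 < ε / 4)
  have h3 := ass_lower (fun ι _ _ G ε hε => core ι G ε hε) M hlam hK (L - ε / 2) (fun y => ?_)
    (by positivity : 0 < ε / 4)
  · filter_upwards [h3, eventually_gt_atTop 0] with N hN hN0
    linarith [abs_le.mp (h1 N hN0)]
  · obtain ⟨r, m, x, hx, e1, e2⟩ := transfer_of_finite M lam y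
    obtain ⟨h4, h5⟩ := h2 r m x hx
    have := hL ⟨r, m, x, hx, rfl⟩
    rw [← e1, ← e2]
    linarith [abs_le.mp h4, abs_le.mp h5]

theorem measurable_clause {a b : Ω → ℝ} {f : Fin K → Ω → Bool → ℝ} (ham : Measurable a)
    (hbm : Measurable b) (hfm : ∀ j, Measurable (f j)) : Measurable (clause a b f) := by
  refine measurable_pi_lambda _ fun σ => ?_
  unfold clause
  refine Real.measurable_log.comp (ham.mul (measurable_const.add (hbm.mul ?_)))
  exact Finset.measurable_prod _ fun j _ => (measurable_pi_apply (σ j)).comp (hfm j)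

theorem upper_bound (hK : 2 ≤ K) (hKe : Even K) (hlam : 0 < lam) (a b : Ω → ℝ)
    (f : Fin K → Ω → Bool → ℝ) (ham : Measurable a)
    (hbm : Measurable b) (hfm : ∀ j, Measurable (f j)) (ha : ∀ ω, 0 < a ω)
    (hb : ∀ ω, -1 < b ω ∧ b ω < 1) (hf : ∀ j ω s, -1 ≤ f j ω s ∧ f j ω s ≤ 1)
    (hθ : ∀ σ, Integrable (fun ω => clause a b f ω σ) P) (ν : Measure ℝ)
    [IsProbabilityMeasure ν] (hν : Integrable (fun h : ℝ => h) ν)
    (hpos : ∀ n, 1 ≤ n → 0 ≤ ∫ ω, (-b ω) ^ n ∂P) (hind : iIndepFun f P)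
    (hid : ∀ j j', IdentDistrib (f j) (f j') P P) (hbf : IndepFun b (fun ω j => f j ω) P)
    {v : ℝ} (hv : v ∈ trial lam P (clause a b f) ν) (N : ℕ) (hN : 0 < N) :
    press lam P (clause a b f) ν N ≤ v := by
  obtain ⟨r, m, x, hx, rfl⟩ := hv
  have hK1 : 1 ≤ K := by omega
  have hK0 : (0 : ℝ) < K := by exact_mod_cast hK1
  refine le_of_forall_pos_le_add fun ε hε => ?_
  set η := ε / (5 + 2 * K * lam) with hη
  have hη0 : 0 < η := by positivity
  obtain ⟨M, h1, h2, h3⟩ :=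
    reduce hK1 hlam P _ (measurable_clause ham hbm hfm) hθ ν hν hη0
  obtain ⟨y, hy1, hy2⟩ := transfer_to_finite hK1 M hlam hx hη0
  have h4 := upper hK1 M hlam y (η := 2 * K * η) (fun Ωb _ Pb ωb S _ _ sg => ?_) N hN
  · obtain ⟨h5, h6⟩ := h2 r m x hx
    have h7 : ε = (5 + 2 * K * lam) * η := by rw [hη]; field_simp
    linarith [abs_le.mp hy1, abs_le.mp hy2, abs_le.mp h5, abs_le.mp h6, abs_le.mp (h1 N hN)]
  · have h5 := key_ineq y Pb ωb sg hK hKe P a b f ham hbm hfm ha hb hf hθ hpos hind hid hbf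
    have h6 := h3 (fun u => DD y Pb ωb sg u / (2 * K)) fun u v => by
      rw [← sub_div, abs_div, abs_of_pos (by positivity : (0 : ℝ) < 2 * K),
        div_le_iff₀ (by positivity)]
      linarith [DD_lip y Pb ωb sg hK1 u v]
    rw [integral_div, E_div_const, ← sub_div, abs_div, abs_of_pos (by positivity : (0 : ℝ) < 2 * K),
      div_le_iff₀ (by positivity)] at h6
    linarith [abs_le.mp h6]

theorem main (hK : 2 ≤ K) (hKe : Even K) (hlam : 0 < lam) (a b : Ω → ℝ)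
    (f : Fin K → Ω → Bool → ℝ) (ham : Measurable a)
    (hbm : Measurable b) (hfm : ∀ j, Measurable (f j)) (ha : ∀ ω, 0 < a ω)
    (hb : ∀ ω, -1 < b ω ∧ b ω < 1) (hf : ∀ j ω s, -1 ≤ f j ω s ∧ f j ω s ≤ 1)
    (hθ : ∀ σ, Integrable (fun ω => clause a b f ω σ) P) (ν : Measure ℝ)
    [IsProbabilityMeasure ν] (hν : Integrable (fun h : ℝ => h) ν) :
    ∃ L : ℝ, IsGLB (trial lam P (clause a b f) ν) L ∧
      (∀ ε : ℝ, 0 < ε → ∀ᶠ N in atTop, L - ε ≤ press lam P (clause a b f) ν N) ∧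
      ((∀ n, 1 ≤ n → 0 ≤ ∫ ω, (-b ω) ^ n ∂P) → iIndepFun f P →
        (∀ j j', IdentDistrib (f j) (f j') P P) → IndepFun b (fun ω j => f j ω) P →
        Tendsto (press lam P (clause a b f) ν) atTop (𝓝 L)) := by
  have hK1 : 1 ≤ K := by omega
  have hm := measurable_clause ham hbm hfm
  obtain ⟨L, hL⟩ := exists_glb P hK1 hlam _ hm hθ ν hν
  have hlow : ∀ ε : ℝ, 0 < ε → ∀ᶠ N in atTop, L - ε ≤ press lam P (clause a b f) ν N :=
    fun ε hε => lower_bound P hK1 hlam _ hm hθ ν hν hL.1 hε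
  refine ⟨L, hL, hlow, fun hpos hind hid hbf => ?_⟩
  rw [Metric.tendsto_nhds]
  intro ε hε
  filter_upwards [hlow (ε / 2) (by positivity), eventually_gt_atTop 0] with N h1 hN
  have h2 : press lam P (clause a b f) ν N ≤ L := hL.2 fun v hv =>
    upper_bound P hK hKe hlam a b f ham hbm hfm ha hb hf hθ ν hν hpos hind hid hbf hv N hN
  rw [Real.dist_eq, abs_lt]
  constructor <;> linarith

end Vale.Agent.P168
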