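import Vale.Agent.P168.Sign

/-!
# P168: joining two perturbations by a pair of signs
-/

namespace Vale.Agent.P168

open Finset PW
open scoped BigOperators

variable {Ω : Type} [Fintype Ω]

/-- Background part of a joined perturbation. -/
noncomputable def nodeF (s : Sgn Ω) (lo hi : ℕ) (f1 g1 f2 : Ω → ℝ) (ω : Ω) : ℝ :=
  if s.τ lo ω = s.τ hi ω then f1 ω + sp (s.τ hi ω) * g1 ω else f2 ω

/-- Probe part of a joined perturbation. -/
noncomputable def nodeG (s : Sgn Ω) (lo hi : ℕ) (g2 : Ω → ℝ) (ω : Ω) : ℝ := em s lo hi ω * -g2 ω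

/-- Odd part of the free energy. -/
noncomputable def odd (a : ℕ → ℝ) (P : Ch Ω) (j : ℕ) (f g : Ω → ℝ) (ω : Ω) : ℝ :=
  (X a P 0 (fun x => f x + g x) j ω - X a P 0 (fun x => f x - g x) j ω) / 2

/-- The interpolating tilt at height `j`. -/
noncomputable def psi (a : ℕ → ℝ) (P : Ch Ω) (s : Sgn Ω) (lo hi j : ℕ) (f1 g1 f2 : Ω → ℝ) (t : ℝ)
    (ω : Ω) : ℝ :=
  (if s.τ lo ω = s.τ hi ω then
    (X a P 0 (fun x => f1 x + g1 x) j ω + X a P 0 (fun x => f1 x - g1 x) j ω) / 2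
  else X a P 0 f2 j ω) + t * (ep s lo hi ω * odd a P j f1 g1 ω)

/-- Invariance under both flips. -/
def Inv2 (s : Sgn Ω) (lo hi : ℕ) (F : Ω → ℝ) : Prop :=
  (∀ ω, F (s.π lo ω) = F ω) ∧ ∀ ω, F (s.π hi ω) = F ω

variable {a : ℕ → ℝ} {P : Ch Ω} {n j lo hi : ℕ} {s : Sgn Ω} {f1 g1 f2 g2 : Ω → ℝ}

omit [Fintype Ω] in
theorem Inv2.mul {F G : Ω → ℝ} (hF : Inv2 s lo hi F) (hG : Inv2 s lo hi G) :
    Inv2 s lo hi fun x => F x * G x :=
  ⟨fun ω => by simp only [hF.1, hG.1], fun ω => by simp only [hF.2, hG.2]⟩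

omit [Fintype Ω] in
theorem Inv2.neg {F : Ω → ℝ} (hF : Inv2 s lo hi F) : Inv2 s lo hi fun x => -F x :=
  ⟨fun ω => by simp only [hF.1], fun ω => by simp only [hF.2]⟩

theorem hasDerivAt_psi (t : ℝ) (ω : Ω) :
    HasDerivAt (fun t => psi a P s lo hi j f1 g1 f2 t ω) (ep s lo hi ω * odd a P j f1 g1 ω) t := by
  unfold psi
  exact (hasDerivAt_mul_const (ep s lo hi ω * odd a P j f1 g1 ω)).const_add _

theorem abs_psi_le (ha : ∀ i, 0 < a i) {b t : ℝ} (h1 : ∀ x, |f1 x| + |g1 x| ≤ b)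
    (h2 : ∀ x, |f2 x| ≤ b) (ht : |t| ≤ 1) (ω : Ω) : |psi a P s lo hi j f1 g1 f2 t ω| ≤ b := by
  have e1 := abs_le.mp (abs_X_le (P := P) (j := 0) ha (G := fun x => f1 x + g1 x)
    (fun x => (abs_add_le _ _).trans (h1 x)) j ω)
  have e2 := abs_le.mp (abs_X_le (P := P) (j := 0) ha (G := fun x => f1 x - g1 x)
    (fun x => (abs_sub _ _).trans (h1 x)) j ω)
  have e3 := abs_X_le (P := P) (j := 0) ha h2 j ω
  have ht' := abs_le.mp ht
  unfold psi ep odd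
  cases s.τ hi ω <;> cases s.τ lo ω <;> simp [sp, e3] <;> rw [abs_le] <;> constructor <;> nlinarith

theorem abs_odd_sub_le (ha : ∀ i, 0 < a i) (ha' : Antitone a) (ha1 : a 0 ≤ 1) {d : ℝ}
    (hg : ∀ x, |g1 x| ≤ d) (hd : d ≤ 1) (ω : Ω) :
    |odd a P j f1 g1 ω - A (T a P 0 f1) 0 j g1 ω| ≤ d ^ 2 := by
  have hle : ∀ i, 0 ≤ i → i < j → a i ≤ 1 := fun i _ _ => (ha' (Nat.zero_le i)).trans ha1
  have e1 := abs_X_sub_A_le (P := T a P 0 f1) (j := 0) ha one_pos hg (by linarith) j hle ω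
  have e2 := abs_X_sub_A_le (P := T a P 0 f1) (j := 0) (G := fun x => -g1 x) ha one_pos
    (by simpa using hg) (by linarith : 1 * d ≤ 1) j hle ω
  rw [A_neg] at e2
  simp only [odd, sub_eq_add_neg (f1 _), X_add]
  rw [abs_le] at e1 e2 ⊢
  constructor <;> linarith

section sym
variable (h : Sym n s P) (hlt : lo < hi) (hn : hi < n)
include h hlt hn

theorem Sym.closed (ω : Ω) : ∀ i < lo, ∀ x, (s.τ lo x = s.τ lo ω ∧ s.τ hi x = s.τ hi ω) →
    Supp (P i x) fun y => s.τ lo y = s.τ lo ω ∧ s.τ hi y = s.τ hi ω := fun i hi' x hx => by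
  have h1 := h.frz lo (by omega) i hi' x
  have h2 := h.frz hi hn i (by omega) x
  rw [hx.1] at h1
  rw [hx.2] at h2
  exact h1.and h2

theorem Sym.X_nodeF (hj : j ≤ lo) : X a P 0 (nodeF s lo hi f1 g1 f2) j = psi a P s lo hi j f1 g1 f2 1 := by
  funext ω
  have key := fun G' hG => X_local (a := a) (j := 0) (h.closed hlt hn ω)
    (G := nodeF s lo hi f1 g1 f2) (G' := G') hG j hj ω ⟨rfl, rfl⟩
  unfold psi ep odd
  cases e1 : s.τ hi ω <;> cases e2 : s.τ lo ω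
  · rw [key (fun x => f1 x - g1 x) fun x hx => by simp [nodeF, hx.1, hx.2, e1, e2, sp]; ring]
    simp [sp]; ring
  · rw [key f2 fun x hx => by simp [nodeF, hx.1, hx.2, e1, e2]]
    simp [sp]
  · rw [key f2 fun x hx => by simp [nodeF, hx.1, hx.2, e1, e2]]
    simp [sp]
  · rw [key (fun x => f1 x + g1 x) fun x hx => by simp [nodeF, hx.1, hx.2, e1, e2, sp]]
    simp [sp]; ring

theorem Sym.A_nodeG (hj : j ≤ lo) :
    A (Vale.Agent.P168.T a P 0 (nodeF s lo hi f1 g1 f2)) 0 j (nodeG s lo hi g2) =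
      fun ω => em s lo hi ω * -A (Vale.Agent.P168.T a P 0 f2) 0 j g2 ω := by
  funext ω
  have key := fun G' hG => A_T_local (a := a) (j := 0) (h.closed hlt hn ω)
    (G := nodeF s lo hi f1 g1 f2) (G' := G') (F := nodeG s lo hi g2)
    (F' := fun x => em s lo hi ω * -g2 x) hG
    (fun x hx => by simp only [nodeG, em, hx.1, hx.2]) j hj ω ⟨rfl, rfl⟩
  by_cases e : s.τ lo ω = s.τ hi ω
  · rw [key _ fun _ _ => rfl]
    simp [em, e, A_const']
  · rw [key f2 fun x hx => by simp [nodeF, hx.1, hx.2, e], A_const_mul, A_neg]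

theorem Sym.inv_A {F : Ω → ℝ} (hF : Inv2 s lo hi F) (j p : ℕ) : Inv2 s lo hi (A P j p F) :=
  ⟨h.A_inv (by omega) hF.1 p, h.A_inv hn hF.2 p⟩

theorem Sym.inv_X {F : Ω → ℝ} (hF : Inv2 s lo hi F) (j p : ℕ) : Inv2 s lo hi (X a P j F p) :=
  ⟨h.X_inv (by omega) hF.1 p, h.X_inv hn hF.2 p⟩

theorem Sym.inv_A_T {G F : Ω → ℝ} (hG : Inv2 s lo hi G) (hF : Inv2 s lo hi F) (j p : ℕ) :
    Inv2 s lo hi (A (Vale.Agent.P168.T a P j G) j p F) :=
  ⟨h.A_T_inv (by omega) hG.1 hF.1 p, h.A_T_inv hn hG.2 hF.2 p⟩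

theorem Sym.inv_pm (h1 : Inv2 s lo hi f1) (h2 : Inv2 s lo hi g1) :
    Inv2 s lo hi (X a P 0 (fun x => f1 x + g1 x) j) ∧
      Inv2 s lo hi (X a P 0 (fun x => f1 x - g1 x) j) :=
  ⟨h.inv_X hlt hn ⟨fun ω => by simp only [h1.1, h2.1], fun ω => by simp only [h1.2, h2.2]⟩ _ _,
    h.inv_X hlt hn ⟨fun ω => by simp only [h1.1, h2.1], fun ω => by simp only [h1.2, h2.2]⟩ _ _⟩

theorem Sym.inv_odd (h1 : Inv2 s lo hi f1) (h2 : Inv2 s lo hi g1) :
    Inv2 s lo hi (odd a P j f1 g1) := by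
  obtain ⟨e1, e2⟩ := h.inv_pm (a := a) (j := j) hlt hn h1 h2
  exact ⟨fun ω => by simp only [odd, e1.1, e2.1], fun ω => by simp only [odd, e1.2, e2.2]⟩

theorem Sym.tau_flip (ω : Ω) : s.τ lo (s.π lo (s.π hi ω)) = (!s.τ lo ω) ∧
    s.τ hi (s.π lo (s.π hi ω)) = !s.τ hi ω := by
  rw [h.self lo (by omega), h.ne hi lo (by omega), h.ne lo hi (by omega), h.self hi hn]
  exact ⟨rfl, rfl⟩

theorem Sym.em_flip (ω : Ω) : em s lo hi (s.π lo (s.π hi ω)) = -em s lo hi ω := by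
  simp only [em, h.tau_flip hlt hn ω, sp_not]; ring

theorem Sym.psi_flip (h1 : Inv2 s lo hi f1) (h2 : Inv2 s lo hi g1) (h3 : Inv2 s lo hi f2) (t : ℝ)
    (ω : Ω) : psi a P s lo hi j f1 g1 f2 t (s.π lo (s.π hi ω)) =
      psi a P s lo hi j f1 g1 f2 (-t) ω := by
  obtain ⟨e1, e2⟩ := h.inv_pm (a := a) (j := j) hlt hn h1 h2
  have e3 := h.inv_X (a := a) hlt hn h3 0 j
  have e4 := h.inv_odd (a := a) (j := j) hlt hn h1 h2
  simp only [psi, ep, h.tau_flip hlt hn ω, sp_not, e1.1, e1.2, e2.1, e2.2, e3.1, e3.2, e4.1, e4.2,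
    Bool.not_inj_iff]
  ring

theorem Sym.mor2 : Mor 0 (fun x => s.π lo (s.π hi x)) P P :=
  (h.mor lo (by omega)).comp (h.mor hi hn)

theorem Sym.res2 (ω : Ω) (F : Ω → ℝ) :
    (P hi ω).E (fun x => F (s.π lo (s.π hi x))) = (P hi ω).E F := by
  rw [h.res hi hi le_rfl hn ω fun x => F (s.π lo x), h.res lo hi hlt.le hn]

theorem Sym.Rs_high (hj : j ≤ lo) {p : ℕ} (hp : hi + 1 ≤ p) {γ O : Ω → ℝ} (hγ : Inv2 s lo hi γ)
    (hO : Inv2 s lo hi O) (ω : Ω) :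
    Rs a P j (fun x => em s lo hi x * -γ x) (fun x => ep s lo hi x * O x) p ω =
      (∑ i ∈ Ico lo hi, (a i - a (i + 1)) *
        A P (i + 1) p (fun x => A P j (i + 1) γ x * A P j (i + 1) O x) ω) / 4 := by
  have e0 : ∀ x, em s lo hi x * -γ x * (ep s lo hi x * O x) = 0 := fun x => by
    linear_combination (-γ x * O x) * ep_mul_em (s := s) lo hi x
  unfold Rs
  simp only [e0, A_const']
  rw [h.A_ep_high hlt hn hj hp hO.1 hO.2, ← sum_Ico_consecutive _ hj (by omega : lo ≤ p),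
    ← sum_Ico_consecutive _ hlt.le (by omega : hi ≤ p), sum_eq_zero (s := Ico j lo),
    sum_eq_zero (s := Ico hi p), sum_div]
  · simp only [mul_zero, zero_add, add_zero, zero_sub, sub_zero, ← sum_neg_distrib]
    refine sum_congr rfl fun i hi' => ?_
    simp only [mem_Ico] at hi'
    rw [mul_div_assoc, ← mul_neg, ← A_neg, div_eq_mul_inv, ← A_mul_const]
    congr 1
    refine A_fun_congr (fun x => ?_) ω
    rw [h.A_em_mid hlt hn hj (by omega) (by omega) hγ.neg.1,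
      h.A_ep_mid hlt hn hj (by omega) (by omega) hO.1, A_neg]
    linear_combination (A P j (i + 1) γ x * A P j (i + 1) O x / 4) * sp_sq (s.τ hi x)
  · intro i hi'
    simp only [mem_Ico] at hi'
    simp only [h.A_ep_high hlt hn hj (by omega : hi + 1 ≤ i + 1) hO.1 hO.2, mul_zero, A_const']
  · intro i hi'
    simp only [mem_Ico] at hi'
    rw [A_fun_congr (G := fun _ => 0), A_const', mul_zero]
    intro x
    rw [h.A_em_low hlt hn (by omega), h.A_ep_low hlt hn (by omega)]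
    linear_combination (A P j (i + 1) (fun x => -γ x) x * A P j (i + 1) O x) *
      ep_mul_em (s := s) lo hi x

theorem Sym.theta (ha : ∀ i, 0 < a i) (ha' : Antitone a) (ha1 : a 0 ≤ 1) (hj : j ≤ lo)
    (i1 : Inv2 s lo hi f1) (i2 : Inv2 s lo hi g1) (i3 : Inv2 s lo hi f2) (i4 : Inv2 s lo hi g2)
    {b c c' : ℝ} (hb : b ≤ 1 / 2) (h1 : ∀ x, |f1 x| + |g1 x| ≤ b) (h2 : ∀ x, |f2 x| ≤ b)
    (hc : ∀ x, |A (Vale.Agent.P168.T a P 0 f2) 0 j g2 x| ≤ c)
    (hc' : ∀ x, |odd a P j f1 g1 x| ≤ c') {p : ℕ} (hp : hi + 1 ≤ p) (ω : Ω) :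
    |A (Vale.Agent.P168.T a P 0 (nodeF s lo hi f1 g1 f2)) 0 p (nodeG s lo hi g2) ω -
      (∑ i ∈ Ico lo hi, (a i - a (i + 1)) * A P (i + 1) p (fun x =>
        A P j (i + 1) (A (Vale.Agent.P168.T a P 0 f2) 0 j g2) x *
          A P j (i + 1) (odd a P j f1 g1) x) ω) / 4| ≤ 48 * b * (c * c') := by
  set γ := A (Vale.Agent.P168.T a P 0 f2) 0 j g2 with hγ
  have iγ : Inv2 s lo hi γ := h.inv_A_T hlt hn i3 i4 0 j
  have iO := h.inv_odd (a := a) (j := j) hlt hn i1 i2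
  set Θ : ℝ → ℝ := fun t => A (Vale.Agent.P168.T a P j (psi a P s lo hi j f1 g1 f2 t)) j p
    (fun x => em s lo hi x * -γ x) ω with hΘ
  have e1 : A (Vale.Agent.P168.T a P 0 (nodeF s lo hi f1 g1 f2)) 0 p (nodeG s lo hi g2) ω = Θ 1 := by
    rw [← A_A (Nat.zero_le j) _ p (by omega), h.A_nodeG hlt hn hj, hΘ]
    simp only
    rw [← h.X_nodeF hlt hn hj, A_congr p fun i hi _ => T_X (Nat.zero_le j) _ i hi]
  have hodd : Θ (-1) = -Θ 1 := by
    have := congrFun (A_T_resample (a := a) (h.mor2 hlt hn) (h.res2 hlt hn) (le_refl j)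
      (by omega) (psi a P s lo hi j f1 g1 f2 1) (fun x => em s lo hi x * -γ x) p hp) ω
    simp only [h.psi_flip hlt hn i1 i2 i3, h.em_flip hlt hn, iγ.1, iγ.2, neg_mul] at this
    simp only [hΘ, neg_mul]
    rw [← this, A_neg, neg_neg]
  have hder := fun t => hasDerivAt_A_T (P := P) (j := j) ha
    (G := fun _ x => em s lo hi x * -γ x) (G' := fun _ => 0)
    (hasDerivAt_psi (a := a) (P := P) (s := s) (lo := lo) (hi := hi) (j := j) (f1 := f1) (g1 := g1)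
      (f2 := f2) t) (fun x => hasDerivAt_const _ _) le_rfl p (by omega) ω
  obtain ⟨t, ht, e2⟩ := exists_deriv_of_odd hder hodd
  rw [e1, ← h.Rs_high hlt hn hj hp iγ iO]
  simp only [hΘ]
  rw [e2, A_const', zero_add, A_of_le le_rfl]
  have hb0 : 0 ≤ b := (abs_nonneg _).trans (h2 ω)
  have hG : ∀ x, |em s lo hi x * -γ x| ≤ c := fun x => by
    simpa using abs_mul_le' (abs_em_le lo hi x) (show |-γ x| ≤ c by simpa using hc x)
  have hO : ∀ x, |ep s lo hi x * odd a P j f1 g1 x| ≤ c' := fun x => by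
    simpa using abs_mul_le' (abs_ep_le lo hi x) (hc' x)
  refine ((near_T ha ha' ha1 (abs_psi_le ha h1 h2 ht) hb).Rs ha ha' ha1 (by positivity)
    (by omega) hG hO hO (d := 0) (d' := 0) (by simp) (by simp) ω).trans (le_of_eq (by ring))

end sym

end Vale.Agent.P168
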