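import Vale.Agent.P168.Iface

/-!
# P168: Poisson operator calculus
-/

namespace Vale.Agent.P168

open Finset PW
open scoped BigOperators

/-- The Poisson weight. -/
noncomputable def pw (t : ℝ) (k : ℕ) : ℝ := Real.exp (-t) * t ^ k / (k.factorial : ℝ)

theorem pois_eq (t : ℝ) (g : ℕ → ℝ) : pois t g = ∑' k, pw t k * g k := rfl

theorem pw_nonneg {t : ℝ} (ht : 0 ≤ t) (k : ℕ) : 0 ≤ pw t k := by unfold pw; positivity

theorem hasSum_pw (t : ℝ) : HasSum (pw t) 1 := by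
  have h := NormedSpace.expSeries_div_hasSum_exp (𝔸 := ℝ) t
  rw [← Real.exp_eq_exp_ℝ] at h
  have h2 := h.mul_left (Real.exp (-t))
  rw [← Real.exp_add, neg_add_cancel, Real.exp_zero] at h2
  have h3 : pw t = fun k => Real.exp (-t) * (t ^ k / (k.factorial : ℝ)) := by
    funext k; rw [pw, mul_div_assoc]
  rw [h3]; exact h2

theorem pw_succ (t : ℝ) (k : ℕ) : pw t (k + 1) * ((k + 1 : ℕ) : ℝ) = t * pw t k := by
  unfold pw
  rw [Nat.factorial_succ]
  push_cast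
  field_simp
  ring

theorem hasSum_pw_id (t : ℝ) : HasSum (fun k : ℕ => pw t k * k) t := by
  rw [← hasSum_nat_add_iff' 1]
  simp only [range_one, sum_singleton, Nat.cast_zero, mul_zero, sub_zero, pw_succ]
  simpa using (hasSum_pw t).mul_left t

theorem hasSum_pw_lin (t c : ℝ) : HasSum (fun k : ℕ => pw t k * (c * (k + 1))) (c * (t + 1)) := by
  have h := ((hasSum_pw_id t).add (hasSum_pw t)).mul_left c
  have h3 : (fun k : ℕ => pw t k * (c * (k + 1))) = fun k : ℕ => c * (pw t k * k + pw t k) := by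
    funext k; ring
  rw [h3]; exact h

theorem pois_summable {t c : ℝ} {g : ℕ → ℝ} (ht : 0 ≤ t) (hg : ∀ k, |g k| ≤ c * (k + 1)) :
    Summable fun k : ℕ => Real.exp (-t) * t ^ k / (k.factorial : ℝ) * g k := by
  refine Summable.of_norm_bounded (hasSum_pw_lin t c).summable fun k => ?_
  change ‖pw t k * g k‖ ≤ _
  rw [Real.norm_eq_abs, abs_mul, abs_of_nonneg (pw_nonneg ht k)]
  exact mul_le_mul_of_nonneg_left (hg k) (pw_nonneg ht k)

theorem pois_summable' {t c : ℝ} {g : ℕ → ℝ} (ht : 0 ≤ t) (hg : ∀ k, |g k| ≤ c * (k + 1)) :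
    Summable fun k : ℕ => pw t k * g k := pois_summable ht hg

theorem pois_const {t : ℝ} (c : ℝ) : pois t (fun _ => c) = c := by
  simpa [pois_eq] using ((hasSum_pw t).mul_right c).tsum_eq

theorem pois_id {t : ℝ} (c : ℝ) : pois t (fun k => c * k) = c * t := by
  rw [pois_eq, ← ((hasSum_pw_id t).mul_left c).tsum_eq]
  exact tsum_congr fun k => by ring

theorem pois_lin {t : ℝ} (c : ℝ) : pois t (fun k => c * (k + 1)) = c * (t + 1) :=
  (hasSum_pw_lin t c).tsum_eq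

theorem pois_congr {t : ℝ} {g g' : ℕ → ℝ} (h : ∀ k, g k = g' k) : pois t g = pois t g' := by
  rw [funext h]

theorem pois_mono {t c : ℝ} {g g' : ℕ → ℝ} (ht : 0 ≤ t) (hg : ∀ k, |g k| ≤ c * (k + 1))
    (hg' : ∀ k, |g' k| ≤ c * (k + 1)) (h : ∀ k, g k ≤ g' k) : pois t g ≤ pois t g' :=
  (pois_summable' ht hg).tsum_le_tsum
    (fun k => mul_le_mul_of_nonneg_left (h k) (pw_nonneg ht k)) (pois_summable' ht hg')

theorem pois_mono' {t c c' : ℝ} {g g' : ℕ → ℝ} (ht : 0 ≤ t) (hg : ∀ k, |g k| ≤ c * (k + 1))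
    (hg' : ∀ k, |g' k| ≤ c' * (k + 1)) (h : ∀ k, g k ≤ g' k) : pois t g ≤ pois t g' :=
  (pois_summable' ht hg).tsum_le_tsum
    (fun k => mul_le_mul_of_nonneg_left (h k) (pw_nonneg ht k)) (pois_summable' ht hg')

theorem pois_add' {t c c' : ℝ} {g g' : ℕ → ℝ} (ht : 0 ≤ t) (hg : ∀ k, |g k| ≤ c * (k + 1))
    (hg' : ∀ k, |g' k| ≤ c' * (k + 1)) :
    pois t (fun k => g k + g' k) = pois t g + pois t g' := by
  simp only [pois_eq, mul_add]
  exact (pois_summable' ht hg).tsum_add (pois_summable' ht hg')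

theorem pois_add {t c : ℝ} {g g' : ℕ → ℝ} (ht : 0 ≤ t) (hg : ∀ k, |g k| ≤ c * (k + 1))
    (hg' : ∀ k, |g' k| ≤ c * (k + 1)) :
    pois t (fun k => g k + g' k) = pois t g + pois t g' := pois_add' ht hg hg'

theorem pois_sub' {t c c' : ℝ} {g g' : ℕ → ℝ} (ht : 0 ≤ t) (hg : ∀ k, |g k| ≤ c * (k + 1))
    (hg' : ∀ k, |g' k| ≤ c' * (k + 1)) :
    pois t (fun k => g k - g' k) = pois t g - pois t g' := by
  simp only [pois_eq, mul_sub]
  exact (pois_summable' ht hg).tsum_sub (pois_summable' ht hg')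

theorem pois_const_mul (t a : ℝ) (g : ℕ → ℝ) : pois t (fun k => a * g k) = a * pois t g := by
  simp only [pois_eq, ← tsum_mul_left]
  exact tsum_congr fun k => by ring

theorem abs_pois_le_pois {t c : ℝ} {g g' : ℕ → ℝ} (ht : 0 ≤ t) (hg : ∀ k, |g k| ≤ g' k)
    (hg' : ∀ k, |g' k| ≤ c * (k + 1)) : |pois t g| ≤ pois t g' := by
  have hg2 : ∀ k, |g k| ≤ c * (k + 1) := fun k => (hg k).trans ((le_abs_self _).trans (hg' k))
  rw [abs_le]
  refine ⟨?_, pois_mono ht hg2 hg' fun k => (le_abs_self _).trans (hg k)⟩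
  have h := pois_mono ht (g := fun k => -1 * g' k) (g' := g) (by simpa using hg') hg2
    fun k => by linarith [(abs_le.mp (hg k)).1]
  rw [pois_const_mul] at h
  linarith

theorem abs_pois_le {t c : ℝ} {g : ℕ → ℝ} (ht : 0 ≤ t) (hg : ∀ k, |g k| ≤ c * (k + 1)) :
    |pois t g| ≤ c * (t + 1) := by
  rw [← pois_lin]
  refine abs_pois_le_pois (c := c) ht hg fun k => ?_
  rw [abs_of_nonneg ((abs_nonneg _).trans (hg k))]

/-- Finite expectations commute with the Poisson expectation. -/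
theorem E_pois {α : Type} [Fintype α] (ν : PW α) {t c : ℝ} {g : α → ℕ → ℝ} (ht : 0 ≤ t)
    (hg : ∀ a k, |g a k| ≤ c * (k + 1)) :
    ν.E (fun a => pois t (g a)) = pois t fun k => ν.E fun a => g a k := by
  simp only [pois_eq, E, ← tsum_mul_left, mul_sum]
  rw [← Summable.tsum_finsetSum]
  · exact tsum_congr fun k => sum_congr rfl fun a _ => by ring
  · exact fun a _ => (pois_summable' ht (hg a)).mul_left _

theorem pw_antidiagonal {p t : ℝ} (i j : ℕ) :
    pw t (i + j) * (((i + j).choose i : ℝ) * (p ^ i * (1 - p) ^ j)) =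
      pw (p * t) i * pw ((1 - p) * t) j := by
  unfold pw
  have h1 : Real.exp (-t) = Real.exp (-(p * t)) * Real.exp (-((1 - p) * t)) := by
    rw [← Real.exp_add]; ring_nf
  have h2 : (((i + j).factorial : ℕ) : ℝ) = ((i + j).choose i : ℝ) * i.factorial * j.factorial := by
    have := Nat.add_choose_mul_factorial_mul_factorial j i
    rw [add_comm j i] at this
    rw [← this]; push_cast; ring
  have h3 : ((i + j).choose i : ℝ) ≠ 0 := by
    exact_mod_cast (Nat.choose_pos (Nat.le_add_right i j)).ne'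
  rw [h1, h2, mul_pow, mul_pow, pow_add]
  field_simp

/-- Thinning of a Poisson variable. -/
theorem pois_thin {p t c : ℝ} (ht : 0 ≤ t) (hp : 0 ≤ p) (hp1 : p ≤ 1) {g : ℕ → ℕ → ℝ}
    (hg : ∀ i j, |g i j| ≤ c * ((i + 1) * (j + 1))) :
    pois t (fun k => ∑ m ∈ antidiagonal k, (k.choose m.1 : ℝ) * (p ^ m.1 * (1 - p) ^ m.2) * g m.1 m.2)
      = pois (p * t) fun i => pois ((1 - p) * t) (g i) := by
  have h1 : 0 ≤ p * t := mul_nonneg hp ht
  have h2 : 0 ≤ (1 - p) * t := mul_nonneg (by linarith) ht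
  have hs : Summable fun m : ℕ × ℕ => pw (p * t) m.1 * (pw ((1 - p) * t) m.2 * g m.1 m.2) := by
    have hc : 0 ≤ c := by simpa using (abs_nonneg _).trans (hg 0 0)
    have := (hasSum_pw_lin (p * t) c).summable.mul_of_nonneg
      (hasSum_pw_lin ((1 - p) * t) 1).summable
      (fun k => mul_nonneg (pw_nonneg h1 k) (by positivity))
      (fun k => mul_nonneg (pw_nonneg h2 k) (by positivity))
    refine Summable.of_norm_bounded this fun m => ?_
    rw [Real.norm_eq_abs, abs_mul, abs_mul, abs_of_nonneg (pw_nonneg h1 _),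
      abs_of_nonneg (pw_nonneg h2 _)]
    calc _ ≤ pw (p * t) m.1 * (pw ((1 - p) * t) m.2 * (c * ((m.1 + 1) * (m.2 + 1)))) := by
          have := pw_nonneg h1 m.1
          have := pw_nonneg h2 m.2
          gcongr
          exact hg _ _
      _ = _ := by ring
  simp only [pois_eq, ← tsum_mul_left]
  rw [← hs.tsum_prod, ← HasAntidiagonal.sigmaAntidiagonalEquivProd.tsum_eq]
  refine Eq.trans ?_ ((HasAntidiagonal.sigmaAntidiagonalEquivProd.summable_iff.mpr hs).tsum_sigma'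
      fun n => (hasSum_fintype _).summable).symm
  refine tsum_congr fun k => ?_
  rw [tsum_fintype, mul_sum, ← sum_coe_sort]
  refine sum_congr rfl fun m _ => ?_
  obtain ⟨⟨i, j⟩, hm⟩ := m
  have hm2 := HasAntidiagonal.mem_antidiagonal.mp hm
  dsimp only at hm2
  subst hm2
  simp only [Function.comp_apply, HasAntidiagonal.sigmaAntidiagonalEquivProd_apply]
  rw [← mul_assoc, pw_antidiagonal, mul_assoc]

variable {𝓜 𝓜' : Type*} [AddCommMonoid 𝓜] [AddCommMonoid 𝓜'] {J J' J'' : Type} [Fintype J]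
  [Fintype J'] [Fintype J''] {μ : PW J} {ψ : J → 𝓜} {μ' : PW J'} {ψ' : J' → 𝓜} {μ'' : PW J''}
  {ψ'' : J'' → 𝓜} {V V' : 𝓜 → ℝ} {c c' t : ℝ}

theorem Mop_iterate (μ : PW J) (ψ : J → 𝓜) (V : 𝓜 → ℝ) (k : ℕ) (x : 𝓜) :
    (Mop μ ψ)^[k] V x = (PW.pi fun _ : Fin k => μ).E fun j => V (x + ∑ l, ψ (j l)) := by
  induction k generalizing x with
  | zero => simp
  | succ k ih =>
    rw [Function.iterate_succ_apply', E_pi_cons, Mop]
    refine E_congr _ fun a => ?_
    rw [ih]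
    refine E_congr _ fun j => ?_
    rw [Fin.sum_univ_succ, add_assoc]
    rfl

theorem Inc.nonneg (h : Inc ψ V c) (μ : PW J) : 0 ≤ c := by
  obtain ⟨j⟩ := μ.nonempty
  exact (abs_nonneg _).trans (h 0 j)

theorem Inc.sum (h : Inc ψ V c) {k : ℕ} (j : Fin k → J) (x : 𝓜) :
    |V (x + ∑ l, ψ (j l)) - V x| ≤ c * k := by
  induction k generalizing x with
  | zero => simp
  | succ k ih =>
    rw [Fin.sum_univ_succ, ← add_assoc]
    have h1 := ih (fun l => j l.succ) (x + ψ (j 0))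
    have h2 := h x (j 0)
    push_cast
    rw [abs_le] at *
    constructor <;> linarith [h1.1, h1.2, h2.1, h2.2]

theorem abs_iter_sub_le (h : Inc ψ V c) (k : ℕ) (x : 𝓜) :
    |(Mop μ ψ)^[k] V x - V x| ≤ c * k := by
  rw [Mop_iterate, ← E_sub_const]
  exact abs_E_le_const _ fun j => h.sum j x

theorem abs_iter_le (h : Inc ψ V c) (k : ℕ) (x : 𝓜) :
    |(Mop μ ψ)^[k] V x| ≤ (|V x| + c) * (k + 1) := by
  have h1 := abs_iter_sub_le (μ := μ) h k x
  have h2 := h.nonneg μ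
  have h3 := abs_add_le ((Mop μ ψ)^[k] V x - V x) (V x)
  rw [sub_add_cancel] at h3
  have : (0 : ℝ) ≤ k := Nat.cast_nonneg k
  nlinarith [abs_nonneg (V x)]

theorem Inc.iter (h' : Inc ψ' V c') (k : ℕ) : Inc ψ' ((Mop μ ψ)^[k] V) c' := fun x j => by
  rw [Mop_iterate, Mop_iterate]
  refine abs_E_sub_le_const _ fun a => ?_
  rw [add_right_comm]
  exact h' _ _

theorem iter_mono (hV : ∀ x, V x ≤ V' x) (k : ℕ) (x : 𝓜) :
    (Mop μ ψ)^[k] V x ≤ (Mop μ ψ)^[k] V' x := by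
  rw [Mop_iterate, Mop_iterate]
  exact E_mono _ fun a => hV _

theorem iter_add (V V' : 𝓜 → ℝ) (k : ℕ) (x : 𝓜) :
    (Mop μ ψ)^[k] (fun x => V x + V' x) x = (Mop μ ψ)^[k] V x + (Mop μ ψ)^[k] V' x := by
  simp only [Mop_iterate, E_add]

theorem iter_const (a : ℝ) (k : ℕ) (x : 𝓜) : (Mop μ ψ)^[k] (fun _ => a) x = a := by
  simp only [Mop_iterate, E_const]

theorem Mop_comm (V : 𝓜 → ℝ) : Mop μ ψ (Mop μ' ψ' V) = Mop μ' ψ' (Mop μ ψ V) := by
  funext x
  simp only [Mop]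
  rw [E_comm]
  exact E_congr _ fun a => E_congr _ fun b => by rw [add_right_comm]

theorem abs_Pop_sub_le (ht : 0 ≤ t) (h : Inc ψ V c) (x : 𝓜) : |Pop t μ ψ V x - V x| ≤ t * c := by
  have h1 := pois_sub' (c' := |V x|) (g' := fun _ => V x) ht (fun k => abs_iter_le (μ := μ) h k x)
    fun k => le_mul_of_one_le_right (abs_nonneg _) (by linarith [(Nat.cast_nonneg k : (0 : ℝ) ≤ k)])
  rw [pois_const] at h1
  rw [Pop, ← h1, mul_comm, ← pois_id]
  have hc := h.nonneg μ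
  refine abs_pois_le_pois (c := c) ht (fun k => abs_iter_sub_le h k x) fun k => ?_
  rw [abs_of_nonneg (by positivity)]
  linarith

theorem abs_Pop_sub_Pop_le (ht : 0 ≤ t) (h : Inc ψ V c) (h' : Inc ψ V' c') {x x' : 𝓜} {d : ℝ}
    (hd : ∀ k, |(Mop μ ψ)^[k] V x - (Mop μ ψ)^[k] V' x'| ≤ d) :
    |Pop t μ ψ V x - Pop t μ ψ V' x'| ≤ d := by
  rw [Pop, Pop, ← pois_sub' ht (fun k => abs_iter_le h k x) (fun k => abs_iter_le h' k x'),
    ← pois_const (t := t) d]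
  exact abs_pois_le_pois (c := |d|) ht hd
    fun k => le_mul_of_one_le_right (abs_nonneg _) (by linarith [(Nat.cast_nonneg k : (0 : ℝ) ≤ k)])

theorem Inc.Pop (ht : 0 ≤ t) (h : Inc ψ V c) (h' : Inc ψ' V c') : Inc ψ' (Pop t μ ψ V) c' :=
  fun x j => abs_Pop_sub_Pop_le ht h h fun k => h'.iter k x j

theorem abs_Pop_sub_le_const (ht : 0 ≤ t) (h : Inc ψ V c) (h' : Inc ψ V' c') {d : ℝ}
    (hd : ∀ x, |V x - V' x| ≤ d) (x : 𝓜) : |Pop t μ ψ V x - Pop t μ ψ V' x| ≤ d :=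
  abs_Pop_sub_Pop_le ht h h' fun k => by
    rw [Mop_iterate, Mop_iterate]
    exact abs_E_sub_le_const _ fun a => hd _

theorem Pop_mono (ht : 0 ≤ t) (h : Inc ψ V c) (h' : Inc ψ V' c') (hV : ∀ x, V x ≤ V' x) (x : 𝓜) :
    Pop t μ ψ V x ≤ Pop t μ ψ V' x :=
  pois_mono' ht (fun k => abs_iter_le h k x) (fun k => abs_iter_le h' k x)
    fun k => iter_mono hV k x

theorem Pop_add (ht : 0 ≤ t) (h : Inc ψ V c) (h' : Inc ψ V' c') (x : 𝓜) :
    Pop t μ ψ (fun x => V x + V' x) x = Pop t μ ψ V x + Pop t μ ψ V' x := by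
  simp only [Pop, iter_add]
  exact pois_add' ht (fun k => abs_iter_le h k x) (fun k => abs_iter_le h' k x)

theorem Pop_sub (ht : 0 ≤ t) (h : Inc ψ V c) (h' : Inc ψ V' c') (x : 𝓜) :
    Pop t μ ψ (fun x => V x - V' x) x = Pop t μ ψ V x - Pop t μ ψ V' x := by
  simp only [Pop]
  rw [← pois_sub' ht (fun k => abs_iter_le h k x) (fun k => abs_iter_le h' k x)]
  simp only [Mop_iterate, E_sub]

theorem Pop_const (t : ℝ) (μ : PW J) (ψ : J → 𝓜) (a : ℝ) (x : 𝓜) :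
    Pop t μ ψ (fun _ => a) x = a := by
  simp only [Pop, iter_const, pois_const]

theorem Pop_zero (μ : PW J) (ψ : J → 𝓜) (V : 𝓜 → ℝ) : Pop 0 μ ψ V = V := by
  funext x
  rw [Pop, pois_eq, tsum_eq_single 0]
  · simp [pw]
  · intro k hk
    simp [pw, hk]

/-- The one-step operator as a linear map. -/
def Mlin (μ : PW J) (ψ : J → 𝓜) : Module.End ℝ (𝓜 → ℝ) where
  toFun := Mop μ ψ
  map_add' := fun V W => by funext x; simp [Mop, E_add]
  map_smul' := fun a V => by funext x; simp [Mop, E_const_mul]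

theorem Mlin_pow (μ : PW J) (ψ : J → 𝓜) (k : ℕ) (V : 𝓜 → ℝ) :
    (Mlin μ ψ ^ k) V = (Mop μ ψ)^[k] V := by
  rw [Module.End.pow_apply]; rfl

theorem iter_mix {p : ℝ}
    (hmix : ∀ W : 𝓜 → ℝ, ∀ x, Mop μ'' ψ'' W x = p * Mop μ ψ W x + (1 - p) * Mop μ' ψ' W x)
    (k : ℕ) (x : 𝓜) :
    (Mop μ'' ψ'')^[k] V x = ∑ m ∈ antidiagonal k, (k.choose m.1 : ℝ) * (p ^ m.1 * (1 - p) ^ m.2) *
      (Mop μ ψ)^[m.1] ((Mop μ' ψ')^[m.2] V) x := by
  have h1 : Mlin μ'' ψ'' = p • Mlin μ ψ + (1 - p) • Mlin μ' ψ' :=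
    LinearMap.ext fun W => funext fun x => hmix W x
  have h2 : Commute (Mlin μ ψ) (Mlin μ' ψ') := LinearMap.ext fun W => Mop_comm W
  rw [← Mlin_pow, h1, ((h2.smul_left p).smul_right (1 - p)).add_pow', LinearMap.sum_apply,
    Finset.sum_apply]
  refine sum_congr rfl fun m _ => ?_
  rw [smul_pow, smul_pow, ← Mlin_pow, ← Mlin_pow, ← Nat.cast_smul_eq_nsmul ℝ]
  simp only [LinearMap.smul_apply, Module.End.mul_apply, map_smul, Pi.smul_apply, smul_eq_mul]
  ring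

theorem iter_Pop (ht : 0 ≤ t) (h : Inc ψ V c) (h' : Inc ψ' V c') (i : ℕ) (x : 𝓜) :
    (Mop μ ψ)^[i] (Pop t μ' ψ' V) x = pois t fun j => (Mop μ ψ)^[i] ((Mop μ' ψ')^[j] V) x := by
  simp only [Mop_iterate μ, Pop]
  refine E_pois (c := |V x| + c * i + c') _ ht fun a k => (abs_iter_le h' k _).trans ?_
  have h1 := h.sum a x
  have h3 := abs_add_le (V (x + ∑ l, ψ (a l)) - V x) (V x)
  rw [sub_add_cancel] at h3
  gcongr
  linarith

/-- Thinning. -/
theorem Pop_thin {p : ℝ} (ht : 0 ≤ t) (hp : 0 ≤ p) (hp1 : p ≤ 1) (h : Inc ψ V c) (h' : Inc ψ' V c')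
    (hmix : ∀ W : 𝓜 → ℝ, ∀ x, Mop μ'' ψ'' W x = p * Mop μ ψ W x + (1 - p) * Mop μ' ψ' W x) (x : 𝓜) :
    Pop t μ'' ψ'' V x = Pop (p * t) μ ψ (Pop ((1 - p) * t) μ' ψ' V) x := by
  have h2 : 0 ≤ (1 - p) * t := mul_nonneg (by linarith) ht
  rw [Pop, Pop]
  simp only [iter_mix hmix, iter_Pop h2 h h']
  refine pois_thin (c := |V x| + c' + c) ht hp hp1
    (g := fun i j => (Mop μ ψ)^[i] ((Mop μ' ψ')^[j] V) x) fun i j => ?_
  refine (abs_iter_le (h.iter j) i x).trans ?_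
  have h3 := abs_iter_le (μ := μ') h' j x
  have hc := h.nonneg μ
  have hi : (0 : ℝ) ≤ i := Nat.cast_nonneg i
  have hj : (0 : ℝ) ≤ j := Nat.cast_nonneg j
  rw [mul_comm ((i : ℝ) + 1), ← mul_assoc]
  gcongr
  nlinarith

/-- Semigroup property. -/
theorem Pop_Pop {s : ℝ} (hs : 0 ≤ s) (ht : 0 ≤ t) (h : Inc ψ V c) (x : 𝓜) :
    Pop (s + t) μ ψ V x = Pop s μ ψ (Pop t μ ψ V) x := by
  rcases (add_nonneg hs ht).eq_or_lt with h0 | h0
  · have h1 : s = 0 := by linarith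
    have h2 : t = 0 := by linarith
    simp [h1, h2, Pop_zero]
  · have h1 := Pop_thin (μ := μ) (μ' := μ) (μ'' := μ) (ψ'' := ψ) (p := s / (s + t)) h0.le
      (by positivity) (by rw [div_le_one h0]; linarith) h h (fun W x => by ring) x
    have h2 : s / (s + t) * (s + t) = s := by field_simp
    have h3 : (1 - s / (s + t)) * (s + t) = t := by field_simp; ring
    rwa [h2, h3] at h1

theorem iter_le_iter {η : ℝ} (hgen : ∀ x, Mop μ ψ V x ≤ Mop μ' ψ' V x + η) (k : ℕ) (x : 𝓜) :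
    (Mop μ ψ)^[k] V x ≤ (Mop μ' ψ')^[k] V x + η * k := by
  induction k generalizing x with
  | zero => simp
  | succ k ih =>
    have hc : Function.Commute (Mop μ ψ) (Mop μ' ψ') := fun W => Mop_comm W
    have h1 := iter_mono (μ := μ) (ψ := ψ) hgen k x
    rw [iter_add, iter_const, (hc.iterate_left k).eq] at h1
    have h2 : Mop μ' ψ' ((Mop μ ψ)^[k] V) x ≤ Mop μ' ψ' ((Mop μ' ψ')^[k] V) x + η * k := by
      simp only [Mop]
      rw [← E_add_const]
      exact E_mono _ fun j => ih _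
    rw [Function.iterate_succ_apply, Function.iterate_succ_apply']
    push_cast
    linarith

/-- Comparison through the generators. -/
theorem Pop_le_Pop {η : ℝ} (ht : 0 ≤ t) (h : Inc ψ V c) (h' : Inc ψ' V c')
    (hgen : ∀ x, Mop μ ψ V x ≤ Mop μ' ψ' V x + η) (x : 𝓜) :
    Pop t μ ψ V x ≤ Pop t μ' ψ' V x + t * η := by
  have hη : ∀ k : ℕ, |η * k| ≤ |η| * (k + 1) := fun k => by
    rw [abs_mul, Nat.abs_cast]
    gcongr
    linarith
  rw [Pop, Pop, mul_comm, ← pois_id, ← pois_add' ht (fun k => abs_iter_le h' k x) hη]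
  refine pois_mono' (c' := |V x| + c' + |η|) ht (fun k => abs_iter_le h k x) (fun k => ?_)
    fun k => iter_le_iter hgen k x
  refine (abs_add_le _ _).trans ?_
  linarith [abs_iter_le (μ := μ') h' k x, hη k]

theorem Pop_hom (f : 𝓜 →+ 𝓜') (t : ℝ) (μ : PW J) (ψ : J → 𝓜) (V : 𝓜' → ℝ) (x : 𝓜) :
    Pop t μ (fun j => f (ψ j)) V (f x) = Pop t μ ψ (fun x => V (f x)) x := by
  simp only [Pop, Mop_iterate, map_add, map_sum]

end Vale.Agent.P168
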