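import Vale.Agent.P168.RsbLip

/-!
# P168: finite approximation of an integrable random variable
-/

namespace Vale.Agent.P168

open Finset PW MeasureTheory
open scoped BigOperators

section apx
variable {Ω : Type*} [MeasurableSpace Ω] (P : Measure Ω) [IsProbabilityMeasure P]

/-- The law of a measurable map into a finite type. -/
noncomputable def lawR {Θ : Type} [Fintype Θ] (g : Ω → Θ)
    (hg : ∀ c, MeasurableSet (g ⁻¹' {c})) : PW Θ where
  w := fun c => ∫ ω, (g ⁻¹' {c}).indicator (fun _ => (1 : ℝ)) ω ∂P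
  nonneg := fun c => integral_nonneg fun ω => Set.indicator_nonneg (fun _ _ => zero_le_one) ω
  sum_one := by
    classical
    rw [← integral_finsetSum _ fun c _ => (integrable_const _).indicator (hg c)]
    have : ∀ ω, ∑ c, (g ⁻¹' {c}).indicator (fun _ => (1 : ℝ)) ω = 1 := fun ω => by
      simp [Set.indicator_apply]
    simp [this]

theorem integral_pi_lawR {Θ ι : Type} [Fintype Θ] [Fintype ι] [DecidableEq ι] (g : Ω → Θ)
    (hg : ∀ c, MeasurableSet (g ⁻¹' {c})) (F : (ι → Θ) → ℝ) :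
    Integrable (fun ω : ι → Ω => F fun l => g (ω l)) (Measure.pi fun _ => P) ∧
    ∫ ω : ι → Ω, F (fun l => g (ω l)) ∂(Measure.pi fun _ => P) =
      (PW.pi fun _ : ι => lawR P g hg).E F := by
  classical
  have e : ∀ ω : ι → Ω, F (fun l => g (ω l)) =
      ∑ c : ι → Θ, (∏ l, (g ⁻¹' {c l}).indicator (fun _ => (1 : ℝ)) (ω l)) * F c := fun ω => by
    rw [sum_eq_single (fun l => g (ω l))]
    · simp
    · intro c _ hc
      obtain ⟨l, hl⟩ := Function.ne_iff.mp hc
      rw [prod_eq_zero (mem_univ l), zero_mul]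
      exact Set.indicator_of_notMem (by simpa using Ne.symm hl) _
    · simp
  have hi : ∀ c : ι → Θ, Integrable (fun ω : ι → Ω =>
      (∏ l, (g ⁻¹' {c l}).indicator (fun _ => (1 : ℝ)) (ω l)) * F c) (Measure.pi fun _ => P) :=
    fun c => (Integrable.fintype_prod (f := fun l ω => (g ⁻¹' {c l}).indicator (fun _ => (1 : ℝ)) ω)
      fun l => (integrable_const _).indicator (hg _)).mul_const _
  simp only [e]
  refine ⟨integrable_finsetSum _ fun c _ => hi c, ?_⟩
  rw [integral_finsetSum _ fun c _ => hi c, E]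
  refine sum_congr rfl fun c _ => ?_
  rw [integral_mul_const, integral_fintype_prod_eq_prod
    (fun l ω => (g ⁻¹' {c l}).indicator (fun _ => (1 : ℝ)) ω)]
  rfl

theorem integral_lawR {Θ : Type} [Fintype Θ] (g : Ω → Θ)
    (hg : ∀ c, MeasurableSet (g ⁻¹' {c})) (F : Θ → ℝ) :
    Integrable (fun ω => F (g ω)) P ∧ ∫ ω, F (g ω) ∂P = (lawR P g hg).E F := by
  classical
  have e : ∀ ω, F (g ω) = ∑ c, (g ⁻¹' {c}).indicator (fun _ => (1 : ℝ)) ω * F c := fun ω => by
    simp [Set.indicator_apply]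
  have hi : ∀ c, Integrable (fun ω => (g ⁻¹' {c}).indicator (fun _ => (1 : ℝ)) ω * F c) P :=
    fun c => ((integrable_const _).indicator (hg c)).mul_const _
  simp only [e]
  refine ⟨integrable_finsetSum _ fun c _ => hi c, ?_⟩
  rw [integral_finsetSum _ fun c _ => hi c, E]
  exact sum_congr rfl fun c _ => integral_mul_const _ _

variable {V : Type} [NormedAddCommGroup V]

/-- Slotwise Lipschitz functions. -/
def SLip {ι : Type} [Fintype ι] (Ψ : (ι → V) → ℝ) : Prop :=
  ∀ u v, |Ψ u - Ψ v| ≤ ∑ l, ‖u l - v l‖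

theorem SLip.continuous {ι : Type} [Fintype ι] {Ψ : (ι → V) → ℝ} (h : SLip Ψ) : Continuous Ψ := by
  refine (LipschitzWith.of_dist_le_mul (K := Fintype.card ι) fun u v => ?_).continuous
  rw [Real.dist_eq]
  refine (h u v).trans ((sum_le_sum fun l _ => norm_le_pi_norm (u - v) l).trans ?_)
  simp [dist_eq_norm]

theorem SLip.integrable {ι : Type} [Fintype ι] {Ψ : (ι → V) → ℝ} (h : SLip Ψ) {φ : Ω → V}
    (hφ : Integrable φ P) :
    Integrable (fun ω : ι → Ω => Ψ fun l => φ (ω l)) (Measure.pi fun _ => P) := by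
  have h1 : ∀ l, Integrable (fun ω : ι → Ω => φ (ω l)) (Measure.pi fun _ => P) := fun l =>
    integrable_comp_eval (μ := fun _ : ι => P) hφ
  have h2 : Integrable (fun ω : ι → Ω => fun l => φ (ω l)) (Measure.pi fun _ => P) :=
    Integrable.of_eval h1
  refine Integrable.mono' ((integrable_const |Ψ 0|).add (integrable_finsetSum univ
    fun l _ => (h1 l).norm)) (h.continuous.comp_aestronglyMeasurable h2.1) (ae_of_all _ fun ω => ?_)
  have := h (fun l => φ (ω l)) 0
  simp only [Pi.zero_apply, sub_zero] at this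
  rw [Real.norm_eq_abs, Pi.add_apply]
  linarith [abs_sub_abs_le_abs_sub (Ψ fun l => φ (ω l)) (Ψ 0)]

theorem integrable_lip_R {D : V → ℝ} (h : ∀ u v, |D u - D v| ≤ ‖u - v‖) {φ : Ω → V}
    (hφ : Integrable φ P) : Integrable (fun ω => D (φ ω)) P := by
  have hc : Continuous D := (LipschitzWith.of_dist_le_mul (K := 1) fun u v => by
    simpa [Real.dist_eq, dist_eq_norm] using h u v).continuous
  refine Integrable.mono' ((integrable_const |D 0|).add hφ.norm)
    (hc.comp_aestronglyMeasurable hφ.1) (ae_of_all _ fun ω => ?_)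
  have := h (φ ω) 0
  rw [sub_zero] at this
  rw [Real.norm_eq_abs, Pi.add_apply]
  linarith [abs_sub_abs_le_abs_sub (D (φ ω)) (D 0)]

/-- Finite approximation. -/
theorem exists_apx_R {φ : Ω → V} (hφ : Integrable φ P) {δ : ℝ} (hδ : 0 < δ) :
    ∃ (Θ : Type) (_ : Fintype Θ) (p : PW Θ) (th : Θ → V),
      (∀ D : V → ℝ, (∀ u v, |D u - D v| ≤ ‖u - v‖) →
        |∫ ω, D (φ ω) ∂P - p.E fun c => D (th c)| ≤ δ) ∧
      ∀ (k : ℕ) (Ψ : (Fin k → V) → ℝ), SLip Ψ →
        |∫ ω : Fin k → Ω, Ψ (fun l => φ (ω l)) ∂(Measure.pi fun _ => P) -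
          (PW.pi fun _ : Fin k => p).E fun c => Ψ fun l => th (c l)| ≤ δ * k := by
  obtain ⟨f, hf, hfm⟩ := (memLp_one_iff_integrable.2 hφ).exists_simpleFunc_eLpNorm_sub_lt
    (by simp) (ε := ENNReal.ofReal δ) (by simpa using hδ)
  have hfi : Integrable f P := memLp_one_iff_integrable.1 hfm
  have hd : ∫ ω, ‖φ ω - f ω‖ ∂P ≤ δ := by
    have h1 := hφ.sub hfi
    rw [eLpNorm_one_eq_lintegral_enorm, ← ofReal_integral_norm_eq_lintegral_enorm h1,
      ENNReal.ofReal_lt_ofReal_iff hδ] at hf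
    exact hf.le
  let g : Ω → f.range := fun ω => ⟨f ω, f.mem_range_self ω⟩
  have hg : ∀ c, MeasurableSet (g ⁻¹' {c}) := fun c => by
    have : g ⁻¹' {c} = f ⁻¹' {c.1} := by
      ext ω; simp [g, Subtype.ext_iff]
    rw [this]; exact f.measurableSet_fiber _
  refine ⟨f.range, inferInstance, lawR P g hg, Subtype.val, fun D hD => ?_, fun k Ψ hΨ => ?_⟩
  · obtain ⟨h1, h2⟩ := integral_lawR P g hg fun c => D c.1
    rw [← h2, ← integral_sub (integrable_lip_R P hD hφ) h1]
    refine le_trans ?_ hd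
    rw [← Real.norm_eq_abs]
    exact norm_integral_le_of_norm_le (hφ.sub hfi).norm (ae_of_all _ fun ω => hD (φ ω) (f ω))
  · obtain ⟨h1, h2⟩ := integral_pi_lawR P g hg fun c : Fin k → f.range => Ψ fun l => (c l).1
    rw [← h2, ← integral_sub (hΨ.integrable P hφ) h1]
    have h3 : ∀ l, Integrable (fun ω : Fin k → Ω => ‖φ (ω l) - f (ω l)‖) (Measure.pi fun _ => P) :=
      fun l => integrable_comp_eval (μ := fun _ : Fin k => P) (hφ.sub hfi).norm
    rw [← Real.norm_eq_abs]
    refine (norm_integral_le_of_norm_le (integrable_finsetSum univ fun l _ => h3 l)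
      (ae_of_all _ fun ω => hΨ (fun l => φ (ω l)) fun l => f (ω l))).trans ?_
    rw [integral_finsetSum _ fun l _ => h3 l]
    refine (sum_le_sum fun l _ => (le_of_eq ?_).trans hd).trans (by simp [mul_comm])
    exact integral_comp_eval (μ := fun _ : Fin k => P) (f := fun ω => ‖φ ω - f ω‖)
      (hφ.sub hfi).norm.1

end apx

theorem pois_close_R {t a b c : ℝ} {g g' : ℕ → ℝ} (ht : 0 ≤ t) (ha : 0 ≤ a) (hb : 0 ≤ b)
    (hg' : ∀ k, |g' k| ≤ c * (k + 1)) (h : ∀ k, |g k - g' k| ≤ a * k + b) :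
    |pois t g - pois t g'| ≤ a * t + b := by
  have h0 : ∀ k : ℕ, a * k + b ≤ (a + b) * (k + 1) := fun k => by
    have : (0 : ℝ) ≤ k := Nat.cast_nonneg k
    nlinarith
  have hg : ∀ k, |g k| ≤ (c + (a + b)) * (k + 1) := fun k => by
    linarith [abs_sub_abs_le_abs_sub (g k) (g' k), h k, hg' k, h0 k]
  rw [← pois_sub' ht hg hg']
  refine (abs_pois_le_pois (c := a + b) ht h fun k => ?_).trans (le_of_eq ?_)
  · rw [abs_of_nonneg (by positivity)]; exact h0 k
  · rw [pois_add' (c := a) (c' := b) ht (fun k => ?_) (fun k => ?_), pois_id, pois_const]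
    · rw [abs_of_nonneg (by positivity)]; gcongr; linarith
    · rw [abs_of_nonneg hb]
      exact le_mul_of_one_le_right hb (by linarith [(Nat.cast_nonneg k : (0 : ℝ) ≤ k)])

end Vale.Agent.P168
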