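import Vale.Agent.P168.Iface

/-!
# P168: linear response along a chain
-/

namespace Vale.Agent.P168

open Finset PW
open scoped BigOperators

variable {α : Type} [Fintype α] {Ω : Type} [Fintype Ω]

theorem hasDerivAt_E (μ : PW α) {G : ℝ → α → ℝ} {G' : α → ℝ} {s : ℝ}
    (h : ∀ x, HasDerivAt (fun t => G t x) (G' x) s) :
    HasDerivAt (fun t => μ.E (G t)) (μ.E G') s := by
  simp only [E]
  exact HasDerivAt.fun_sum fun x _ => (h x).const_mul _

theorem hasDerivAt_E_tilt (μ : PW α) {F G : ℝ → α → ℝ} {F' G' : α → ℝ} {s : ℝ}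
    (hF : ∀ x, HasDerivAt (fun t => F t x) (F' x) s)
    (hG : ∀ x, HasDerivAt (fun t => G t x) (G' x) s) :
    HasDerivAt (fun t => (μ.tilt (F t)).E (G t))
      ((μ.tilt (F s)).E G' + ((μ.tilt (F s)).E (fun x => G s x * F' x) -
        (μ.tilt (F s)).E (G s) * (μ.tilt (F s)).E F')) s := by
  simp only [E_tilt]
  have h1 := hasDerivAt_E μ (G := fun t x => Real.exp (F t x) * G t x)
    fun x => (hF x).exp.mul (hG x)
  have h2 := hasDerivAt_E μ (G := fun t x => Real.exp (F t x)) fun x => (hF x).exp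
  have hp := (μ.E_pos fun x => Real.exp_pos (F s x)).ne'
  refine (h1.div h2 hp).congr_deriv ?_
  rw [E_add, μ.E_congr (F := fun x => Real.exp (F s x) * F' x * G s x)
    (G := fun x => Real.exp (F s x) * (G s x * F' x)) fun x => by ring]
  field_simp
  ring

theorem hasDerivAt_lam {a : ℝ} (ha : 0 < a) (μ : PW α) {Y : ℝ → α → ℝ} {Y' : α → ℝ} {s : ℝ}
    (hY : ∀ x, HasDerivAt (fun t => Y t x) (Y' x) s) :
    HasDerivAt (fun t => lam a μ (Y t)) ((μ.tilt fun x => a * Y s x).E Y') s := by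
  simp only [lam, E_tilt]
  have h2 := hasDerivAt_E μ (G := fun t x => Real.exp (a * Y t x))
    fun x => ((hY x).const_mul a).exp
  have hp := (μ.E_pos fun x => Real.exp_pos (a * Y s x)).ne'
  refine ((h2.log hp).div_const a).congr_deriv ?_
  rw [μ.E_congr (F := fun x => Real.exp (a * Y s x) * (a * Y' x))
    (G := fun x => a * (Real.exp (a * Y s x) * Y' x)) fun x => by ring, E_const_mul]
  field_simp

section lin
variable {P : Ch Ω} {j p : ℕ}

theorem A_add (F G : Ω → ℝ) (ω : Ω) :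
    A P j p (fun x => F x + G x) ω = A P j p F ω + A P j p G ω := E_add _ _ _
theorem A_sub (F G : Ω → ℝ) (ω : Ω) :
    A P j p (fun x => F x - G x) ω = A P j p F ω - A P j p G ω := E_sub _ _ _
theorem A_neg (F : Ω → ℝ) (ω : Ω) : A P j p (fun x => -F x) ω = -A P j p F ω := E_neg _ _
theorem A_const_mul (c : ℝ) (F : Ω → ℝ) (ω : Ω) :
    A P j p (fun x => c * F x) ω = c * A P j p F ω := E_const_mul _ _ _
theorem A_mul_const (c : ℝ) (F : Ω → ℝ) (ω : Ω) :
    A P j p (fun x => F x * c) ω = A P j p F ω * c := E_mul_const _ _ _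
theorem A_mono {F G : Ω → ℝ} (h : ∀ x, F x ≤ G x) (ω : Ω) : A P j p F ω ≤ A P j p G ω :=
  E_mono _ h
theorem A_nonneg {F : Ω → ℝ} (h : ∀ x, 0 ≤ F x) (ω : Ω) : 0 ≤ A P j p F ω := E_nonneg _ h
theorem A_le_const {F : Ω → ℝ} {c : ℝ} (h : ∀ x, F x ≤ c) (ω : Ω) : A P j p F ω ≤ c :=
  E_le_const _ h
theorem abs_A_le_A (F : Ω → ℝ) (ω : Ω) : |A P j p F ω| ≤ A P j p (fun x => |F x|) ω :=
  abs_E_le _ _
theorem abs_A_sub_le_A (F G : Ω → ℝ) (ω : Ω) :
    |A P j p F ω - A P j p G ω| ≤ A P j p (fun x => |F x - G x|) ω := abs_E_sub_le _ _ _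
theorem abs_A_sub_le {F G : Ω → ℝ} {c : ℝ} (h : ∀ x, |F x - G x| ≤ c) (ω : Ω) :
    |A P j p F ω - A P j p G ω| ≤ c := abs_E_sub_le_const _ h
theorem A_const' (c : ℝ) (ω : Ω) : A P j p (fun _ => c) ω = c := E_const _ _
theorem A_fun_congr {F G : Ω → ℝ} (h : ∀ x, F x = G x) (ω : Ω) : A P j p F ω = A P j p G ω := by
  rw [funext h]
theorem A_A' {i : ℕ} (hji : j ≤ i) (hp : i ≤ p) (F : Ω → ℝ) (ω : Ω) :
    A P i p (fun x => A P j i F x) ω = A P j p F ω := congrFun (A_A hji F p hp) ω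

end lin

theorem abs_mul_sub_mul_le {x y x' y' c c' d d' : ℝ} (hy : |y| ≤ c') (hx' : |x'| ≤ c)
    (h1 : |x - x'| ≤ d) (h2 : |y - y'| ≤ d') : |x * y - x' * y'| ≤ d * c' + c * d' := by
  have : x * y - x' * y' = (x - x') * y + x' * (y - y') := by ring
  rw [this]
  refine (abs_add_le _ _).trans ?_
  rw [abs_mul, abs_mul]
  gcongr
  · exact (abs_nonneg _).trans h1
  · exact (abs_nonneg _).trans hx'

theorem abs_mul_le' {x y c c' : ℝ} (hx : |x| ≤ c) (hy : |y| ≤ c') : |x * y| ≤ c * c' := by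
  rw [abs_mul]; exact mul_le_mul hx hy (abs_nonneg _) ((abs_nonneg _).trans hx)

/-- Response of the average of `G` to a tilt by `O`, both placed at height `j`. -/
noncomputable def Rs (a : ℕ → ℝ) (P : Ch Ω) (j : ℕ) (G O : Ω → ℝ) (p : ℕ) (ω : Ω) : ℝ :=
  a j * A P j p (fun x => G x * O x) ω -
    ∑ i ∈ Ico j p, (a i - a (i + 1)) *
      A P (i + 1) p (fun x => A P j (i + 1) G x * A P j (i + 1) O x) ω -
    a p * (A P j p G ω * A P j p O ω)

variable {a : ℕ → ℝ} {P P' : Ch Ω} {j p : ℕ}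

theorem Rs_self (G O : Ω → ℝ) (ω : Ω) : Rs a P j G O j ω = 0 := by
  simp [Rs, A_of_le]

theorem Rs_succ (h : j ≤ p) (G O : Ω → ℝ) (ω : Ω) :
    Rs a P j G O (p + 1) ω = (P p ω).E (Rs a P j G O p) +
      a p * ((P p ω).E (fun x => A P j p G x * A P j p O x) -
        A P j (p + 1) G ω * A P j (p + 1) O ω) := by
  have e : (P p ω).E (Rs a P j G O p) = a j * A P j (p + 1) (fun x => G x * O x) ω -
      ∑ i ∈ Ico j p, (a i - a (i + 1)) *
        A P (i + 1) (p + 1) (fun x => A P j (i + 1) G x * A P j (i + 1) O x) ω -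
      a p * (P p ω).E (fun x => A P j p G x * A P j p O x) := by
    unfold Rs
    rw [E_sub, E_sub, E_const_mul, E_const_mul, E_sum, A_succ h]
    congr 2
    refine sum_congr rfl fun i hi => ?_
    rw [E_const_mul, A_succ (by simp at hi; omega)]
  rw [e, Rs, sum_Ico_succ_top h, A_of_le (le_refl (p + 1))]
  ring

theorem hasDerivAt_X (ha : ∀ i, 0 < a i) {ψ : ℝ → Ω → ℝ} {ψ' : Ω → ℝ} {s : ℝ}
    (h : ∀ x, HasDerivAt (fun t => ψ t x) (ψ' x) s) (p : ℕ) :
    ∀ ω, HasDerivAt (fun t => X a P j (ψ t) p ω) (A (T a P j (ψ s)) j p ψ' ω) s := by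
  induction p using ht_induction (j := j) with
  | h0 p hp => simp only [X_of_le hp, A_of_le hp]; exact h
  | hs p hp ih =>
    intro ω
    simp only [X_succ hp, A_succ hp, T_of_le hp]
    exact hasDerivAt_lam (ha p) _ ih

theorem hasDerivAt_A_T (ha : ∀ i, 0 < a i) {ψ G : ℝ → Ω → ℝ} {ψ' G' : Ω → ℝ} {s : ℝ}
    (h : ∀ x, HasDerivAt (fun t => ψ t x) (ψ' x) s)
    (hG : ∀ x, HasDerivAt (fun t => G t x) (G' x) s) {i : ℕ} (hi : j ≤ i) (p : ℕ) (hp : i ≤ p) :
    ∀ ω, HasDerivAt (fun t => A (T a P j (ψ t)) i p (G t) ω)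
      (A (T a P j (ψ s)) i p G' ω +
        Rs a (T a P j (ψ s)) i (G s) (A (T a P j (ψ s)) j i ψ') p ω) s := by
  induction p, hp using Nat.le_induction with
  | base => simp only [A_of_le (le_refl i), Rs_self, add_zero]; exact hG
  | succ p hp ih =>
    intro ω
    have hjp := hi.trans hp
    simp only [A_succ hp, Rs_succ hp, T_of_le hjp]
    have := hasDerivAt_E_tilt (P p ω) (F := fun t x => a p * X a P j (ψ t) p x)
      (fun x => (hasDerivAt_X (P := P) (j := j) ha h p x).const_mul (a p)) ih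
    convert this using 1
    rw [A_A hi _ p hp, E_add, E_const_mul,
      E_congr _ (F := fun x => A (T a P j (ψ s)) i p (G s) x * (a p * A (T a P j (ψ s)) j p ψ' x))
        (G := fun x => a p * (A (T a P j (ψ s)) i p (G s) x * A (T a P j (ψ s)) j p ψ' x))
        fun x => by ring, E_const_mul]
    ring

theorem sum_Ico_tele (a : ℕ → ℝ) (h : j ≤ p) : ∑ i ∈ Ico j p, (a i - a (i + 1)) = a j - a p := by
  induction p, h using Nat.le_induction with
  | base => simp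
  | succ p hp ih => rw [sum_Ico_succ_top hp, ih]; ring

/-- A signed combination with the response weights. -/
theorem abs_weights_le (ha : ∀ i, 0 < a i) (ha' : Antitone a) (ha1 : a 0 ≤ 1) (h : j ≤ p)
    {x y c : ℝ} {z : ℕ → ℝ} (hx : |x| ≤ c) (hy : |y| ≤ c) (hz : ∀ i ∈ Ico j p, |z i| ≤ c) :
    |a j * x - ∑ i ∈ Ico j p, (a i - a (i + 1)) * z i - a p * y| ≤ 2 * c := by
  have hc : 0 ≤ c := (abs_nonneg _).trans hx
  have h1 : |∑ i ∈ Ico j p, (a i - a (i + 1)) * z i| ≤ (a j - a p) * c := by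
    rw [← sum_Ico_tele a h, sum_mul]
    refine (abs_sum_le_sum_abs _ _).trans (sum_le_sum fun i hi => ?_)
    have : 0 ≤ a i - a (i + 1) := sub_nonneg.mpr (ha' (Nat.le_succ i))
    rw [abs_mul, abs_of_nonneg this]
    exact mul_le_mul_of_nonneg_left (hz i hi) this
  have h2 : |a j * x| ≤ a j * c := abs_mul_le' (abs_of_pos (ha j)).le hx
  have h3 : |a p * y| ≤ a p * c := abs_mul_le' (abs_of_pos (ha p)).le hy
  have h4 : a j ≤ 1 := (ha' (Nat.zero_le j)).trans ha1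
  rw [abs_le] at h1 h2 h3 ⊢
  constructor <;> nlinarith

theorem abs_Rs_le_A (ha : ∀ i, 0 < a i) (ha' : Antitone a) (ha1 : a 0 ≤ 1) (h : j ≤ p)
    {G : Ω → ℝ} {c : ℝ} (hG : ∀ x, |G x| ≤ c) (O : Ω → ℝ) (ω : Ω) :
    |Rs a P j G O p ω| ≤ 2 * (c * A P j p (fun x => |O x|) ω) := by
  refine abs_weights_le ha ha' ha1 h ?_ ?_ fun i hi => ?_
  · rw [← A_const_mul]
    exact (abs_A_le_A _ _).trans (A_mono (fun x => abs_mul_le' (hG x) le_rfl) ω)
  · exact abs_mul_le' (abs_A_le hG ω) (abs_A_le_A _ _)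
  · simp only [mem_Ico] at hi
    rw [← A_A' (j := j) (p := p) (i := i + 1) (by omega) (by omega), ← A_const_mul]
    exact (abs_A_le_A _ _).trans
      (A_mono (fun x => abs_mul_le' (abs_A_le hG x) (abs_A_le_A _ _)) ω)

theorem abs_Rs_le (ha : ∀ i, 0 < a i) (ha' : Antitone a) (ha1 : a 0 ≤ 1) (h : j ≤ p)
    {G O : Ω → ℝ} {c c' : ℝ} (hG : ∀ x, |G x| ≤ c) (hO : ∀ x, |O x| ≤ c') (ω : Ω) :
    |Rs a P j G O p ω| ≤ 2 * (c * c') := by
  refine (abs_Rs_le_A ha ha' ha1 h hG O ω).trans ?_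
  have hc : 0 ≤ c := (abs_nonneg _).trans (hG ω)
  gcongr
  exact A_le_const hO ω

theorem Rs_comm (G O : Ω → ℝ) (ω : Ω) : Rs a P j G O p ω = Rs a P j O G p ω := by
  simp only [Rs, mul_comm (G _), mul_comm (A P j _ G _)]

theorem Rs_sub_right (G O O' : Ω → ℝ) (ω : Ω) :
    Rs a P j G (fun x => O x - O' x) p ω = Rs a P j G O p ω - Rs a P j G O' p ω := by
  simp only [Rs, mul_sub, A_sub, sum_sub_distrib]
  ring

theorem Rs_const_mul_right (c : ℝ) (G O : Ω → ℝ) (ω : Ω) :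
    Rs a P j G (fun x => c * O x) p ω = c * Rs a P j G O p ω := by
  simp only [Rs, A_const_mul, mul_left_comm _ c, ← mul_sum]
  ring

/-- Two chains give close averages above height `j`. -/
def Near (j : ℕ) (b : ℝ) (P' P : Ch Ω) : Prop :=
  ∀ i, j ≤ i → ∀ p (F : Ω → ℝ) (c : ℝ), (∀ x, |F x| ≤ c) → ∀ ω, |A P' i p F ω - A P i p F ω| ≤ b * c

theorem near_T (ha : ∀ i, 0 < a i) (ha' : Antitone a) (ha1 : a 0 ≤ 1) {G : Ω → ℝ} {b : ℝ}
    (hG : ∀ ω, |G ω| ≤ b) (hb : b ≤ 1 / 2) : Near j (8 * b) (T a P j G) P :=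
  fun _ hi p _ _ hF ω => abs_A_T_sub_le ha ha' ha1 hG hb hi hF p ω

theorem Near.mono {b : ℝ} (h : Near j b P' P) {i : ℕ} (hi : j ≤ i) : Near i b P' P :=
  fun l hl => h l (hi.trans hl)

theorem Near.symm {b : ℝ} (h : Near j b P' P) : Near j b P P' :=
  fun l hl p F c hF ω => by rw [abs_sub_comm]; exact h l hl p F c hF ω

theorem Near.A {b c d : ℝ} (h : Near j b P' P) {i : ℕ} (hi : j ≤ i) (p : ℕ) {F' F : Ω → ℝ}
    (hF : ∀ x, |F x| ≤ c) (hd : ∀ x, |F' x - F x| ≤ d) (ω : Ω) :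
    |A P' i p F' ω - A P i p F ω| ≤ b * c + d := by
  have h1 := h i hi p F c hF ω
  have h2 := abs_A_sub_le (P := P') (j := i) (p := p) hd ω
  rw [abs_le] at h1 h2 ⊢
  constructor <;> linarith

theorem Near.Rs (ha : ∀ i, 0 < a i) (ha' : Antitone a) (ha1 : a 0 ≤ 1) {b c c' d d' : ℝ}
    (h : Near j b P' P) (hb : 0 ≤ b) (hp : j ≤ p) {G G' O O' : Ω → ℝ} (hG : ∀ x, |G x| ≤ c)
    (hO : ∀ x, |O x| ≤ c') (hO' : ∀ x, |O' x| ≤ c') (hd : ∀ x, |G' x - G x| ≤ d)
    (hd' : ∀ x, |O' x - O x| ≤ d') (ω : Ω) :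
    |Rs a P' j G' O' p ω - Rs a P j G O p ω| ≤ 2 * (3 * b * (c * c') + (d * c' + c * d')) := by
  have hc : 0 ≤ c := (abs_nonneg _).trans (hG ω)
  have hc' : 0 ≤ c' := (abs_nonneg _).trans (hO ω)
  have hbc : 0 ≤ b * (c * c') := by positivity
  have key : ∀ i x, |Vale.Agent.P168.A P' j i G' x * Vale.Agent.P168.A P' j i O' x -
      Vale.Agent.P168.A P j i G x * Vale.Agent.P168.A P j i O x| ≤
      2 * b * (c * c') + (d * c' + c * d') := fun i x => by
    refine (abs_mul_sub_mul_le (abs_A_le hO' x) (abs_A_le hG x) (h.A le_rfl i hG hd x)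
      (h.A le_rfl i hO hd' x)).trans (le_of_eq (by ring))
  have e : Vale.Agent.P168.Rs a P' j G' O' p ω - Vale.Agent.P168.Rs a P j G O p ω =
      a j * (Vale.Agent.P168.A P' j p (fun x => G' x * O' x) ω -
        Vale.Agent.P168.A P j p (fun x => G x * O x) ω) -
      ∑ i ∈ Ico j p, (a i - a (i + 1)) * (Vale.Agent.P168.A P' (i + 1) p
        (fun x => Vale.Agent.P168.A P' j (i + 1) G' x * Vale.Agent.P168.A P' j (i + 1) O' x) ω -
        Vale.Agent.P168.A P (i + 1) p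
        (fun x => Vale.Agent.P168.A P j (i + 1) G x * Vale.Agent.P168.A P j (i + 1) O x) ω) -
      a p * (Vale.Agent.P168.A P' j p G' ω * Vale.Agent.P168.A P' j p O' ω -
        Vale.Agent.P168.A P j p G ω * Vale.Agent.P168.A P j p O ω) := by
    simp only [Vale.Agent.P168.Rs, mul_sub, sum_sub_distrib]; ring
  rw [e]
  refine abs_weights_le ha ha' ha1 hp ?_ ?_ fun i hi => ?_
  · refine (h.A le_rfl p (fun x => abs_mul_le' (hG x) (hO x))
      (fun x => abs_mul_sub_mul_le (hO' x) (hG x) (hd x) (hd' x)) ω).trans ?_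
    linarith
  · exact (key p ω).trans (by linarith)
  · simp only [mem_Ico] at hi
    refine (h.A (by omega) p (fun x => abs_mul_le' (abs_A_le hG x) (abs_A_le hO x))
      (key (i + 1)) ω).trans (le_of_eq (by ring))

/-- Mean value theorem for odd functions. -/
theorem exists_deriv_of_odd {Θ Θ' : ℝ → ℝ} (h : ∀ s, HasDerivAt Θ (Θ' s) s)
    (hodd : Θ (-1) = -Θ 1) : ∃ s, |s| ≤ 1 ∧ Θ 1 = Θ' s := by
  obtain ⟨s, hs, e⟩ := exists_hasDerivAt_eq_slope Θ Θ' (by norm_num : (-1 : ℝ) < 1)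
    (fun s _ => (h s).continuousAt.continuousWithinAt) (fun s _ => h s)
  refine ⟨s, abs_le.mpr ⟨hs.1.le, hs.2.le⟩, ?_⟩
  rw [e, hodd]; ring

end Vale.Agent.P168
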