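import Vale.Agent.P168.AssA

/-!
# P168: measurability, bounds and comparison for the recursion `rsb`
-/

namespace Vale.Agent.P168

open Finset PW MeasureTheory
open scoped BigOperators

section rsb
variable {W : Type} [MeasurableSpace W] (μ : Measure W) [IsProbabilityMeasure μ]

theorem measurable_cons_R {r : ℕ} :
    Measurable fun p : W × (Fin r → W) => (Fin.cons p.1 p.2 : Fin (r + 1) → W) := by
  refine measurable_pi_lambda _ fun i => ?_
  refine Fin.cases ?_ (fun j => ?_) i
  · simpa using measurable_fst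
  · simp only [Fin.cons_succ]
    exact (measurable_pi_apply j).comp measurable_snd

theorem integrable_rpow_R {F : W → ℝ} (hF : Measurable F) {B a : ℝ} (ha : 0 < a)
    (h : ∀ w, Real.exp (-B) ≤ F w ∧ F w ≤ Real.exp B) : Integrable (fun w => F w ^ a) μ := by
  refine Integrable.of_bound (C := Real.exp B ^ a) (hF.pow_const a).aestronglyMeasurable
    (ae_of_all _ fun w => ?_)
  have h0 : 0 ≤ F w := (Real.exp_pos _).le.trans (h w).1
  rw [Real.norm_eq_abs, abs_of_nonneg (Real.rpow_nonneg h0 _)]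
  exact Real.rpow_le_rpow h0 (h w).2 ha.le

omit [IsProbabilityMeasure μ] in
/-- One level is monotone and homogeneous. -/
theorem level_le_R {F F' : W → ℝ} {a c : ℝ} (ha : 0 < a) (hc : 0 ≤ c)
    (hF : Integrable (fun w => F w ^ a) μ) (hF' : Integrable (fun w => F' w ^ a) μ)
    (h0 : ∀ w, 0 ≤ F w) (h0' : ∀ w, 0 ≤ F' w) (h : ∀ w, F' w ≤ c * F w) :
    (∫ w, F' w ^ a ∂μ) ^ (1 / a) ≤ c * (∫ w, F w ^ a ∂μ) ^ (1 / a) := by
  have h1 : ∫ w, F' w ^ a ∂μ ≤ c ^ a * ∫ w, F w ^ a ∂μ := by
    rw [← integral_const_mul]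
    refine integral_mono hF' (hF.const_mul _) fun w => ?_
    change F' w ^ a ≤ c ^ a * F w ^ a
    rw [← Real.mul_rpow hc (h0 w)]
    exact Real.rpow_le_rpow (h0' w) (h w) ha.le
  have h2 : 0 ≤ ∫ w, F w ^ a ∂μ := integral_nonneg fun w => Real.rpow_nonneg (h0 w) _
  have h3 : 0 ≤ ∫ w, F' w ^ a ∂μ := integral_nonneg fun w => Real.rpow_nonneg (h0' w) _
  refine (Real.rpow_le_rpow h3 h1 (by positivity)).trans (le_of_eq ?_)
  rw [Real.mul_rpow (Real.rpow_nonneg hc _) h2, ← Real.rpow_mul hc, mul_one_div_cancel ha.ne',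
    Real.rpow_one]

theorem level_one_R {a : ℝ} : (∫ _w, (1 : ℝ) ^ a ∂μ) ^ (1 / a) = 1 := by simp

theorem level_bound_R {F : W → ℝ} (hF : Measurable F) {B a : ℝ} (ha : 0 < a)
    (h : ∀ w, Real.exp (-B) ≤ F w ∧ F w ≤ Real.exp B) :
    Real.exp (-B) ≤ (∫ w, F w ^ a ∂μ) ^ (1 / a) ∧ (∫ w, F w ^ a ∂μ) ^ (1 / a) ≤ Real.exp B := by
  have hi := integrable_rpow_R μ hF ha h
  have h0 : ∀ w, 0 ≤ F w := fun w => (Real.exp_pos _).le.trans (h w).1
  have hone : Integrable (fun _ : W => (1 : ℝ) ^ a) μ := integrable_const _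
  constructor
  · have := level_le_R μ (F := F) (F' := fun _ => 1) (c := Real.exp B) ha (Real.exp_pos _).le hi
      hone h0 (fun _ => zero_le_one) fun w => by
        have h1 := mul_le_mul_of_nonneg_left (h w).1 (Real.exp_pos B).le
        rwa [← Real.exp_add, add_neg_cancel, Real.exp_zero] at h1
    rw [level_one_R] at this
    have h2 := mul_le_mul_of_nonneg_left this (Real.exp_pos (-B)).le
    rwa [mul_one, ← mul_assoc, ← Real.exp_add, neg_add_cancel, Real.exp_zero, one_mul] at h2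
  · have := level_le_R μ (F := fun _ => 1) (F' := F) (c := Real.exp B) ha (Real.exp_pos _).le hone
      hi (fun _ => zero_le_one) h0 fun w => by simpa using (h w).2
    rwa [level_one_R, mul_one] at this

/-- Measurability in a parameter and two-sided bounds. -/
theorem rsb_meas_bound (B : ℝ) : ∀ (r : ℕ) (m : Fin r → ℝ), (∀ p, 0 < m p) →
    ∀ (A : Type) [MeasurableSpace A] (Y : A → (Fin r → W) → ℝ),
      Measurable (fun p : A × (Fin r → W) => Y p.1 p.2) →
      (∀ a v, Real.exp (-B) ≤ Y a v ∧ Y a v ≤ Real.exp B) →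
      Measurable (fun a => rsb μ r m (Y a)) ∧
        ∀ a, Real.exp (-B) ≤ rsb μ r m (Y a) ∧ rsb μ r m (Y a) ≤ Real.exp B
  | 0, _, _, A, _, Y, hY, hB => by
    refine ⟨?_, fun a => hB a _⟩
    exact hY.comp (measurable_id.prodMk measurable_const)
  | r + 1, m, hm, A, _, Y, hY, hB => by
    have ih := rsb_meas_bound B r (Fin.tail m) (fun p => hm _) (A × W)
      (fun p v => Y p.1 (Fin.cons p.2 v))
      (hY.comp ((measurable_fst.comp measurable_fst).prodMk
        (measurable_cons_R.comp ((measurable_snd.comp measurable_fst).prodMk measurable_snd))))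
      fun a v => hB _ _
    refine ⟨?_, fun a => ?_⟩
    · simp only [rsb]
      refine Measurable.pow_const ?_ _
      exact ((ih.1.pow_const (m 0)).stronglyMeasurable.integral_prod_right' (ν := μ)).measurable
    · simp only [rsb]
      exact level_bound_R μ (ih.1.comp (measurable_const.prodMk measurable_id)) (hm 0)
        fun w => ih.2 (a, w)

/-- Comparison. -/
theorem rsb_le_R (B c : ℝ) (hc : 0 ≤ c) : ∀ (r : ℕ) (m : Fin r → ℝ), (∀ p, 0 < m p) →
    ∀ (Y Y' : (Fin r → W) → ℝ), Measurable Y → Measurable Y' →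
      (∀ v, Real.exp (-B) ≤ Y v ∧ Y v ≤ Real.exp B) →
      (∀ v, Real.exp (-B) ≤ Y' v ∧ Y' v ≤ Real.exp B) → (∀ v, Y' v ≤ c * Y v) →
      rsb μ r m Y' ≤ c * rsb μ r m Y
  | 0, _, _, Y, Y', _, _, _, _, h => h _
  | r + 1, m, hm, Y, Y', hY, hY', hB, hB', h => by
    have h1 := rsb_meas_bound μ B r (Fin.tail m) (fun p => hm _) W
      (fun w v => Y (Fin.cons w v)) (hY.comp measurable_cons_R) fun a v => hB _
    have h2 := rsb_meas_bound μ B r (Fin.tail m) (fun p => hm _) W
      (fun w v => Y' (Fin.cons w v)) (hY'.comp measurable_cons_R) fun a v => hB' _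
    simp only [rsb]
    refine level_le_R μ (hm 0) hc (integrable_rpow_R μ h1.1 (hm 0) h1.2)
      (integrable_rpow_R μ h2.1 (hm 0) h2.2) (fun w => (Real.exp_pos _).le.trans (h1.2 w).1)
      (fun w => (Real.exp_pos _).le.trans (h2.2 w).1) fun w => ?_
    exact rsb_le_R B c hc r (Fin.tail m) (fun p => hm _) _ _
      (hY.comp (measurable_cons_R.comp (measurable_const.prodMk measurable_id)))
      (hY'.comp (measurable_cons_R.comp (measurable_const.prodMk measurable_id)))
      (fun v => hB _) (fun v => hB' _) fun v => h _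

end rsb

section calT
variable {ι : Type} [Fintype ι] [DecidableEq ι]

theorem continuous_YG_R (G : (ι → Bool) → ℝ) : Continuous (YG G) := by
  unfold YG
  fun_prop

theorem YG_le_R {G G' : (ι → Bool) → ℝ} {c : ℝ} (h : ∀ z, G' z ≤ c + G z) {y : ι → ℝ}
    (hy : ∀ l, -1 ≤ y l ∧ y l ≤ 1) : YG G' y ≤ Real.exp c * YG G y := by
  rw [YG, YG, mul_sum]
  refine sum_le_sum fun z _ => ?_
  rw [← mul_assoc, ← Real.exp_add]
  refine mul_le_mul_of_nonneg_right (Real.exp_le_exp.mpr (h z)) (prod_nonneg fun l _ => ?_)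
  exact (spinW (y l) (hy l)).nonneg (z l)

theorem YG_zero_R {y : ι → ℝ} (hy : ∀ l, -1 ≤ y l ∧ y l ≤ 1) : YG (fun _ => 0) y = 1 := by
  have := (PW.pi fun l => spinW (y l) (hy l)).sum_one
  simpa [YG, PW.pi, spinW] using this

theorem YG_bound_R {G : (ι → Bool) → ℝ} {B : ℝ} (h : ∀ z, |G z| ≤ B) {y : ι → ℝ}
    (hy : ∀ l, -1 ≤ y l ∧ y l ≤ 1) : Real.exp (-B) ≤ YG G y ∧ YG G y ≤ Real.exp B := by
  constructor
  · have := YG_le_R (G := G) (G' := fun _ => 0) (c := B)
      (fun z => by linarith [(abs_le.mp (h z)).1]) hy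
    rw [YG_zero_R hy] at this
    have h2 := mul_le_mul_of_nonneg_left this (Real.exp_pos (-B)).le
    rwa [mul_one, ← mul_assoc, ← Real.exp_add, neg_add_cancel, Real.exp_zero, one_mul] at h2
  · have := YG_le_R (G := fun _ => 0) (G' := G) (c := B)
      (fun z => by linarith [(abs_le.mp (h z)).2]) hy
    rwa [YG_zero_R hy, mul_one] at this

theorem abs_log_le_R {t B : ℝ} (h : Real.exp (-B) ≤ t ∧ t ≤ Real.exp B) : |Real.log t| ≤ B := by
  have h0 : 0 < t := (Real.exp_pos _).trans_le h.1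
  rw [abs_le]
  exact ⟨(Real.le_log_iff_exp_le h0).mpr h.1, (Real.log_le_iff_le_exp h0).mpr h.2⟩

variable {r : ℕ} {m : Fin r → ℝ} {x : (Fin (r + 1) → unitInterval) → ℝ}

/-- The vector of messages. -/
def msgR (x : (Fin (r + 1) → unitInterval) → ℝ) (w0 : ι → unitInterval)
    (v : Fin r → ι → unitInterval) : ι → ℝ := fun l => x (Fin.cons (w0 l) fun p => v p l)

omit [DecidableEq ι] in
theorem calT_eq_R (Y : (ι → ℝ) → ℝ) : calT r m x Y =
    ∫ w0 : ι → unitInterval, Real.log (rsb volume r m fun v => Y (msgR x w0 v)) := rfl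

omit [DecidableEq ι] [Fintype ι] in
theorem measurable_msgR (hx : Measurable x) :
    Measurable fun p : (ι → unitInterval) × (Fin r → ι → unitInterval) => msgR x p.1 p.2 := by
  refine measurable_pi_lambda _ fun l => hx.comp (measurable_cons_R.comp
    (f := fun p : (ι → unitInterval) × (Fin r → ι → unitInterval) => (p.1 l, fun q => p.2 q l)) ?_)
  fun_prop

omit [DecidableEq ι] [Fintype ι] in
theorem msgR_mem (h : Adm r m x) (w0 : ι → unitInterval) (v : Fin r → ι → unitInterval) (l : ι) :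
    -1 ≤ msgR x w0 v l ∧ msgR x w0 v l ≤ 1 := h.2.2.2 _

theorem measurable_YG_msgR (hx : Measurable x) (G : (ι → Bool) → ℝ) :
    Measurable fun p : (ι → unitInterval) × (Fin r → ι → unitInterval) =>
      YG G (msgR x p.1 p.2) :=
  (continuous_YG_R G).measurable.comp (measurable_msgR hx)

/-- The integrand of `calT` is measurable and bounded. -/
theorem calT_integrand_R (h : Adm r m x) {G : (ι → Bool) → ℝ} {B : ℝ} (hG : ∀ z, |G z| ≤ B) :
    Measurable (fun w0 : ι → unitInterval => rsb volume r m fun v => YG G (msgR x w0 v)) ∧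
    ∀ w0 : ι → unitInterval, Real.exp (-B) ≤ (rsb volume r m fun v => YG G (msgR x w0 v)) ∧
      (rsb volume r m fun v => YG G (msgR x w0 v)) ≤ Real.exp B :=
  rsb_meas_bound volume B r m (fun p => (h.2.1 p).1) (ι → unitInterval)
    (fun w0 v => YG G (msgR x w0 v)) (measurable_YG_msgR h.2.2.1 G)
    fun w0 v => YG_bound_R hG (msgR_mem h w0 v)

theorem calT_integrable_R (h : Adm r m x) (G : (ι → Bool) → ℝ) :
    Integrable fun w0 : ι → unitInterval =>
      Real.log (rsb volume r m fun v => YG G (msgR x w0 v)) := by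
  obtain ⟨B, hB⟩ := Finite.exists_le fun z => |G z|
  obtain ⟨h1, h2⟩ := calT_integrand_R h hB
  exact Integrable.of_bound (C := B) h1.log.aestronglyMeasurable
    (ae_of_all _ fun w => abs_log_le_R (h2 w))

theorem abs_calT_YG_le (h : Adm r m x) {G : (ι → Bool) → ℝ} {B : ℝ} (hG : ∀ z, |G z| ≤ B) :
    |calT r m x (YG G)| ≤ B := by
  obtain ⟨-, h2⟩ := calT_integrand_R h hG
  have := norm_integral_le_of_norm_le_const (μ := (volume : Measure (ι → unitInterval)))
    (f := fun w0 => Real.log (rsb volume r m fun v => YG G (msgR x w0 v)))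
    (C := B) (ae_of_all _ fun w => abs_log_le_R (h2 w))
  simpa [calT_eq_R] using this

theorem log_rsb_le_R (h : Adm r m x) {G G' : (ι → Bool) → ℝ} {c : ℝ} (hG : ∀ z, G' z ≤ c + G z)
    (w0 : ι → unitInterval) : Real.log (rsb volume r m fun v => YG G' (msgR x w0 v)) ≤
      c + Real.log (rsb volume r m fun v => YG G (msgR x w0 v)) := by
  obtain ⟨B1, hB1⟩ := Finite.exists_le fun z => |G z|
  obtain ⟨B2, hB2⟩ := Finite.exists_le fun z => |G' z|
  have hb1 : ∀ z, |G z| ≤ max B1 B2 := fun z => (hB1 z).trans (le_max_left _ _)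
  have hb2 : ∀ z, |G' z| ≤ max B1 B2 := fun z => (hB2 z).trans (le_max_right _ _)
  have hm : ∀ G : (ι → Bool) → ℝ, Measurable fun v : Fin r → ι → unitInterval =>
      YG G (msgR x w0 v) := fun G =>
    (measurable_YG_msgR h.2.2.1 G).of_uncurry_left (f := fun w0 v => YG G (msgR x w0 v))
  have h1 := rsb_le_R volume (max B1 B2) (Real.exp c) (Real.exp_pos _).le r m
    (fun p => (h.2.1 p).1) (fun v => YG G (msgR x w0 v)) (fun v => YG G' (msgR x w0 v))
    (hm G) (hm G') (fun v => YG_bound_R hb1 (msgR_mem h w0 v))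
    (fun v => YG_bound_R hb2 (msgR_mem h w0 v)) fun v => YG_le_R hG (msgR_mem h w0 v)
  have h2 := (Real.exp_pos _).trans_le ((calT_integrand_R h hb1).2 w0).1
  have h3 := (Real.exp_pos _).trans_le ((calT_integrand_R h hb2).2 w0).1
  have h4 := Real.log_le_log h3 h1
  rwa [Real.log_mul (Real.exp_pos _).ne' h2.ne', Real.log_exp] at h4

theorem calT_YG_le (h : Adm r m x) {G G' : (ι → Bool) → ℝ} {c : ℝ} (hG : ∀ z, G' z ≤ c + G z) :
    calT r m x (YG G') ≤ c + calT r m x (YG G) := by
  have h1 := integral_mono (calT_integrable_R h G')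
    ((integrable_const c).add (calT_integrable_R h G)) (log_rsb_le_R h hG)
  rw [integral_add' (integrable_const _) (calT_integrable_R h G)] at h1
  simpa [calT_eq_R] using h1

/-- `calT ∘ YG` is `1`-Lipschitz for the uniform norm. -/
theorem abs_calT_YG_sub_le (h : Adm r m x) {G G' : (ι → Bool) → ℝ} {c : ℝ}
    (hG : ∀ z, |G z - G' z| ≤ c) : |calT r m x (YG G) - calT r m x (YG G')| ≤ c := by
  have h1 := calT_YG_le h (G := G) (G' := G') (c := c) fun z => by linarith [(abs_le.mp (hG z)).1]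
  have h2 := calT_YG_le h (G := G') (G' := G) (c := c) fun z => by linarith [(abs_le.mp (hG z)).2]
  rw [abs_le]; constructor <;> linarith

end calT

end Vale.Agent.P168
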