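import Vale.Agent.P168.Design

/-!
# P168: designs attached to trees, and the distance between realised and true features
-/

namespace Vale.Agent.P168

open Finset PW Des
open scoped BigOperators

/-- The design has the structure of the tree, realised at height `j`. -/
def Skel (J : ℕ → ℕ) (s' : ℕ) : {b : ℕ} → Sh Bool b → ℕ → Des → Prop
  | _, .leaf β => fun _ D => ∃ k, D = .leaf β k
  | _, .up (b := b) e => fun _ D => Skel J s' e (J b) D
  | _, .node e1 e2 => fun j D => ∃ D1 D2, D = .node D1 D2 (j - 1 - s') (j - 1) ∧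
      Skel J s' e1 (j - 1 - s') D1 ∧ Skel J s' e2 (j - 1 - s') D2

theorem skel_top {J : ℕ → ℕ} {W s' b : ℕ} (e : Sh Bool b) (hJ : ∀ b' < b, J b' + W ≤ J (b' + 1)) :
    ∀ (j : ℕ) (D : Des), j ≤ J b → J b + e.nl * (s' + 1) ≤ j + W → Skel J s' e j D → D.top ≤ j := by
  induction e with
  | leaf β => rintro j D - - ⟨k, rfl⟩; exact Nat.zero_le _
  | @up b e ih =>
    intro j D h1 h2 h3
    have h6 := hJ b (Nat.lt_succ_self b)
    simp only [Sh.nl] at h2
    have := ih (fun b' hb' => hJ b' (by omega)) (J b) D le_rfl (by omega) h3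
    omega
  | @node b e1 e2 ih1 ih2 =>
    rintro j D h1 h2 ⟨D1, D2, rfl, -, -⟩
    have h6 := hJ b (Nat.lt_succ_self b)
    have q : s' + 1 ≤ (Sh.node e1 e2).nl * (s' + 1) := Nat.le_mul_of_pos_left _ (Sh.nl_pos _)
    simp only [top]; omega

theorem exists_des {w0 : ℝ} (hw0 : 0 < w0) {b : ℕ} (e : Sh Bool b) :
    ∀ ε : ℝ, 0 < ε → ε ≤ 1 → ∀ lm : ℝ, 0 < lm → ∃ c0 : ℝ, 0 < c0 ∧ ∃ K : ℕ,
      ∀ (a : ℕ → ℝ) (n : ℕ), (∀ i, 0 < a i) → Antitone a → a 0 ≤ 1 → ∀ (J : ℕ → ℕ) (W s' : ℕ),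
        1 ≤ s' → (∀ lo, lo + s' ≤ n → w0 ≤ a lo - a (lo + s')) →
        (∀ b' < b, J b' + W ≤ J (b' + 1)) → J b ≤ n → ∀ j, j ≤ J b → J b + e.nl * (s' + 1) ≤ j + W →
        ∃ D, Good a n D ε lm ∧ c0 ≤ D.c a ∧ D.kb ≤ K ∧ D.depth ≤ e.nl ∧ D.top ≤ j ∧
          D.sz + 1 ≤ 2 * e.nl ∧ Skel J s' e j D := by
  induction e with
  | leaf β =>
    intro ε hε _ lm hlm
    obtain ⟨k, hk⟩ := exists_nat_one_div_lt (lt_min hε hlm)
    refine ⟨1 / ((k : ℝ) + 1), by positivity, k, fun a n ha _ _ J W s' _ _ _ _ j _ _ => ?_⟩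
    exact ⟨.leaf β k, good_leaf ha β k (hk.le.trans (min_le_left _ _))
      (hk.le.trans (min_le_right _ _)), le_rfl, le_rfl, Nat.zero_le _, Nat.zero_le _, le_rfl, k, rfl⟩
  | @up b e ih =>
    intro ε hε hε1 lm hlm
    obtain ⟨c0, hc0, K, h⟩ := ih ε hε hε1 lm hlm
    refine ⟨c0, hc0, K, fun a n ha ha' ha1 J W s' hs hw hJ hn j h1 h2 => ?_⟩
    have h3 := hJ b (Nat.lt_succ_self b)
    simp only [Sh.nl] at h2
    obtain ⟨D, h4, h5, h6, h7, h8, h9, h10⟩ := h a n ha ha' ha1 J W s' hs hw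
      (fun b' hb' => hJ b' (by omega)) (by omega) (J b) le_rfl (by omega)
    exact ⟨D, h4, h5, h6, h7, by omega, h9, h10⟩
  | @node b e1 e2 ih1 ih2 =>
    intro ε hε hε1 lm hlm
    have hl : 0 < min (lm / 2) (ε * w0 / 2000) := lt_min (by positivity) (by positivity)
    obtain ⟨c1, hc1, K1, h1⟩ := ih1 (ε / 8) (by positivity) (by linarith) _ hl
    obtain ⟨c2, hc2, K2, h2⟩ := ih2 (min (ε / 8) (ε * c1 * w0 / 4))
      (lt_min (by positivity) (by positivity)) ((min_le_left _ _).trans (by linarith)) _ hl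
    refine ⟨c1 * c2 * w0 / 4, by positivity, max K1 K2,
      fun a n ha ha' ha1 J W s' hs hw hJ hn j k1 k2 => ?_⟩
    have h3 := hJ b (Nat.lt_succ_self b)
    have p1 := e1.nl_pos
    have p2 := e2.nl_pos
    simp only [Sh.nl, add_mul] at k2
    have q1 : s' + 1 ≤ e1.nl * (s' + 1) := Nat.le_mul_of_pos_left _ p1
    have q2 : s' + 1 ≤ e2.nl * (s' + 1) := Nat.le_mul_of_pos_left _ p2
    obtain ⟨D1, g1, g2, g3, g4, g5, g6, g7⟩ := h1 a n ha ha' ha1 J W s' hs hw hJ hn (j - 1 - s')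
      (by omega) (by omega)
    obtain ⟨D2, f1, f2, f3, f4, f5, f6, f7⟩ := h2 a n ha ha' ha1 J W s' hs hw hJ hn (j - 1 - s')
      (by omega) (by omega)
    have hw' := hw (j - 1 - s') (by omega)
    rw [show j - 1 - s' + s' = j - 1 by omega] at hw'
    refine ⟨.node D1 D2 (j - 1 - s') (j - 1), good_node ha ha' ha1 g1 f1 g5 f5 (by omega) (by omega)
      hw0 hw' hε1 le_rfl (min_le_left _ _) ((min_le_right _ _).trans (by gcongr))
      (by linarith [min_le_left (lm / 2) (ε * w0 / 2000)]) (min_le_right _ _), ?_, ?_, ?_, ?_, ?_,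
      D1, D2, rfl, g7, f7⟩
    · simp only [c]
      have := hc1.trans_le g2
      have := hc2.trans_le f2
      gcongr
    · simp only [kb]; omega
    · simp only [depth, Sh.nl]; omega
    · simp only [top]; omega
    · simp only [sz, Sh.nl]; omega

variable {Ω : Type} [Fintype Ω]

/-- Value of a tree with its top branchings lowered to height `j`. -/
noncomputable def evl (P : Ch Ω) (J : ℕ → ℕ) (o : Bool → Ω → ℝ) : {b : ℕ} → Sh Bool b → ℕ → Ω → ℝ
  | _, .leaf β => fun _ => o β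
  | _, .up (b := b) e => fun j => A P (J b) j (ev (co P J) o e)
  | _, .node e1 e2 => fun j ω => evl P J o e1 j ω * evl P J o e2 j ω

theorem evl_top (P : Ch Ω) (J : ℕ → ℕ) (o : Bool → Ω → ℝ) {b : ℕ} (e : Sh Bool b) :
    evl P J o e (J b) = ev (co P J) o e := by
  induction e with
  | leaf β => rfl
  | up e ih => rfl
  | node e1 e2 ih1 ih2 => simp only [evl, ev, ih1, ih2]

theorem abs_le_one_of_mem {x : ℝ} (h : 0 ≤ x ∧ x ≤ 1) : |x| ≤ 1 := abs_le.mpr ⟨by linarith [h.1], h.2⟩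

theorem abs_evl_le {P : Ch Ω} {J : ℕ → ℕ} {o : Bool → Ω → ℝ} (ho : ∀ β ω, 0 ≤ o β ω ∧ o β ω ≤ 1)
    {b : ℕ} (e : Sh Bool b) (j : ℕ) : ∀ ω, |evl P J o e j ω| ≤ 1 := by
  induction e with
  | leaf β => exact fun ω => abs_le_one_of_mem (ho β ω)
  | up e ih => exact abs_A_le fun x => abs_le_one_of_mem (ev_mem ho e x)
  | node e1 e2 ih1 ih2 => intro ω; simpa [evl] using abs_mul_le' (ih1 ω) (ih2 ω)

theorem A_expect {I : Type} [Fintype I] [Nonempty I] (P : Ch Ω) (j p : ℕ) (F : I → Ω → ℝ) (ω : Ω) :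
    A P j p (fun x => 𝔼 i, F i x) ω = 𝔼 i, A P j p (F i) ω := by
  simp only [← E_unif, A]
  exact E_comm _ _ fun x i => F i x

/-- Number of edges. -/
def Sh.nu {Λ : Type} : {b : ℕ} → Sh Λ b → ℕ
  | _, .leaf _ => 0
  | _, .up e => e.nu + 1
  | _, .node e1 e2 => e1.nu + e2.nu

theorem ev_near {P P' : Ch Ω} {c : ℝ} (hn : Near 0 c P' P) (J : ℕ → ℕ) {o : Bool → Ω → ℝ}
    (ho : ∀ β ω, 0 ≤ o β ω ∧ o β ω ≤ 1) {b : ℕ} (e : Sh Bool b) :
    ∀ ω, |ev (co P' J) o e ω - ev (co P J) o e ω| ≤ e.nu * c := by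
  induction e with
  | leaf β => intro ω; simp [ev, Sh.nu]
  | @up b e ih =>
    intro ω
    refine (hn.A (Nat.zero_le (J b)) (J (b + 1)) (fun x => abs_le_one_of_mem (ev_mem ho e x))
      ih ω).trans (le_of_eq ?_)
    simp only [Sh.nu]; push_cast; ring
  | node e1 e2 ih1 ih2 =>
    intro ω
    refine (abs_mul_sub_mul_le (abs_le_one_of_mem (ev_mem ho e2 ω))
      (abs_le_one_of_mem (ev_mem ho e1 ω)) (ih1 ω) (ih2 ω)).trans (le_of_eq ?_)
    simp only [Sh.nu]; push_cast; ring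

theorem expect_abs_sub_le {α I : Type} [Fintype α] [Fintype I] [Nonempty I] {μ μ' : PW α} {K : ℝ}
    (hK : 0 ≤ K) (h : ∀ F : α → ℝ, (∀ x, 0 ≤ F x) → μ'.E F ≤ K * μ.E F) (φ : I → α → ℝ) :
    𝔼 i, |μ'.E (φ i) - μ.E (φ i)| ≤ K * Real.sqrt (Real.sqrt (hs μ φ)) := by
  set ψ : I → α → ℝ := fun i x => φ i x - μ.E (φ i) with hψ
  set k : α → α → ℝ := fun x y => (unif I).E fun i => ψ i x * ψ i y with hk
  have e1 : (unif I).E (fun i => (μ'.E (φ i) - μ.E (φ i)) ^ 2) = μ'.E fun x => μ'.E (k x) := by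
    simp only [hk]
    rw [μ'.E_congr fun x => μ'.E_comm (unif I) fun y i => ψ i x * ψ i y, μ'.E_comm]
    refine E_congr _ fun i => ?_
    simp only [E_const_mul, E_mul_const, hψ, E_sub_const, sq]
  have e2 : (μ.prod μ).E (fun x => k x.1 x.2 ^ 2) = hs μ φ := by
    simp only [hs, ← E_unif, hk, sq, ← E_mul_const]
    simp only [← E_const_mul]
    rw [E_comm]
    refine E_congr _ fun i => ?_
    rw [E_comm]
    refine E_congr _ fun i' => ?_
    rw [E_congr _ (G := fun x => (ψ i x.1 * ψ i' x.1) * (ψ i x.2 * ψ i' x.2)) fun x => by ring,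
      E_prod_mul μ μ (fun x => ψ i x * ψ i' x) (fun x => ψ i x * ψ i' x)]
    have : μ.E (fun x => ψ i x * ψ i' x) = cov μ (φ i) (φ i') := by
      simp only [hψ, sub_mul, mul_sub, E_sub, E_const_mul, E_mul_const, E_const, cov]; ring
    rw [this]
  have e3 : μ'.E (fun x => μ'.E (k x)) ≤ K ^ 2 * Real.sqrt (hs μ φ) := by
    calc _ ≤ μ'.E (fun x => K * μ.E fun y => |k x y|) := μ'.E_mono fun x =>
          (μ'.E_mono fun y => le_abs_self _).trans (h _ fun y => abs_nonneg _)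
      _ ≤ K * μ.E (fun x => K * μ.E fun y => |k x y|) :=
          h _ fun x => mul_nonneg hK (E_nonneg _ fun y => abs_nonneg _)
      _ = K ^ 2 * (μ.prod μ).E (fun x => |k x.1 x.2|) := by rw [E_const_mul, E_prod]; ring
      _ ≤ _ := by rw [← e2]; gcongr; exact E_abs_le_sqrt _ _
  rw [← E_unif]
  refine (E_abs_le_sqrt _ _).trans ?_
  rw [e1, ← Real.sqrt_sq hK, ← Real.sqrt_mul (sq_nonneg K)]
  exact Real.sqrt_le_sqrt e3

theorem hs_nonneg {α I : Type} [Fintype α] [Fintype I] (μ : PW α) (φ : I → α → ℝ) : 0 ≤ hs μ φ :=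
  expect_nonneg fun _ _ => expect_nonneg fun _ _ => sq_nonneg _

namespace RS
variable (S : RS) (n : ℕ)

/-- Joint law of the disorder and the state at height `j`. -/
noncomputable def law (j : ℕ) : PW (S.Z × S.Ω) :=
  S.ρ.bind fun z => (B (S.P z) j n S.ω0).map fun ω => (z, ω)

theorem Eh_eq (j : ℕ) (F : S.Z → S.Ω → ℝ) : S.Eh n j F = (S.law n j).E fun x => F x.1 x.2 := by
  simp only [law, E_bind, E_map]; rfl

/-- Average over disorder, state and site. -/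
noncomputable def Eb (j : ℕ) (F : S.Z → S.I → S.Ω → ℝ) : ℝ :=
  ((S.law n j).prod (unif S.I)).E fun x => F x.1.1 x.2 x.1.2

theorem Eb_eq (j : ℕ) (F : S.Z → S.I → S.Ω → ℝ) :
    S.Eb n j F = S.Eh n j fun z ω => 𝔼 i, F z i ω := by
  simp only [Eb, Eh_eq, E_prod, E_unif]

theorem Eb_A {j j' : ℕ} (h : j' ≤ j) (hn : j ≤ n) (F : S.Z → S.I → S.Ω → ℝ) :
    S.Eb n j (fun z i => A (S.P z) j' j (F z i)) = S.Eb n j' F := by
  simp only [Eb_eq, Eh, ← A_expect, A_A' h hn]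

theorem Eb_mono (j : ℕ) {F G : S.Z → S.I → S.Ω → ℝ} (h : ∀ z i ω, F z i ω ≤ G z i ω) :
    S.Eb n j F ≤ S.Eb n j G := E_mono _ fun _ => h _ _ _

theorem Eb_add (j : ℕ) (F G : S.Z → S.I → S.Ω → ℝ) :
    S.Eb n j (fun z i ω => F z i ω + G z i ω) = S.Eb n j F + S.Eb n j G := E_add _ _ _

theorem qq_eq (J : ℕ → ℕ) {b : ℕ} (e : Sh Bool b) (j : ℕ) :
    S.qq n J e j = S.Eb n j fun z i ω => A (S.P z) (J b) j (S.feat J e z i) ω ^ 2 := by
  rw [Eb_eq]; rfl

theorem qq_anti (J : ℕ → ℕ) {b : ℕ} (e : Sh Bool b) {j j' : ℕ} (h1 : J b ≤ j) (h2 : j ≤ j')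
    (h3 : j' ≤ n) : S.qq n J e j' ≤ S.qq n J e j := by
  rw [qq_eq, qq_eq, ← S.Eb_A n h2 h3]
  refine S.Eb_mono n _ fun z i ω => ?_
  rw [← A_A h1 _ j' h2]
  exact E_sq_le _ _

variable {S n}

theorem path_dist {J : ℕ → ℕ} {W : ℕ} {ξ : ℝ} (hξ : 0 ≤ ξ) (h0 : J 0 = 0) {b : ℕ} (e : Sh Bool b)
    (hJ : ∀ b' < b, J b' + W ≤ J (b' + 1)) (hn : J b ≤ n)
    (he : AllUp (fun b' e' => S.qq n J e' (J (b' + 1) - W) - S.qq n J e' (J (b' + 1)) ≤ ξ ^ 2) e)
    {j1 j : ℕ} (h1 : j1 ≤ j) (h2 : j ≤ J b) (h3 : J b ≤ j1 + W) :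
    S.Eb n j (fun z i ω => A (S.P z) j1 j (fun x => |evl (S.P z) J (ob S.sg i) e j1 x -
      evl (S.P z) J (ob S.sg i) e j ω|) ω) ≤ e.nl * ξ := by
  induction e with
  | leaf β =>
    have : j ≤ j1 := by omega
    simp only [A_of_le this, evl, sub_self, abs_zero, Eb, E_const, Sh.nl]
    positivity
  | @up b e ih =>
    have h4 := hJ b (Nat.lt_succ_self b)
    have h5 : J b ≤ j1 := by omega
    have k1 := S.qq_anti n J e (j := J (b + 1) - W) (j' := j1) (by omega) (by omega) (by omega)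
    have k2 := S.qq_anti n J e (j := j) (j' := J (b + 1)) (by omega) h2 hn
    have k3 : S.qq n J e j1 - S.qq n J e j ≤ ξ ^ 2 := by linarith [he.1]
    rw [qq_eq, qq_eq, ← S.Eb_A n h1 (by omega), Eb, Eb, ← E_sub] at k3
    calc _ ≤ ((S.law n j).prod (unif S.I)).E fun x => Real.sqrt
          (A (S.P x.1.1) j1 j (fun y => A (S.P x.1.1) (J b) j1 (S.feat J e x.1.1 x.2) y ^ 2) x.1.2 -
            A (S.P x.1.1) (J b) j (S.feat J e x.1.1 x.2) x.1.2 ^ 2) := by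
          refine E_mono _ fun x => (E_abs_le_sqrt _ _).trans (le_of_eq ?_)
          congr 1
          simp only [evl, sub_sq, E_add, E_sub, E_const, E_mul_const, E_const_mul, feat]
          rw [← A_A h5 _ j h1]
          simp only [A]
          ring
      _ ≤ Real.sqrt _ := E_sqrt_le _ fun x => by
          rw [← A_A h5 _ j h1]; exact sub_nonneg.mpr (E_sq_le _ _)
      _ ≤ ξ := by rw [← Real.sqrt_sq hξ]; exact Real.sqrt_le_sqrt k3
      _ ≤ _ := le_mul_of_one_le_left hξ (by exact_mod_cast (Sh.up e).nl_pos)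
  | @node b e1 e2 ih1 ih2 =>
    have k1 := ih1 hJ hn he.1 h2 h3
    have k2 := ih2 hJ hn he.2 h2 h3
    simp only [Sh.nl, Nat.cast_add, add_mul]
    refine le_trans ?_ (add_le_add k1 k2)
    rw [← Eb_add]
    refine S.Eb_mono n _ fun z i ω => ?_
    rw [← A_add]
    refine A_mono (fun x => ?_) ω
    simpa [evl] using abs_mul_sub_mul_le (abs_evl_le (ob_mem S.sg i) e2 j1 x)
      (abs_evl_le (ob_mem S.sg i) e1 j ω) le_rfl le_rfl

/-- Constant in the distance bound. -/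
def dc {Λ : Type} : {b : ℕ} → Sh Λ b → ℕ
  | _, .leaf _ => 0
  | _, .up e => dc e
  | _, .node e1 e2 => dc e1 + dc e2 + e1.nl + e2.nl

theorem rf_dist {a : ℕ → ℝ} (ha' : Antitone a) {J : ℕ → ℕ} {W s' : ℕ} {ξ : ℝ} (hξ : 0 ≤ ξ)
    (h0 : J 0 = 0) (hw : ∀ lo, lo + s' ≤ n → 0 < a lo - a (lo + s')) {b : ℕ} (e : Sh Bool b)
    (hJ : ∀ b' < b, J b' + W ≤ J (b' + 1)) (hn : J b ≤ n)
    (he : AllUp (fun b' e' => S.qq n J e' (J (b' + 1) - W) - S.qq n J e' (J (b' + 1)) ≤ ξ ^ 2) e) :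
    ∀ (j : ℕ) (D : Des), j ≤ J b → J b + e.nl * (s' + 1) ≤ j + W → D.WF → D.top ≤ j →
      Skel J s' e j D → S.Eb n j (fun z i ω => |D.rf a (S.P z) (ob S.sg i) j ω -
        evl (S.P z) J (ob S.sg i) e j ω|) ≤ dc e * ξ := by
  induction e with
  | leaf β =>
    rintro j D h1 - - - ⟨k, rfl⟩
    have : j ≤ 0 := by omega
    simp [rf, evl, A_of_le this, Eb, dc]
  | @up b e ih =>
    intro j D h1 h2 h3 h4 h5
    have h6 := hJ b (Nat.lt_succ_self b)
    simp only [Sh.nl] at h2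
    have h7 : D.top ≤ J b :=
      skel_top e (fun b' hb' => hJ b' (by omega)) (J b) D le_rfl (by omega) h5
    have := ih (fun b' hb' => hJ b' (by omega)) (by omega) he.2 (J b) D le_rfl (by omega) h3 h7 h5
    rw [← S.Eb_A n (show J b ≤ j by omega) (by omega)] at this
    refine le_trans (S.Eb_mono n _ fun z i ω => ?_) this
    rw [← A_rf D h7 (show J b ≤ j by omega), evl_top]
    exact abs_A_sub_le_A _ _ _
  | @node b e1 e2 ih1 ih2 =>
    rintro j D h1 h2 h3 h4 ⟨D1, D2, rfl, s1, s2⟩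
    obtain ⟨w1, w2, t1, t2, hlt⟩ := h3
    have h6 := hJ b (Nat.lt_succ_self b)
    have p1 := e1.nl_pos
    have p2 := e2.nl_pos
    simp only [Sh.nl, add_mul] at h2
    have q1 : s' + 1 ≤ e1.nl * (s' + 1) := Nat.le_mul_of_pos_left _ p1
    have q2 : s' + 1 ≤ e2.nl * (s' + 1) := Nat.le_mul_of_pos_left _ p2
    set lo := j - 1 - s' with hlo
    have hj : lo ≤ j := by omega
    have k1 := ih1 hJ hn he.1 lo D1 (by omega) (by omega) w1 t1 s1
    have k2 := ih2 hJ hn he.2 lo D2 (by omega) (by omega) w2 t2 s2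
    rw [← S.Eb_A n hj (by omega)] at k1 k2
    have k3 := path_dist hξ h0 e1 hJ hn he.1 hj h1 (by omega)
    have k4 := path_dist hξ h0 e2 hJ hn he.2 hj h1 (by omega)
    simp only [dc, Nat.cast_add, add_mul]
    refine le_trans ?_ (add_le_add (add_le_add (add_le_add k1 k2) k3) k4)
    simp only [← Eb_add]
    refine S.Eb_mono n _ fun z i ω => ?_
    have hw' := hw lo (by omega)
    rw [show lo + s' = j - 1 by omega] at hw'
    simp only [← A_add]
    refine window_avg ha' hlt.le (A_nonneg (fun x => by positivity) ω) (fun l hl => ?_)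
      fun h => absurd h hw'.ne'
    simp only [mem_Ico] at hl
    rw [← A_const' (P := S.P z) (j := l + 1) (p := j) (evl _ _ _ _ _ ω) ω,
      ← A_A' (j := lo) (i := l + 1) (p := j) (by omega) (by omega)]
    refine (abs_A_sub_le_A _ _ _).trans (A_mono (fun x => ?_) ω)
    rw [← A_rf D1 t1 (show lo ≤ l + 1 by omega), ← A_rf D2 t2 (show lo ≤ l + 1 by omega)]
    simp only [evl]
    rw [mul_comm (evl _ _ _ e1 _ _)]
    refine (abs_mul_sub_mul_le (abs_A_le (abs_rf_le ha' (ob_mem S.sg i) D1 w1 lo) x)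
      (abs_evl_le (ob_mem S.sg i) e2 j ω) le_rfl le_rfl).trans ?_
    rw [mul_one, one_mul, ← A_const' (P := S.P z) (j := lo) (p := l + 1) (evl _ _ _ e1 _ ω) x,
      ← A_const' (P := S.P z) (j := lo) (p := l + 1) (evl _ _ _ e2 _ ω) x]
    refine (add_le_add (abs_A_sub_le_A _ _ _) (abs_A_sub_le_A _ _ _)).trans ?_
    rw [← A_add]
    refine A_mono (fun y => ?_) x
    simp only [A_const']
    linarith [abs_sub_le (D1.rf a (S.P z) (ob S.sg i) lo y) (evl (S.P z) J (ob S.sg i) e1 lo y)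
      (evl (S.P z) J (ob S.sg i) e1 j ω), abs_sub_le (D2.rf a (S.P z) (ob S.sg i) lo y)
      (evl (S.P z) J (ob S.sg i) e2 lo y) (evl (S.P z) J (ob S.sg i) e2 j ω)]

/-- Constant in the stability bound. -/
def sc {Λ : Type} : {b : ℕ} → Sh Λ b → ℕ
  | _, .leaf _ => 0
  | _, .up e => 3 * sc e + 3
  | _, .node e1 e2 => sc e1 + sc e2

theorem stab {P' : S.Z → Ch S.Ω}
    (hd : ∀ z i p (F : S.Ω → ℝ), (∀ x, 0 ≤ F x) → ∀ ω, A (P' z) i p F ω ≤ 3 * A (S.P z) i p F ω)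
    {J : ℕ → ℕ} {ζ : ℝ} (hζ : 0 ≤ ζ) {b : ℕ} (e : Sh Bool b)
    (hJ : ∀ b' < b, J b' ≤ J (b' + 1)) (hn : J b ≤ n)
    (he : AllUp (fun _ e' => S.HS n J e' ≤ ζ ^ 4) e) :
    S.Eb n (J b) (fun z i ω => |ev (co (P' z) J) (ob S.sg i) e ω - S.feat J e z i ω|) ≤
      sc e * ζ := by
  induction e with
  | leaf β => simp [ev, feat, Eb, sc]
  | @up b e ih =>
    have h6 := hJ b (Nat.lt_succ_self b)
    have k1 := ih (fun b' hb' => hJ b' (by omega)) (by omega) he.2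
    rw [← S.Eb_A n h6 hn] at k1
    have k2 : S.Eb n (J (b + 1)) (fun z i ω => |A (P' z) (J b) (J (b + 1)) (S.feat J e z i) ω -
        A (S.P z) (J b) (J (b + 1)) (S.feat J e z i) ω|) ≤ 3 * ζ := by
      rw [Eb_eq, Eh_eq]
      have k0 : ∀ x : S.Z × S.Ω, (𝔼 i, |A (P' x.1) (J b) (J (b + 1)) (S.feat J e x.1 i) x.2 -
          A (S.P x.1) (J b) (J (b + 1)) (S.feat J e x.1 i) x.2|) ≤
          3 * Real.sqrt (Real.sqrt (hs (co (S.P x.1) J b x.2) (S.feat J e x.1))) := fun x =>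
        expect_abs_sub_le (K := 3) (μ := B (S.P x.1) (J b) (J (b + 1)) x.2)
          (μ' := B (P' x.1) (J b) (J (b + 1)) x.2) (by norm_num)
          (fun F hF => hd x.1 _ _ F hF x.2) (S.feat J e x.1)
      refine (E_mono _ k0).trans ?_
      rw [E_const_mul]
      gcongr
      refine (E_sqrt_le _ fun x => Real.sqrt_nonneg _).trans ?_
      rw [← Real.sqrt_sq hζ]
      refine Real.sqrt_le_sqrt ((E_sqrt_le _ fun x => hs_nonneg _ _).trans ?_)
      rw [← Real.sqrt_sq (sq_nonneg ζ)]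
      refine Real.sqrt_le_sqrt ?_
      have : S.HS n J e ≤ ζ ^ 4 := he.1
      rw [HS, Eh_eq] at this
      exact this.trans (le_of_eq (by ring))
    simp only [sc]; push_cast
    refine le_trans ?_ (show 3 * (sc e * ζ) + 3 * ζ ≤ _ from le_of_eq (by ring))
    refine le_trans ?_ (add_le_add (mul_le_mul_of_nonneg_left k1 (by norm_num)) k2)
    rw [Eb, Eb, Eb, ← E_const_mul, ← E_add]
    refine E_mono _ fun x => ?_
    have k3 := (abs_A_sub_le_A (P := P' x.1.1) (j := J b) (p := J (b + 1))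
      (ev (co (P' x.1.1) J) (ob S.sg x.2) e) (S.feat J e x.1.1 x.2) x.1.2).trans
      (hd _ _ _ _ (fun y => abs_nonneg _) _)
    exact (abs_sub_le _ (A (P' x.1.1) (J b) (J (b + 1)) (S.feat J e x.1.1 x.2) x.1.2) _).trans
      (add_le_add k3 le_rfl)
  | @node b e1 e2 ih1 ih2 =>
    simp only [sc, Nat.cast_add, add_mul]
    refine le_trans ?_ (add_le_add (ih1 hJ hn he.1) (ih2 hJ hn he.2))
    rw [← Eb_add]
    refine S.Eb_mono n _ fun z i ω => ?_
    simpa [ev, feat] using abs_mul_sub_mul_le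
      (abs_le_one_of_mem (ev_mem (P := co (P' z) J) (ob_mem S.sg i) e2 ω))
      (abs_le_one_of_mem (ev_mem (P := co (S.P z) J) (ob_mem S.sg i) e1 ω)) le_rfl le_rfl

end RS

end Vale.Agent.P168
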