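import Vale.Agent.P168.AssA

/-!
# P168: sampling finite chains from uniform variables
-/

namespace Vale.Agent.P168

open Finset PW MeasureTheory
open scoped BigOperators

variable {α β Ω : Type} [Fintype α] [Fintype β] [Fintype Ω]

/-- A finite valued function of a uniform variable has measurable fibres. -/
def Fib (g : unitInterval → α) : Prop := ∀ a, MeasurableSet (g ⁻¹' {a})

/-- `g` samples the weights `μ`. -/
def Samp (μ : PW α) (g : unitInterval → α) : Prop :=
  Fib g ∧ ∀ a, volume.real (g ⁻¹' {a}) = μ.w a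

/-- Indicator of a fibre. -/
noncomputable def fibI (g : unitInterval → α) (a : α) : unitInterval → ℝ :=
  (g ⁻¹' {a}).indicator 1

omit [Fintype α] in
theorem fibI_self (g : unitInterval → α) (t : unitInterval) : fibI g (g t) t = 1 := by
  simp [fibI]

omit [Fintype α] in
theorem fibI_ne (g : unitInterval → α) {t : unitInterval} {a : α} (h : a ≠ g t) :
    fibI g a t = 0 := by
  simp [fibI, Ne.symm h]

theorem Fib.measurable {g : unitInterval → α} (hg : Fib g) {A : Type*} [MeasurableSpace A]
    {φ : A → unitInterval} (hφ : Measurable φ) {F : α → A → ℝ} (hF : ∀ a, Measurable (F a)) :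
    Measurable fun x => F (g (φ x)) x := by
  have h : (fun x => F (g (φ x)) x) = fun x => ∑ a, fibI g a (φ x) * F a x := by
    funext x
    rw [sum_eq_single (g (φ x)), fibI_self, one_mul]
    · intro a _ ha; rw [fibI_ne g ha, zero_mul]
    · simp
  rw [h]
  exact Finset.measurable_sum _ fun a _ =>
    ((measurable_one.indicator (hg a)).comp hφ).mul (hF a)

omit [Fintype β] in
theorem Fib.comp {g : unitInterval → α} (hg : Fib g) (φ : α → β) : Fib fun t => φ (g t) := by
  intro b
  have : (fun t => φ (g t)) ⁻¹' {b} = ⋃ a ∈ φ ⁻¹' {b}, g ⁻¹' {a} := by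
    ext t; simp
  rw [this]
  exact MeasurableSet.biUnion (Set.toFinite _).countable fun a _ => hg a

/-- The law of a finite valued function. -/
noncomputable def lawW (g : unitInterval → α) (hg : Fib g) : PW α where
  w := fun a => volume.real (g ⁻¹' {a})
  nonneg := fun _ => measureReal_nonneg
  sum_one := by
    rw [sum_measureReal_preimage_singleton _ fun a _ => hg a]
    simp

theorem samp_lawW (g : unitInterval → α) (hg : Fib g) : Samp (lawW g hg) g := ⟨hg, fun _ => rfl⟩

theorem exists_samp (μ : PW α) : ∃ g, Samp μ g := by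
  letI : MeasurableSpace α := ⊤
  haveI : DiscreteMeasurableSpace α := ⟨fun _ => trivial⟩
  haveI := μ.nonempty
  let p : PMF α := PMF.ofFintype (fun a => ENNReal.ofReal (μ.w a)) (by
    rw [← ENNReal.ofReal_sum_of_nonneg fun a _ => μ.nonneg a, μ.sum_one, ENNReal.ofReal_one])
  obtain ⟨g, hg, hg2⟩ := p.toMeasure.exists_measurable_map_eq
  refine ⟨g, fun a => hg (measurableSet_singleton a), fun a => ?_⟩
  rw [measureReal_def, ← Measure.map_apply hg (measurableSet_singleton a), hg2,
    PMF.toMeasure_apply_singleton _ _ (measurableSet_singleton a)]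
  exact ENNReal.toReal_ofReal (μ.nonneg a)

theorem integral_samp {ι : Type} [Fintype ι] [DecidableEq ι] {μ : ι → PW α}
    {g : ι → unitInterval → α} (h : ∀ l, Samp (μ l) (g l)) (F : (ι → α) → ℝ) :
    ∫ v : ι → unitInterval, F (fun l => g l (v l)) = (PW.pi μ).E F := by
  have h1 : (fun v : ι → unitInterval => F fun l => g l (v l)) =
      fun v => ∑ a : ι → α, (∏ l, fibI (g l) (a l) (v l)) * F a := by
    funext v
    rw [sum_eq_single (fun l => g l (v l))]
    · simp [fibI_self]
    · intro a _ ha
      obtain ⟨l, hl⟩ := Function.ne_iff.mp ha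
      rw [prod_eq_zero (mem_univ l) (fibI_ne _ hl), zero_mul]
    · simp
  rw [h1, integral_finset_sum]
  · refine sum_congr rfl fun a _ => ?_
    rw [integral_mul_const, integral_fintype_prod_volume_eq_prod fun l => fibI (g l) (a l)]
    simp only [fibI, integral_indicator_one ((h _).1 _), (h _).2, PW.pi]
  · intro a _
    exact (Integrable.fintype_prod (f := fun l => fibI (g l) (a l)) fun l =>
      (integrable_const 1).indicator ((h l).1 _)).mul_const _

/-- The end point of the sampled chain. -/
def run (s : ℕ → Ω → unitInterval → Ω) : (r : ℕ) → Ω → (Fin r → unitInterval) → Ω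
  | 0, ω, _ => ω
  | r + 1, ω, u => run s r (s r ω (u 0)) (Fin.tail u)

theorem measurable_run {s : ℕ → Ω → unitInterval → Ω} (hs : ∀ p ω, Fib (s p ω)) (F : Ω → ℝ)
    (r : ℕ) : ∀ ω, Measurable fun u => F (run s r ω u) := by
  induction r with
  | zero => exact fun ω => measurable_const (a := F ω)
  | succ r ih =>
    intro ω
    exact (hs r ω).measurable (measurable_pi_apply 0)
      (F := fun ω' (u : Fin (r + 1) → unitInterval) => F (run s r ω' (Fin.tail u)))
      fun ω' => (ih ω').comp (measurable_pi_lambda _ fun p => measurable_pi_apply p.succ)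

/-- Exponents listed from the outermost level. -/
def mrev (m : ℕ → ℝ) (r : ℕ) : Fin r → ℝ := fun p => m (r - 1 - p)

theorem tail_mrev (m : ℕ → ℝ) (r : ℕ) : Fin.tail (mrev m (r + 1)) = mrev m r := by
  funext p
  simp only [Fin.tail, mrev, Fin.val_succ]
  congr 1
  omega

theorem rsb_run {ι : Type} [Fintype ι] [DecidableEq ι] {m : ℕ → ℝ} (hm : ∀ j, 0 < m j) {Q : Ch Ω}
    {s : ℕ → Ω → unitInterval → Ω} (hs : ∀ p ω, Samp (Q p ω) (s p ω)) (G : (ι → Ω) → ℝ) (r : ℕ) :
    ∀ w : ι → Ω, rsb volume r (mrev m r) (fun v : Fin r → ι → unitInterval =>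
      Real.exp (G fun l => run s r (w l) fun p => v p l)) =
      Real.exp (X m (piCh fun _ : ι => Q) 0 G r w) := by
  induction r with
  | zero => intro w; rfl
  | succ r ih =>
    intro w
    have h1 : ∀ u : ι → unitInterval, rsb volume r (mrev m r) (fun v : Fin r → ι → unitInterval =>
        Real.exp (G fun l => run s (r + 1) (w l)
          fun p => (Fin.cons u v : Fin (r + 1) → ι → unitInterval) p l)) ^ m r =
        Real.exp (m r * X m (piCh fun _ : ι => Q) 0 G r fun l => s r (w l) (u l)) := fun u => by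
      rw [mul_comm, Real.exp_mul, ← ih]; rfl
    have h2 : mrev m (r + 1) 0 = m r := rfl
    rw [rsb, tail_mrev, h2]
    simp only [h1]
    rw [integral_samp (fun l => hs r (w l))
      fun z => Real.exp (m r * X m (piCh fun _ : ι => Q) 0 G r z), X_succ (Nat.zero_le _)]
    change ((piCh (fun _ : ι => Q) r w).E _) ^ _ = _
    rw [← exp_lam (hm r), ← Real.exp_mul]
    congr 1
    field_simp [(hm r).ne']

/-- The trial function attached to finite trial data and samplers. -/
def xrun (y : FT) (g : unitInterval → y.I) (s : ℕ → y.Ω → unitInterval → y.Ω)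
    (u : Fin (y.r + 1) → unitInterval) : ℝ := y.xb (g (u 0)) (run s y.r y.st (Fin.tail u))

theorem YG_pos_T {ι : Type} [Fintype ι] [DecidableEq ι] (G : (ι → Bool) → ℝ) {x : ι → ℝ}
    (hx : ∀ l, -1 ≤ x l ∧ x l ≤ 1) : 0 < YG G x := by
  have h := (PW.pi fun l => spinW (x l) (hx l)).E_pos fun z => Real.exp_pos (G z)
  simp only [E, PW.pi, spinW] at h
  simpa only [YG, mul_comm] using h

theorem calT_xrun (y : FT) {g : unitInterval → y.I} (hg : Samp y.μ g)
    {s : ℕ → y.Ω → unitInterval → y.Ω} (hs : ∀ p ω, Samp (y.Q p ω) (s p ω))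
    {ι : Type} [Fintype ι] [DecidableEq ι] (G : (ι → Bool) → ℝ) :
    calT y.r (mrev y.m y.r) (xrun y g s) (YG G) = TF y (YG G) := by
  rw [TF, ← integral_samp (fun _ => hg), calT]
  congr 1
  funext u
  rw [← Real.log_exp (X _ _ _ _ _ _), ← rsb_run y.m_pos hs]
  congr 2
  funext v
  rw [Real.exp_log (YG_pos_T _ fun l => y.xb_mem _ _)]
  rfl

theorem adm_xrun (y : FT) {g : unitInterval → y.I} (hg : Fib g)
    {s : ℕ → y.Ω → unitInterval → y.Ω} (hs : ∀ p ω, Fib (s p ω)) :
    Adm y.r (mrev y.m y.r) (xrun y g s) := by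
  refine ⟨fun p q hpq => ?_, fun p => ⟨y.m_pos _, y.m_lt _⟩, ?_, fun u => y.xb_mem _ _⟩
  · have h1 : (p : ℕ) < q := hpq
    have h2 := q.2
    exact (y.m_anti (show y.r - 1 - q + 1 ≤ y.r - 1 - p by omega)).trans_lt
      (y.m_strict _ (by omega))
  · exact hg.measurable (measurable_pi_apply 0)
      (F := fun i (u : Fin (y.r + 1) → unitInterval) => y.xb i (run s y.r y.st (Fin.tail u)))
      fun i => (measurable_run hs (y.xb i) y.r y.st).comp
        (measurable_pi_lambda _ fun p => measurable_pi_apply p.succ)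

end Vale.Agent.P168
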