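import Vale.Agent.P168.AssA

/-!
# P168: free energy of a multiset of terms
-/

namespace Vale.Agent.P168

open Finset PW
open scoped BigOperators

theorem mor_of_equiv {Ω Ω' : Type} [Fintype Ω] [Fintype Ω'] {P : Ch Ω} {P' : Ch Ω'} (e : Ω' ≃ Ω)
    (h : ∀ i ω x, (P' i ω).w x = (P i (e ω)).w (e x)) : Mor 0 (fun x => e x) P' P :=
  fun i _ ω F => Fintype.sum_equiv e _ _ fun x => by rw [h]

theorem X_shift {Ω : Type} [Fintype Ω] {P P' : Ch Ω} {a m : ℕ → ℝ} (ha : ∀ j, a (j + 1) = m j)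
    (hP : ∀ j, P' (j + 1) = P j) (G : Ω → ℝ) (p : ℕ) :
    X a P' 0 G (p + 1) = X m P 0 (X a P' 0 G 1) p := by
  induction p with
  | zero => rfl
  | succ p ih =>
    funext ω
    rw [X_succ (Nat.zero_le _), ih, X_succ (Nat.zero_le _), ha, hP]

theorem mor_curry {Ω ι κ : Type} [Fintype Ω] [Fintype ι] [DecidableEq ι] [Fintype κ]
    [DecidableEq κ] (Q : Ch Ω) : Mor 0 (fun (x : ι × κ → Ω) l j => x (l, j))
      (piCh fun _ : ι × κ => Q) (piCh fun _ : ι => piCh fun _ : κ => Q) :=
  mor_of_equiv (Equiv.curry ι κ Ω) fun i ω x => by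
    simp only [piCh, PW.pi, Fintype.prod_prod_type]; rfl

theorem E_pi_curry {α ι κ : Type} [Fintype α] [Fintype ι] [DecidableEq ι] [Fintype κ]
    [DecidableEq κ] (μ : PW α) (F : (ι → κ → α) → ℝ) :
    (PW.pi fun _ : ι × κ => μ).E (fun x => F fun l j => x (l, j)) =
      (PW.pi fun _ : ι => PW.pi fun _ : κ => μ).E F := by
  haveI := μ.nonempty
  exact mor_curry (ι := ι) (κ := κ) (fun _ _ => μ) 0 le_rfl (fun _ => Classical.arbitrary α) F

theorem exists_equiv_of_sum_eq {α ι ι' : Type} [Fintype ι] [Fintype ι'] {c : ι → α} {c' : ι' → α}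
    (h : ∑ l, ({c l} : Multiset α) = ∑ l, ({c' l} : Multiset α)) :
    ∃ e : ι ≃ ι', ∀ i, c' (e i) = c i := by
  classical
  have h1 : ∀ x, Fintype.card {i // c i = x} = Fintype.card {i // c' i = x} := fun x => by
    have := congrArg (Multiset.count x) h
    simp only [Multiset.count_sum', Multiset.count_singleton] at this
    simp only [Fintype.card_subtype, card_filter]
    simpa only [eq_comm] using this
  exact ⟨Equiv.ofFiberEquiv fun x => Fintype.equivOfCardEq (h1 x),
    fun i => Equiv.ofFiberEquiv_map _ i⟩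

theorem sum_singleton_get {α : Type} (m : Multiset α) :
    ∑ l : Fin m.toList.length, ({m.toList.get l} : Multiset α) = m := by
  have h := Multiset.map_map (fun x => ({x} : Multiset α)) m.toList.get univ.val
  rw [Fin.univ_val_map, List.ofFn_get, Multiset.coe_toList] at h
  exact (congrArg Multiset.sum h).symm.trans (Multiset.sum_map_singleton m)

section val
variable {W S : Type} [Fintype W] [Fintype S] (a : ℕ → ℝ) (R : Ch W) (n : ℕ) (w0 : W) (ρ : PW S)
  (s0 : S) {ι ι' : Type} [Fintype ι] [DecidableEq ι] [Fintype ι'] [DecidableEq ι']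

/-- Spins together with independent message chains. -/
def baseCh (ι : Type) [Fintype ι] [DecidableEq ι] : Ch (S × (ι → W)) :=
  prodCh (fun _ _ => ρ) (piCh fun _ : ι => R)

/-- The energy function of a family of terms. -/
def hamU (H : S → ℝ) (c : ι → W → S → ℝ) (x : S × (ι → W)) : ℝ := H x.1 + ∑ l, c l (x.2 l) x.1

/-- Free energy of a family of terms. -/
noncomputable def valU (H : S → ℝ) (c : ι → W → S → ℝ) : ℝ :=
  X a (baseCh R ρ ι) 0 (hamU H c) n (s0, fun _ => w0)

/-- Free energy of a multiset of terms. -/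
noncomputable def valM (H : S → ℝ) (m : Multiset (W → S → ℝ)) : ℝ :=
  valU a R n w0 ρ s0 H m.toList.get

theorem valU_equiv (e : ι ≃ ι') (H : S → ℝ) (c : ι' → W → S → ℝ) :
    valU a R n w0 ρ s0 H (fun i => c (e i)) = valU a R n w0 ρ s0 H c := by
  have h : Mor 0 (fun x : S × (ι' → W) => (x.1, fun i => x.2 (e i))) (baseCh R ρ ι')
      (baseCh R ρ ι) :=
    mor_of_equiv ((Equiv.refl S).prodCongr (Equiv.arrowCongr e.symm (Equiv.refl W))) fun i ω x => by
      simp only [baseCh, prodCh, piCh, PW.pi, PW.prod]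
      rw [← e.prod_comp]; rfl
  have h2 := congrFun (h.X (a := a) (hamU H fun i => c (e i)) n) (s0, fun _ => w0)
  rw [valU, valU, ← h2]
  congr 1
  funext x
  simp only [hamU]
  rw [← e.sum_comp]

theorem valM_eq (H : S → ℝ) (c : ι → W → S → ℝ) :
    valM a R n w0 ρ s0 H (∑ l, {c l}) = valU a R n w0 ρ s0 H c := by
  obtain ⟨e, he⟩ := exists_equiv_of_sum_eq (sum_singleton_get (∑ l, ({c l} : Multiset _))).symm
  rw [valM, ← valU_equiv a R n w0 ρ s0 e]
  simp only [he]

theorem valU_option (H : S → ℝ) (c : ι → W → S → ℝ) (τ : W → S → ℝ) :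
    valU a R n w0 ρ s0 H (fun o : Option ι => o.elim τ c) = valU a R n w0 ρ s0 H c +
      X a (prodCh (T a (baseCh R ρ ι) 0 (hamU H c)) R) 0 (fun x => τ x.2 x.1.1) n
        ((s0, fun _ => w0), w0) := by
  let e : (S × (ι → W)) × W ≃ S × (Option ι → W) :=
    { toFun := fun x => (x.1.1, fun o => o.elim x.2 x.1.2)
      invFun := fun y => ((y.1, fun i => y.2 (some i)), y.2 none)
      left_inv := fun x => rfl
      right_inv := fun y => Prod.ext rfl (funext fun o => by cases o <;> rfl) }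
  have h : Mor 0 (fun x => e x) (prodCh (baseCh R ρ ι) R) (baseCh R ρ (Option ι)) :=
    mor_of_equiv e fun i ω x => by
      simp only [baseCh, prodCh, piCh, PW.pi, PW.prod, Fintype.prod_option]
      rw [mul_assoc, mul_comm (∏ _, _)]; rfl
  have h2 := congrFun (h.X (a := a) (hamU H fun o : Option ι => o.elim τ c) n)
    ((s0, fun _ => w0), w0)
  have h3 : e ((s0, fun _ => w0), w0) = (s0, fun _ => w0) :=
    Prod.ext rfl (funext fun o => by cases o <;> rfl)
  have h4 : (fun x => hamU H (fun o : Option ι => o.elim τ c) (e x)) =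
      fun x => hamU H c x.1 + τ x.2 x.1.1 := by
    funext x
    simp only [hamU, Fintype.sum_option]
    rw [add_assoc, add_comm (∑ _, _)]; rfl
  rw [h3, h4, X_add, T_prod_fst, (mor_fst _ _).X] at h2
  rw [valU, ← h2]; rfl

theorem valM_add (H : S → ℝ) (m : Multiset (W → S → ℝ)) (τ : W → S → ℝ) :
    valM a R n w0 ρ s0 H (m + {τ}) = valM a R n w0 ρ s0 H m +
      X a (prodCh (T a (baseCh R ρ _) 0 (hamU H m.toList.get)) R) 0 (fun x => τ x.2 x.1.1) n
        ((s0, fun _ => w0), w0) := by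
  rw [valM, valM.eq_1 a R n w0 ρ s0 H m, ← valU_option, ← valM_eq, ← valM_eq, sum_singleton_get,
    Fintype.sum_option]
  simp only [Option.elim]
  rw [sum_singleton_get, add_comm]

theorem abs_valM_add_sub_le (ha : ∀ i, 0 < a i) (H : S → ℝ) (m : Multiset (W → S → ℝ))
    {τ : W → S → ℝ} {b : ℝ} (hτ : ∀ w s, |τ w s| ≤ b) :
    |valM a R n w0 ρ s0 H (m + {τ}) - valM a R n w0 ρ s0 H m| ≤ b := by
  rw [valM_add, add_sub_cancel_left]
  exact abs_X_le ha (fun x => hτ _ _) _ _

theorem valU_sigma {κ : ι → Type} [∀ i, Fintype (κ i)] [∀ i, DecidableEq (κ i)] (H : ι → S → ℝ)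
    (c : ∀ i, κ i → W → S → ℝ) :
    valU a R n w0 (PW.pi fun _ : ι => ρ) (fun _ => s0) (fun s => ∑ i, H i (s i))
      (fun (p : Σ i, κ i) w s => c p.1 p.2 w (s p.1)) = ∑ i, valU a R n w0 ρ s0 (H i) (c i) := by
  let e : (∀ i, S × (κ i → W)) ≃ (ι → S) × ((Σ i, κ i) → W) :=
    { toFun := fun x => (fun i => (x i).1, fun p => (x p.1).2 p.2)
      invFun := fun y i => (y.1 i, fun l => y.2 ⟨i, l⟩)
      left_inv := fun x => rfl
      right_inv := fun y => rfl }
  have h : Mor 0 (fun x => e x) (piCh fun i => baseCh R ρ (κ i))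
      (baseCh R (PW.pi fun _ : ι => ρ) (Σ i, κ i)) :=
    mor_of_equiv e fun i ω x => by
      simp only [baseCh, prodCh, piCh, PW.pi, PW.prod, prod_mul_distrib, Fintype.prod_sigma]
      rfl
  have h2 := congrFun (h.X (a := a) (hamU (fun s => ∑ i, H i (s i))
    fun (p : Σ i, κ i) w s => c p.1 p.2 w (s p.1)) n) fun _ => (s0, fun _ => w0)
  have h4 : (fun x => hamU (fun s => ∑ i, H i (s i))
      (fun (p : Σ i, κ i) w s => c p.1 p.2 w (s p.1)) (e x)) =
      fun x => ∑ i, hamU (H i) (c i) (x i) := by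
    funext x
    simp only [hamU, Fintype.sum_sigma, sum_add_distrib]
    rfl
  rw [h4, X_pi] at h2
  exact h2.symm

/-- Placing single-site terms at the sites. -/
noncomputable def placeU (W S ι : Type) [Fintype ι] :
    (ι → Multiset (W → S → ℝ)) →+ Multiset (W → (ι → S) → ℝ) where
  toFun := fun x => ∑ i, (x i).map fun τ w s => τ w (s i)
  map_zero' := by simp
  map_add' := fun x y => by simp [sum_add_distrib]

theorem valM_place (H : ι → S → ℝ) (x : ι → Multiset (W → S → ℝ)) :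
    valM a R n w0 (PW.pi fun _ : ι => ρ) (fun _ => s0) (fun s => ∑ i, H i (s i)) (placeU W S ι x) =
      ∑ i, valM a R n w0 ρ s0 (H i) (x i) := by
  simp only [valM.eq_1 a R n w0 ρ]
  rw [← valU_sigma, ← valM_eq, Fintype.sum_sigma]
  congr 1
  refine sum_congr rfl fun i _ => ?_
  conv_lhs => rw [← sum_singleton_get (x i)]
  rw [← Multiset.coe_mapAddMonoidHom, map_sum]
  rfl

end val

theorem valU_shift (y : FT) {κ S ι : Type} [Fintype κ] [DecidableEq κ] [Fintype S] [Fintype ι]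
    [DecidableEq ι] (ρ : PW S) (s0 : S) (H : S → ℝ) (c : ι → (κ → y.Ω) → S → ℝ) :
    valU y.a (piCh fun _ : κ => y.Qs) (y.r + 1) (fun _ => y.st) ρ s0 H c =
      X y.m (piCh fun _ : ι × κ => y.Q) 0
        (fun w => lam 1 ρ fun s => H s + ∑ l, c l (fun j => w (l, j)) s) y.r fun _ => y.st := by
  have h1 : X y.a (baseCh (piCh fun _ : κ => y.Qs) ρ ι) 0 (hamU H c) 1 =
      fun x => lam 1 ρ fun s => H s + ∑ l, c l (x.2 l) s := by
    funext x
    rw [X_succ le_rfl]
    simp only [baseCh, prodCh, piCh, FT.Qs, pi_pure, lam, E_prod, E_pure, FT.a, X, hamU]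
  rw [valU, X_shift (m := y.m) (P := baseCh (piCh fun _ : κ => y.Q) ρ ι) (fun _ => rfl)
    (fun _ => rfl), h1]
  have h2 := congrFun ((mor_snd (fun _ _ => ρ) (piCh fun _ : ι => piCh fun _ : κ => y.Q)).X
    (a := y.m) (fun w => lam 1 ρ fun s => H s + ∑ l, c l (w l) s) y.r) (s0, fun _ _ => y.st)
  have h3 := congrFun ((mor_curry (ι := ι) (κ := κ) y.Q).X
    (a := y.m) (fun w => lam 1 ρ fun s => H s + ∑ l, c l (w l) s) y.r) fun _ => y.st
  exact h2.trans h3.symm

theorem X_Qs (y : FT) {κ : Type} [Fintype κ] [DecidableEq κ] (G : (κ → y.Ω) → ℝ) :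
    X y.a (piCh fun _ : κ => y.Qs) 0 G (y.r + 1) = X y.m (piCh fun _ : κ => y.Q) 0 G y.r := by
  rw [X_shift (m := y.m) (P := piCh fun _ : κ => y.Q) (fun _ => rfl) (fun _ => rfl)]
  congr 1
  funext x
  rw [X_succ le_rfl]
  simp only [piCh, FT.Qs, pi_pure, FT.a, X]
  exact lam_pure one_pos _ _

theorem FT.a_pos (y : FT) (j : ℕ) : 0 < y.a j := by
  cases j with
  | zero => exact one_pos
  | succ j => exact y.m_pos j

end Vale.Agent.P168
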